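import Vale.Agent.P363.Ext.Small.Gain
import Vale.Agent.P363.Ext.Bulk

/-!
P363, Kohn-Sham side, smallness near the plane: profiles and the ground orbital are small against
`z G` on a narrow cone. Each step of the iteration shrinks the range of the ratio with the odd
orbital by a fixed factor, up to the error of the near-plane estimate.
-/

noncomputable section

namespace Vale.Agent.P363.Ext.Small

open MeasureTheory Filter Metric Set
open scoped BigOperators Topology ContDiff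

variable {S : Setup}

/-- The negative of a profile is a profile. -/
lemma profile_neg {ν : ℝ} {f : Space → ℝ} (h : Profile S ν f) : Profile S ν fun x => -f x := by
  obtain ⟨s, α, hs, hα, rfl⟩ := h.comb
  exact ⟨s, fun j => -α j, hs, by simpa using hα, by funext x; simp [Finset.sum_neg_distrib]⟩

/-- `√n ≤ 2 C z G` from the height `1 / r` on. -/
lemma sqrt_n_le {x : Space} (hR : S.R₁ ≤ ‖x‖) (h1 : 1 ≤ ‖x‖ * height x) :
    Real.sqrt (S.n x) ≤ 2 * S.C * zG S x := by
  have hr1 : 1 ≤ ‖x‖ := (S.data.one_le.trans S.R₀_le).trans hR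
  have hz : 0 ≤ height x := by
    by_contra h
    linarith [mul_nonpos_of_nonneg_of_nonpos (norm_nonneg x) (not_le.1 h).le]
  have hG : 0 < S.G x := tailG_pos _ _ (by linarith)
  refine (S.data.upper x (S.R₀_le.trans hR)).trans ?_
  have h3 : (‖x‖ ^ 3)⁻¹ ≤ height x := by
    rw [inv_le_iff_one_le_mul₀ (by positivity)]
    refine h1.trans ?_
    rw [mul_comm]
    exact mul_le_mul_of_nonneg_left (le_self_pow₀ hr1 (by norm_num)) hz
  rw [abs_of_nonneg hz]
  calc S.C * (height x + (‖x‖ ^ 3)⁻¹) * tailG S.a S.k ‖x‖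
      ≤ S.C * (2 * height x) * S.G x :=
        mul_le_mul_of_nonneg_right (mul_le_mul_of_nonneg_left (by linarith) (C_pos S).le) hG.le
    _ = _ := by simp only [zG]; ring

/-- An orbital of the sector `w` below `hi φu` gives a candidate. -/
lemma cand_of {hi R D B L : ℝ} {f w p : Space → ℝ} (hR₁ : S.R₁ < R) (hD : 0 < D) (hD4 : 4 * D ≤ 1)
    (hB : 0 ≤ B) (hL : 0 < L) (hf : ContinuousOn f (belt S.R₁))
    (hrot : ∀ θ x, f (rot θ x) = f x) (hw : Measurable w) {Bw : ℝ}
    (hwb : ∀ x ∈ belt S.R₁, |w x| ≤ Bw)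
    (he : WeakPoisson (belt S.R₁) f fun x => 2 * (S.v x - S.μ + w x) * f x)
    (hp : ContinuousOn p (belt S.R₁)) (hpn : ∀ x ∈ cone R D, 0 ≤ p x)
    (hnn : ∀ x ∈ cone R D, 0 ≤ hi * S.φu x - f x)
    (hle : ∀ x ∈ cone R D, hi * S.φu x - f x ≤ L * S.φu x)
    (hsrc : ∀ x ∈ cone R D,
      -(2 * w x * f x) ≤ B * L * zG S x / ‖x‖ ^ 2 - p x) :
    Cand S R D B L (fun x => hi * S.φu x - f x) p := by
  have h1 : (1 : ℝ) ≤ R := le_trans (S.data.one_le.trans S.R₀_le) hR₁.le
  have hu := S.cont_u.continuousOn (s := belt S.R₁)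
  refine ⟨h1, hR₁, hD, hD4, hB, hL, (continuousOn_const.mul hu).sub hf, hp,
    fun θ x => by simp only [S.rot_u, hrot], hnn, hpn, hle, ?_⟩
  refine ⟨fun x => hi * (2 * (S.v x - S.μ) * S.φu x) + -1 * (2 * (S.v x - S.μ + w x) * f x),
    ?_, ?_, ?_⟩
  · have hv : LocMemLp 2 (belt S.R₁) fun x => S.v x + -S.μ :=
      (S.v_two.mono (subset_univ _)).add (LocMemLp.of_continuousOn continuousOn_const)
    have hwl : LocMemLp 2 (belt S.R₁) w := fun K hK hKU => by
      have : IsFiniteMeasure (volume.restrict K) :=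
        isFiniteMeasure_restrict.2 hK.measure_lt_top.ne
      exact MemLp.of_bound hw.aestronglyMeasurable Bw
        ((ae_restrict_iff' hK.measurableSet).2 (.of_forall fun x hx => hwb x (hKU hx)))
    have ha := ((hv.const_mul 2).mul_continuousOn hu).const_mul hi
    have hb := (((hv.add hwl).const_mul 2).mul_continuousOn hf).const_mul (-1)
    intro K hK hKU
    refine ((ha.add hb) K hK hKU).ae_eq (.of_forall fun x => ?_)
    ring
  · have e1 := (S.eq_u.mono (belt_subset_far S.R₁)).const_mul hi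
    have e2 := he.const_mul (-1)
    refine (congrArg₂ (WeakPoisson (belt S.R₁)) ?_ rfl).mp (e1.add e2)
    funext x; ring
  · filter_upwards [S.defect_ge] with x hx hxc
    have hxb : x ∈ belt S.R₁ := cone_subset_belt hR₁ hD4 hxc
    have h2 : S.v x - S.μ ≤ S.X x + farPot S.a S.k ‖x‖ := by
      have := hx (belt_subset_far S.R₁ hxb)
      simp only [Setup.X]
      linarith
    have h3 := mul_le_mul_of_nonneg_left h2 (hnn x hxc)
    have h4 := hsrc x hxc
    simp only [zG] at h4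
    linarith

/-- The bottom of the cone is not empty. -/
lemma exists_low {R D δ : ℝ} (hD : 0 < D) (hδ : 0 < δ) :
    ∃ x ∈ cone R D, height x = δ := by
  set t := |R| + 1 / δ + δ / D with ht
  set x : Space := t • unit3 0 + δ • unit3 2 with hx
  have hh : height x = δ := by simp [hx, height, unit3]
  have ht0 : 0 < t := by positivity
  have hn : t ≤ ‖x‖ := by
    have h0 : |x 0| ≤ ‖x‖ := by simpa using PiLp.norm_apply_le x 0
    have e0 : x 0 = t := by simp [hx, unit3]
    rw [e0] at h0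
    linarith [le_abs_self t]
  have h1 : 0 < 1 / δ := by positivity
  have h2 : 0 < δ / D := by positivity
  refine ⟨x, ⟨by linarith [le_abs_self R], ?_, ?_⟩, hh⟩
  · rw [hh]
    have : 1 / δ ≤ ‖x‖ := by linarith [abs_nonneg R]
    rwa [div_le_iff₀ hδ] at this
  · rw [hh]
    have : δ / D ≤ ‖x‖ := by linarith [abs_nonneg R]
    rwa [div_le_iff₀ hD, mul_comm] at this

/-- The range of the ratio with the odd orbital is at most `L`. -/
def Osc (S : Setup) (e R D L : ℝ) : Prop :=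
  ∀ (ν : ℝ) (f : Space → ℝ), Profile S ν f → ∃ lo hi : ℝ, lo ≤ -e ∧ e ≤ hi ∧ hi - lo ≤ L ∧
    ∀ x ∈ cone R D, lo * S.φu x ≤ f x ∧ f x ≤ hi * S.φu x

/-- One step of the iteration for profiles. -/
theorem osc_step (S : Setup) : ∃ γ Rb : ℝ, 0 < γ ∧ γ ≤ 1 ∧ S.R₁ < Rb ∧
    ∀ e δ R D L : ℝ, 0 < e → 0 < δ → δ ≤ 1 → 0 < D → 4 * D ≤ 1 → Rb ≤ R →
      (∀ ν f, Profile S ν f → ∀ x ∈ cone R D, height x ≤ δ → |f x| ≤ e * S.φu x) →
      Osc S e R D L → ∃ R' D' : ℝ, R ≤ R' ∧ 0 < D' ∧ D' ≤ D ∧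
        Osc S e R' D' ((1 - γ) * L + 2 * e) := by
  obtain ⟨c', R₀, hc', hbulk⟩ := bulkOne S
  have hC := C_pos S
  obtain ⟨γ₁, hγ₁, hgain⟩ := cand_gain S (4 * S.C) c' (by positivity) hc'
  set γ := min (γ₁ / (2 * S.C)) 1
  have hγ : 0 < γ := lt_min (by positivity) one_pos
  refine ⟨γ, max R₀ S.R₁ + 1, hγ, min_le_right _ _, by linarith [le_max_right R₀ S.R₁],
    fun e δ R D L he hδ hδ1 hD hD4 hR hlow hosc => ?_⟩
  have hR₁ : S.R₁ < R := by linarith [le_max_right R₀ S.R₁]
  obtain ⟨R', D', hD', hD'D, hRR', hg⟩ := hgain δ R D hδ hδ1 hD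
  refine ⟨R', D', hRR', hD', hD'D, fun ν f hf => ?_⟩
  have hsub : ∀ x ∈ cone R' D', x ∈ cone R D := fun x hx =>
    ⟨hRR'.trans hx.1, hx.2.1,
      hx.2.2.trans (mul_le_mul_of_nonneg_right hD'D (norm_nonneg x))⟩
  have hzG : ∀ x ∈ cone R D, 0 < zG S x := fun x hx =>
    mul_pos (height_pos_of_cone hx) (tailG_pos _ _ (norm_pos_of_cone hx))
  have hφpos : ∀ x ∈ cone R D, c' * zG S x ≤ S.φu x ∧ S.φu x ≤ 2 * S.C * zG S x := fun x hx => by
    refine ⟨?_, phiu_le (hR₁.le.trans hx.1) hx.2.1⟩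
    refine le_trans (le_of_eq ?_) (hbulk x (by linarith [le_max_left R₀ S.R₁, hx.1])
      (inv_le_height hx))
    simp only [zG]; ring
  obtain ⟨lo, hi, hlo, hhi, hL, hb⟩ := hosc ν f hf
  have hw : ∃ w : Space → ℝ, Measurable w ∧ (∀ x ∈ belt S.R₁, |w x| ≤ 1) ∧
      (∀ x ∈ belt S.R₁, |w x * f x| ≤ 1 / ‖x‖ ^ 2 * |f x|) ∧
      WeakPoisson (belt S.R₁) f fun x => 2 * (S.v x - S.μ + w x) * f x := by
    rcases hf.sector with hν | h0
    · refine ⟨centrifugal ν, measurable_centrifugal ν,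
        fun x hx => (abs_centrifugal_le hν hx).2, fun x hx => ?_, hf.eqn⟩
      rw [abs_mul]
      exact mul_le_mul_of_nonneg_right (abs_centrifugal_le hν hx).1 (abs_nonneg _)
    · subst h0
      exact ⟨fun _ => 0, measurable_const, fun x _ => by simp, fun x _ => by simp,
        by simpa using weakPoisson_zero (belt S.R₁)⟩
  obtain ⟨w, hwm, hwb, hwf, heq⟩ := hw
  have hsrc : ∀ x ∈ cone R D, |2 * w x * f x| ≤ 4 * S.C * (hi - lo) * zG S x / ‖x‖ ^ 2 := by
    intro x hx
    obtain ⟨h1, h2⟩ := hb x hx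
    obtain ⟨hp1, hp2⟩ := hφpos x hx
    have hz := hzG x hx
    have hu : 0 ≤ S.φu x := le_trans (mul_nonneg hc'.le hz.le) hp1
    have hf' : |f x| ≤ (hi - lo) * (2 * S.C * zG S x) := by
      refine le_trans (abs_le.2 ⟨?_, ?_⟩) (mul_le_mul_of_nonneg_left hp2 (by linarith))
      · have : 0 ≤ hi * S.φu x := mul_nonneg (by linarith) hu
        linarith
      · have : 0 ≤ -lo * S.φu x := mul_nonneg (by linarith) hu
        linarith
    rw [mul_assoc, abs_mul, abs_two]
    calc 2 * |w x * f x| ≤ 2 * (1 / ‖x‖ ^ 2 * |f x|) :=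
          mul_le_mul_of_nonneg_left (hwf x (cone_subset_belt hR₁ hD4 hx)) zero_le_two
      _ ≤ 2 * (1 / ‖x‖ ^ 2 * ((hi - lo) * (2 * S.C * zG S x))) := by gcongr
      _ = _ := by ring
  have hLp : 0 < hi - lo := by linarith
  have hc₁ : Cand S R D (4 * S.C) (hi - lo) (fun x => hi * S.φu x - f x) fun _ => 0 :=
    cand_of hR₁ hD hD4 (by positivity) hLp hf.continuousOn hf.axial.1 hwm hwb heq
      continuousOn_const (fun _ _ => le_rfl) (fun x hx => sub_nonneg.2 (hb x hx).2)
      (fun x hx => by have := (hb x hx).1; linarith)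
      (fun x hx => by rw [sub_zero]; exact (neg_le_abs _).trans (hsrc x hx))
  have hneg : WeakPoisson (belt S.R₁) (fun x => -f x) fun x =>
      2 * (S.v x - S.μ + w x) * -f x := by
    refine (congrArg₂ (WeakPoisson (belt S.R₁)) ?_ ?_).mp (heq.const_mul (-1)) <;>
      funext x <;> ring
  have hc₂ : Cand S R D (4 * S.C) (hi - lo) (fun x => -lo * S.φu x - -f x) fun _ => 0 :=
    cand_of hR₁ hD hD4 (by positivity) hLp hf.continuousOn.neg
      (fun θ x => congrArg Neg.neg (hf.axial.1 θ x)) hwm hwb hneg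
      continuousOn_const (fun _ _ => le_rfl) (fun x hx => by have := (hb x hx).1; linarith)
      (fun x hx => by have := (hb x hx).2; linarith)
      (fun x hx => by
        rw [sub_zero, show -(2 * w x * -f x) = 2 * w x * f x by ring]
        exact (le_abs_self _).trans (hsrc x hx))
  obtain ⟨x₀, hx₀, hx₀δ⟩ := exists_low (R := R') hD' hδ
  have hlow₀ := abs_le.1 (hlow ν f hf x₀ (hsub x₀ hx₀) hx₀δ.le)
  have hu₀ : 0 < S.φu x₀ :=
    lt_of_lt_of_le (mul_pos hc' (hzG x₀ (hsub x₀ hx₀))) (hφpos x₀ (hsub x₀ hx₀)).1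
  have hconv : ∀ x ∈ cone R' D', ∀ t, γ₁ * (hi - lo) * zG S x ≤ t →
      γ * (hi - lo) * S.φu x ≤ t := by
    intro x hx t ht
    refine le_trans ?_ ht
    have hz := hzG x (hsub x hx)
    have h1 : γ * (2 * S.C) ≤ γ₁ :=
      (le_div_iff₀ (by positivity)).1 (min_le_left _ _)
    calc γ * (hi - lo) * S.φu x ≤ γ * (hi - lo) * (2 * S.C * zG S x) :=
          mul_le_mul_of_nonneg_left (hφpos x (hsub x hx)).2 (by positivity)
      _ = γ * (2 * S.C) * ((hi - lo) * zG S x) := by ring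
      _ ≤ γ₁ * ((hi - lo) * zG S x) := mul_le_mul_of_nonneg_right h1 (by positivity)
      _ = _ := by ring
  have hshrink : (1 - γ) * (hi - lo) + 2 * e ≤ (1 - γ) * L + 2 * e := by
    have : γ ≤ 1 := min_le_right _ _
    have := mul_le_mul_of_nonneg_left hL (by linarith : 0 ≤ 1 - γ)
    linarith
  rcases hg (hi - lo) _ _ _ _ hc₁ hc₂ (fun x hx => by
      have := mul_le_mul_of_nonneg_left (hφpos x hx).1 hLp.le
      linarith) with hA | hA
  · have key : -e ≤ hi - γ * (hi - lo) := by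
      have h1 := hconv x₀ hx₀ _ (hA x₀ hx₀ hx₀δ.ge)
      refine le_of_mul_le_mul_right ?_ hu₀
      linarith [hlow₀.1]
    refine ⟨lo, max e (hi - γ * (hi - lo)), hlo, le_max_left _ _, le_trans ?_ hshrink,
      fun x hx => ⟨(hb x (hsub x hx)).1, ?_⟩⟩
    · have : max e (hi - γ * (hi - lo)) ≤ hi - γ * (hi - lo) + 2 * e :=
        max_le (by linarith) (by linarith)
      linarith
    · have hu : 0 ≤ S.φu x :=
        le_trans (mul_nonneg hc'.le (hzG x (hsub x hx)).le) (hφpos x (hsub x hx)).1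
      rcases le_or_gt δ (height x) with hz | hz
      · have h1 := hconv x hx _ (hA x hx hz)
        refine le_trans ?_ (mul_le_mul_of_nonneg_right (le_max_right _ _) hu)
        linarith
      · exact ((le_abs_self _).trans (hlow ν f hf x (hsub x hx) hz.le)).trans
          (mul_le_mul_of_nonneg_right (le_max_left _ _) hu)
  · have key : lo + γ * (hi - lo) ≤ e := by
      have h1 := hconv x₀ hx₀ _ (hA x₀ hx₀ hx₀δ.ge)
      refine le_of_mul_le_mul_right ?_ hu₀
      linarith [hlow₀.2]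
    refine ⟨min (-e) (lo + γ * (hi - lo)), hi, min_le_left _ _, hhi, le_trans ?_ hshrink,
      fun x hx => ⟨?_, (hb x (hsub x hx)).2⟩⟩
    · have : lo + γ * (hi - lo) - 2 * e ≤ min (-e) (lo + γ * (hi - lo)) :=
        le_min (by linarith) (by linarith)
      linarith
    · have hu : 0 ≤ S.φu x :=
        le_trans (mul_nonneg hc'.le (hzG x (hsub x hx)).le) (hφpos x (hsub x hx)).1
      rcases le_or_gt δ (height x) with hz | hz
      · have h1 := hconv x hx _ (hA x hx hz)
        refine le_trans (mul_le_mul_of_nonneg_right (min_le_right _ _) hu) ?_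
        linarith
      · refine le_trans (mul_le_mul_of_nonneg_right (min_le_left _ _) hu) ?_
        linarith [(abs_le.1 (hlow ν f hf x (hsub x hx) hz.le)).1]

/-- One step of the iteration for the ground orbital. -/
theorem ground_step (S : Setup) : ∃ γ Rb : ℝ, 0 < γ ∧ γ ≤ 1 ∧ S.R₁ < Rb ∧
    ∀ e δ R D L : ℝ, 0 < δ → δ ≤ 1 → 0 < D → 4 * D ≤ 1 → Rb ≤ R → 0 < L →
      (∀ x ∈ cone R D, height x ≤ δ → S.φ₀ x ≤ e * S.φu x) →
      (∀ x ∈ cone R D, S.φ₀ x ≤ L * S.φu x) → ∃ R' D' : ℝ, R ≤ R' ∧ 0 < D' ∧ D' ≤ D ∧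
        ∀ x ∈ cone R' D', S.φ₀ x ≤ max ((1 - γ) * L) e * S.φu x := by
  obtain ⟨c', R₀, hc', hbulk⟩ := bulkOne S
  have hC := C_pos S
  have hgap := S.gap_pos
  obtain ⟨γ₁, hγ₁, hgain⟩ := cand_gain S 0 (c' * min 1 (2 * S.gap)) le_rfl
    (mul_pos hc' (lt_min one_pos (by positivity)))
  set γ := min (γ₁ / (2 * S.C)) 1
  have hγ : 0 < γ := lt_min (by positivity) one_pos
  refine ⟨γ, max R₀ S.R₁ + 1, hγ, min_le_right _ _, by linarith [le_max_right R₀ S.R₁],
    fun e δ R D L hδ hδ1 hD hD4 hR hL hlow hb => ?_⟩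
  have hR₁ : S.R₁ < R := by linarith [le_max_right R₀ S.R₁]
  obtain ⟨R', D', hD', hD'D, hRR', hg⟩ := hgain δ R D hδ hδ1 hD
  refine ⟨R', D', hRR', hD', hD'D, fun x hx => ?_⟩
  have hxc : x ∈ cone R D := ⟨hRR'.trans hx.1, hx.2.1,
    hx.2.2.trans (mul_le_mul_of_nonneg_right hD'D (norm_nonneg x))⟩
  have hc : Cand S R D 0 L (fun x => L * S.φu x - S.φ₀ x) fun x => 2 * S.gap * S.φ₀ x :=
    cand_of (w := fun _ => S.gap) (Bw := S.gap) hR₁ hD hD4 le_rfl hL S.cont₀.continuousOn
      S.axial₀.1 measurable_const (fun x _ => by rw [abs_of_pos hgap])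
      (S.eq₀.mono (belt_subset_far S.R₁))
      (continuousOn_const.mul S.cont₀.continuousOn)
      (fun x _ => mul_nonneg (by positivity) (S.nonneg₀ x))
      (fun x hx => sub_nonneg.2 (hb x hx)) (fun x _ => by linarith [S.nonneg₀ x])
      (fun x _ => le_of_eq (by ring))
  have hu : 0 ≤ S.φu x := S.nonneg_u x (height_pos_of_cone hxc).le
  rcases le_or_gt δ (height x) with hz | hz
  · have hA : γ₁ * L * zG S x ≤ L * S.φu x - S.φ₀ x := by
      rcases hg L _ _ _ _ hc hc (fun y hy => by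
        have hm0 : 0 ≤ min 1 (2 * S.gap) := le_min zero_le_one (by positivity)
        have h1 : c' * zG S y ≤ S.φu y := le_trans (le_of_eq (by simp only [zG]; ring))
          (hbulk y (by linarith [le_max_left R₀ S.R₁, hy.1]) (inv_le_height hy))
        have h2 := mul_le_mul_of_nonneg_left h1 (mul_nonneg hm0 hL.le)
        have h3 := mul_le_mul_of_nonneg_right (min_le_left 1 (2 * S.gap))
          (sub_nonneg.2 (hb y hy))
        have h4 := mul_le_mul_of_nonneg_right (min_le_right 1 (2 * S.gap)) (S.nonneg₀ y)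
        have h5 := sub_nonneg.2 (hb y hy)
        have h6 : 0 ≤ 2 * S.gap * S.φ₀ y := mul_nonneg (by positivity) (S.nonneg₀ y)
        linarith) with h | h <;> exact h x hx hz
    refine le_trans ?_ (mul_le_mul_of_nonneg_right (le_max_left _ _) hu)
    have h1 : γ * (2 * S.C) ≤ γ₁ := (le_div_iff₀ (by positivity)).1 (min_le_left _ _)
    have hzG : 0 ≤ zG S x :=
      mul_nonneg (height_pos_of_cone hxc).le (tailG_pos _ _ (norm_pos_of_cone hxc)).le
    have h2 : γ * L * S.φu x ≤ γ₁ * L * zG S x := by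
      calc γ * L * S.φu x ≤ γ * L * (2 * S.C * zG S x) :=
            mul_le_mul_of_nonneg_left (phiu_le (hR₁.le.trans hxc.1) hxc.2.1) (by positivity)
        _ = γ * (2 * S.C) * (L * zG S x) := by ring
        _ ≤ γ₁ * (L * zG S x) := mul_le_mul_of_nonneg_right h1 (by positivity)
        _ = _ := by ring
    linarith
  · exact (hlow x hxc hz.le).trans (mul_le_mul_of_nonneg_right (le_max_right _ _) hu)

/-- The common setting of both iterations. -/
lemma start (S : Setup) : ∃ c' Rc : ℝ, 0 < c' ∧ S.R₁ < Rc ∧ ∀ x : Space, Rc ≤ ‖x‖ →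
    1 ≤ ‖x‖ * height x → c' * zG S x ≤ S.φu x ∧ Real.sqrt (S.n x) ≤ 2 * S.C / c' * S.φu x := by
  obtain ⟨c', R₀, hc', hbulk⟩ := bulkOne S
  have hC := C_pos S
  refine ⟨c', max R₀ S.R₁ + 1, hc', by linarith [le_max_right R₀ S.R₁], fun x hx h1 => ?_⟩
  have hr : 0 < ‖x‖ := by
    linarith [le_max_right R₀ S.R₁, S.data.one_le.trans S.R₀_le]
  have hb : c' * zG S x ≤ S.φu x := by
    refine le_trans (le_of_eq ?_) (hbulk x (by linarith [le_max_left R₀ S.R₁])
      ((div_le_iff₀' hr).2 h1))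
    simp only [zG]; ring
  refine ⟨hb, (sqrt_n_le (by linarith [le_max_right R₀ S.R₁]) h1).trans ?_⟩
  calc 2 * S.C * zG S x = 2 * S.C / c' * (c' * zG S x) := by field_simp
    _ ≤ _ := mul_le_mul_of_nonneg_left hb (by positivity)

/-- Profiles are small against `z G` near the plane. -/
theorem smallProfiles : SmallProfilesStmt := by
  intro S ε hε
  obtain ⟨γ, Rb, hγ, hγ1, hRb, hstep⟩ := osc_step S
  obtain ⟨c', Rc, hc', hRc, hst⟩ := start S
  have hC := C_pos S
  set M := 2 * S.C / c'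
  set e := ε / (2 * S.C * (1 + 2 / γ)) with hedef
  have he : 0 < e := by positivity
  obtain ⟨δn, Rn, hδn, -, hnear⟩ := near_plane point ring S 1 (e * c') (mul_pos he hc')
  set δ := min δn 1
  have hδ : 0 < δ := lt_min hδn one_pos
  set Ri := max (max Rb Rc) Rn
  have hlow : ∀ R D : ℝ, Ri ≤ R → 4 * D ≤ 1 → ∀ ν f, Profile S ν f → ∀ x ∈ cone R D,
      height x ≤ δ → |f x| ≤ e * S.φu x := by
    intro R D hR _ ν f hf x hx hxδ
    obtain ⟨w, hw, -⟩ := hf.evenSol
    simp only [Ri, max_le_iff] at hR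
    refine (hnear f w hw x (hR.2.trans hx.1) (inv_le_height hx)
      (hxδ.trans (min_le_left _ _))).trans ?_
    have := mul_le_mul_of_nonneg_left (hst x (hR.1.2.trans hx.1) hx.2.1).1 he.le
    simp only [zG] at this
    linarith
  have hiter : ∀ k : ℕ, ∃ R D : ℝ, Ri ≤ R ∧ 0 < D ∧ 4 * D ≤ 1 ∧
      Osc S e R D ((1 - γ) ^ k * (2 * (M + e)) + 2 * e / γ) := by
    intro k
    induction k with
    | zero =>
      have hM : 0 < M := by positivity
      have h2 : 0 < 2 * e / γ := by positivity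
      refine ⟨Ri, 1 / 4, le_rfl, by norm_num, by norm_num, fun ν f hf =>
        ⟨-(M + e), M + e, by linarith, by linarith, by rw [pow_zero]; linarith,
          fun x hx => ?_⟩⟩
      have hR : Rc ≤ ‖x‖ := ((le_max_right _ _).trans (le_max_left _ _)).trans hx.1
      have hu : 0 ≤ S.φu x := S.nonneg_u x (height_pos_of_cone hx).le
      have hfa := abs_le.1 ((hf.abs_le_sqrt (cone_subset_belt
        (lt_of_lt_of_le hRc ((le_max_right _ _).trans (le_max_left _ _))) (by norm_num) hx)).trans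
        (hst x hR hx.2.1).2)
      have := mul_nonneg he.le hu
      constructor <;> linarith [hfa.1, hfa.2]
    | succ k ih =>
      obtain ⟨R, D, hR, hD, hD4, hO⟩ := ih
      have hRb' : Rb ≤ R := ((le_max_left _ _).trans (le_max_left _ _)).trans hR
      obtain ⟨R', D', hR', hD', hD'D, hO'⟩ := hstep e δ R D _ he hδ (min_le_right _ _) hD hD4
        hRb' (hlow R D hR hD4) hO
      refine ⟨R', D', hR.trans hR', hD', by linarith, fun ν f hf => ?_⟩
      obtain ⟨lo, hi, h1, h2, h3, h4⟩ := hO' ν f hf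
      refine ⟨lo, hi, h1, h2, h3.trans (le_of_eq ?_), h4⟩
      rw [pow_succ]
      field_simp
      ring
  obtain ⟨k, hk⟩ : ∃ k : ℕ, (1 - γ) ^ k * (2 * (M + e)) ≤ e := by
    have hpos : 0 < 2 * (M + e) := by positivity
    obtain ⟨k, hk⟩ := exists_pow_lt_of_lt_one (div_pos he hpos) (by linarith : 1 - γ < 1)
    exact ⟨k, ((lt_div_iff₀ hpos).1 hk).le⟩
  obtain ⟨R, D, hR, hD, hD4, hO⟩ := hiter k
  refine ⟨D, R, hD, fun ν f hf x hxR hxlo hxhi => ?_⟩
  obtain ⟨lo, hi, h1, h2, h3, h4⟩ := hO ν f hf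
  have hR0 : S.R₁ < R :=
    lt_of_lt_of_le hRc (((le_max_right _ _).trans (le_max_left _ _)).trans hR)
  have hr : 0 < ‖x‖ := by linarith [S.data.one_le.trans S.R₀_le]
  have hx : x ∈ cone R D := ⟨hxR, (div_le_iff₀' hr).1 hxlo, hxhi⟩
  have hu : 0 ≤ S.φu x := S.nonneg_u x (height_pos_of_cone hx).le
  obtain ⟨h5, h6⟩ := h4 x hx
  have hbound : |f x| ≤ (e + 2 * e / γ) * S.φu x := by
    refine abs_le.2 ⟨?_, ?_⟩
    · have := mul_le_mul_of_nonneg_right (by linarith : -(e + 2 * e / γ) ≤ lo) hu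
      linarith
    · have := mul_le_mul_of_nonneg_right (by linarith : hi ≤ e + 2 * e / γ) hu
      linarith
  refine hbound.trans ((mul_le_mul_of_nonneg_left (phiu_le (hR0.le.trans hxR) hx.2.1)
    (by positivity)).trans (le_of_eq ?_))
  rw [hedef]
  field_simp

/-- The ground orbital is small against `z G` near the plane. -/
theorem groundSmall : GroundSmallStmt := by
  intro S ε hε
  obtain ⟨γ, Rb, hγ, hγ1, hRb, hstep⟩ := ground_step S
  obtain ⟨c', Rc, hc', hRc, hst⟩ := start S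
  have hC := C_pos S
  set M := 2 * S.C / c'
  set e := ε / (2 * S.C) with hedef
  have he : 0 < e := by positivity
  obtain ⟨δn, Rn, hδn, -, hnear⟩ := near_plane point ring S S.gap (e * c') (mul_pos he hc')
  set δ := min δn 1
  have hδ : 0 < δ := lt_min hδn one_pos
  set Ri := max (max Rb Rc) Rn
  have hlow : ∀ R D : ℝ, Ri ≤ R → ∀ x ∈ cone R D, height x ≤ δ → S.φ₀ x ≤ e * S.φu x := by
    intro R D hR x hx hxδ
    simp only [Ri, max_le_iff] at hR
    refine (le_abs_self _).trans ((hnear S.φ₀ _ (evenSol_ground S) x (hR.2.trans hx.1)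
      (inv_le_height hx) (hxδ.trans (min_le_left _ _))).trans ?_)
    have := mul_le_mul_of_nonneg_left (hst x (hR.1.2.trans hx.1) hx.2.1).1 he.le
    simp only [zG] at this
    linarith
  have hiter : ∀ k : ℕ, ∃ R D : ℝ, Ri ≤ R ∧ 0 < D ∧ 4 * D ≤ 1 ∧
      ∀ x ∈ cone R D, S.φ₀ x ≤ max ((1 - γ) ^ k * (M + e)) e * S.φu x := by
    intro k
    induction k with
    | zero =>
      refine ⟨Ri, 1 / 4, le_rfl, by norm_num, by norm_num, fun x hx => ?_⟩
      have hu : 0 ≤ S.φu x := S.nonneg_u x (height_pos_of_cone hx).le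
      refine le_trans ?_ (mul_le_mul_of_nonneg_right (le_max_left _ _) hu)
      have hle : S.φ₀ x ≤ Real.sqrt (S.n x) := by
        refine (le_abs_self _).trans (Real.abs_le_sqrt ?_)
        nlinarith [S.le_sum x, sq_nonneg (S.φ₀ x), sq_nonneg (S.φu x)]
      have := (hst x (((le_max_right _ _).trans (le_max_left _ _)).trans hx.1) hx.2.1).2
      have := mul_nonneg he.le hu
      rw [pow_zero]
      linarith
    | succ k ih =>
      obtain ⟨R, D, hR, hD, hD4, hO⟩ := ih
      have hRb' : Rb ≤ R := ((le_max_left _ _).trans (le_max_left _ _)).trans hR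
      obtain ⟨R', D', hR', hD', hD'D, hO'⟩ := hstep e δ R D _ hδ (min_le_right _ _) hD hD4 hRb'
        (lt_max_of_lt_right he) (hlow R D hR) hO
      refine ⟨R', D', hR.trans hR', hD', by linarith, fun x hx => (hO' x hx).trans ?_⟩
      refine mul_le_mul_of_nonneg_right (max_le ?_ (le_max_right _ _))
        (S.nonneg_u x (height_pos_of_cone hx).le)
      rw [mul_max_of_nonneg _ _ (by linarith : 0 ≤ 1 - γ)]
      refine max_le (le_trans (le_of_eq (by ring)) (le_max_left _ _))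
        (le_trans ?_ (le_max_right _ _))
      exact mul_le_of_le_one_left he.le (by linarith)
  obtain ⟨k, hk⟩ : ∃ k : ℕ, (1 - γ) ^ k * (M + e) ≤ e := by
    have hpos : 0 < M + e := by positivity
    obtain ⟨k, hk⟩ := exists_pow_lt_of_lt_one (div_pos he hpos) (by linarith : 1 - γ < 1)
    exact ⟨k, ((lt_div_iff₀ hpos).1 hk).le⟩
  obtain ⟨R, D, hR, hD, hD4, hO⟩ := hiter k
  refine ⟨D, R, hD, fun x hxR hxlo hxhi => ?_⟩
  have hR0 : S.R₁ < R :=
    lt_of_lt_of_le hRc (((le_max_right _ _).trans (le_max_left _ _)).trans hR)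
  have hr : 0 < ‖x‖ := by linarith [S.data.one_le.trans S.R₀_le]
  have hx : x ∈ cone R D := ⟨hxR, (div_le_iff₀' hr).1 hxlo, hxhi⟩
  have h := hO x hx
  rw [max_eq_right hk] at h
  refine h.trans ((mul_le_mul_of_nonneg_left (phiu_le (hR0.le.trans hxR) hx.2.1) he.le).trans
    (le_of_eq ?_))
  rw [hedef]
  field_simp

end Vale.Agent.P363.Ext.Small
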