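import Vale.Agent.P363.Ext.Small.Explicit

/-!
P363, Kohn-Sham side: the comparison outside a sphere with the barrier
`G e^{-Λ (1 - rs / r)} (z - 2 d + K d z² / r) (1 - u θ²)²`, `θ = z / r`, `u = rs / η`, `d = δ`.
It is a subsolution of `Δ - 2 G₀` with excess of order `z G rs / r²`, nonpositive on `z = d`, zero
on the cone `u θ² = 1`, and at least a multiple of `z G` in the narrower cone.
-/

noncomputable section

namespace Vale.Agent.P363.Ext.Small

open MeasureTheory Filter Metric Set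
open scoped BigOperators Topology ContDiff

/-- `r ^ q e ^ {-a r} e ^ {-Λ + c / r}`. -/
def barF (q a Λ c r : ℝ) : ℝ := Bar.tail q a r * Real.exp (c / r - Λ)

/-- Its derivative. -/
def barF1 (q a Λ c r : ℝ) : ℝ := (q / r - a - c / r ^ 2) * barF q a Λ c r

lemma hasDerivAt_barF (q a Λ c : ℝ) {r : ℝ} (hr : 0 < r) :
    HasDerivAt (barF q a Λ c) (barF1 q a Λ c r) r := by
  have h := (Bar.hasDerivAt_tail q a hr).mul
    ((((hasDerivAt_const r c).div (hasDerivAt_id r) hr.ne').sub_const Λ).exp)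
  refine h.congr_deriv ?_
  simp only [barF1, barF, id, Pi.div_apply, mul_one]
  field_simp
  ring

lemma hasDerivAt_barF1 (q a Λ c : ℝ) {r : ℝ} (hr : 0 < r) :
    HasDerivAt (barF1 q a Λ c)
      (((q / r - a - c / r ^ 2) ^ 2 - q / r ^ 2 + 2 * c / r ^ 3) * barF q a Λ c r) r := by
  have h := ((((hasDerivAt_const r q).div (hasDerivAt_id r) hr.ne').sub_const a).sub
    ((hasDerivAt_const r c).div ((hasDerivAt_id r).pow 2) (pow_ne_zero 2 hr.ne'))).mul
    (hasDerivAt_barF q a Λ c hr)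
  refine h.congr_deriv ?_
  simp only [barF1, id, Pi.div_apply, Pi.sub_apply, Pi.pow_apply, mul_one]
  field_simp
  push_cast
  ring

/-- The Laplacian of `π (z / r) barF r`. -/
lemma lap_barF (q a Λ c : ℝ) {π π1 π2 : ℝ → ℝ} {x : Space} (hx : x ≠ 0) (hπc : ContDiff ℝ 2 π)
    (hπ : ∀ t, HasDerivAt π (π1 t) t) (hπ1 : ∀ t, HasDerivAt π1 (π2 t) t) :
    lap (fun y => π (ang y) * barF q a Λ c ‖y‖) x = barF q a Λ c ‖x‖ *
      ((a ^ 2 - 2 * a * (q + 1) / ‖x‖ + (q * (q + 1) + 2 * a * c) / ‖x‖ ^ 2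
          - 2 * q * c / ‖x‖ ^ 3 + c ^ 2 / ‖x‖ ^ 4) * π (ang x)
        + ((1 - ang x ^ 2) * π2 (ang x) - 2 * ang x * π1 (ang x)) / ‖x‖ ^ 2) := by
  have hr : 0 < ‖x‖ := norm_pos_iff.2 hx
  rw [lap_polar hx hπc hπ hπ1 (fun t ht => hasDerivAt_barF q a Λ c ht)
    (hasDerivAt_barF1 q a Λ c hr)]
  simp only [barF1]
  field_simp
  ring

lemma contDiffOn_barF (q a Λ c : ℝ) :
    ContDiffOn ℝ 2 (fun y : Space => barF q a Λ c ‖y‖) {y | y ≠ 0} := by
  intro y hy
  have hn : ContDiffAt ℝ 2 (fun z : Space => ‖z‖) y := contDiffAt_norm ℝ hy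
  exact (((Bar.contDiffOn_tail q a).contDiffAt (isOpen_ne_zero.mem_nhds hy)).mul
    (((contDiffAt_const.div hn (norm_ne_zero_iff.2 hy)).sub contDiffAt_const).exp)).contDiffWithinAt

/-- `(θ + κ θ²) (1 - u θ²)²`. -/
def pi0 (κ u t : ℝ) : ℝ := (t + κ * t ^ 2) * (1 - u * t ^ 2) ^ 2

/-- Its derivative. -/
def pi0' (κ u t : ℝ) : ℝ :=
  (1 + 2 * κ * t) * (1 - u * t ^ 2) ^ 2 + (t + κ * t ^ 2) * (-(4 * u * t) * (1 - u * t ^ 2))

/-- Its second derivative. -/
def pi0'' (κ u t : ℝ) : ℝ :=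
  2 * κ * (1 - u * t ^ 2) ^ 2 + 2 * (1 + 2 * κ * t) * (-(4 * u * t) * (1 - u * t ^ 2))
    + (t + κ * t ^ 2) * (8 * u ^ 2 * t ^ 2 - 4 * u * (1 - u * t ^ 2))

/-- `-2 d (1 - u θ²)²`. -/
def pi1 (d u t : ℝ) : ℝ := -(2 * d) * (1 - u * t ^ 2) ^ 2

/-- Its derivative. -/
def pi1' (d u t : ℝ) : ℝ := -(2 * d) * (-(4 * u * t) * (1 - u * t ^ 2))

/-- Its second derivative. -/
def pi1'' (d u t : ℝ) : ℝ := -(2 * d) * (8 * u ^ 2 * t ^ 2 - 4 * u * (1 - u * t ^ 2))

lemma hasDerivAt_phi (u t : ℝ) :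
    HasDerivAt (fun s => (1 - u * s ^ 2) ^ 2) (-(4 * u * t) * (1 - u * t ^ 2)) t ∧
    HasDerivAt (fun s => -(4 * u * s) * (1 - u * s ^ 2))
      (8 * u ^ 2 * t ^ 2 - 4 * u * (1 - u * t ^ 2)) t := by
  have hw : HasDerivAt (fun s => 1 - u * s ^ 2) (-(2 * u * t)) t :=
    (((hasDerivAt_pow 2 t).const_mul u).const_sub 1).congr_deriv (by push_cast; ring)
  exact ⟨(hw.pow 2).congr_deriv (by push_cast; ring),
    ((((hasDerivAt_id t).const_mul (4 * u)).neg).mul hw).congr_deriv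
      (by simp only [id, Pi.neg_apply]; ring)⟩

lemma hasDerivAt_pi0 (κ u t : ℝ) : HasDerivAt (pi0 κ u) (pi0' κ u t) t :=
  (((hasDerivAt_id t).add ((hasDerivAt_pow 2 t).const_mul κ)).mul (hasDerivAt_phi u t).1)
    |>.congr_deriv (by simp only [pi0', id, Pi.add_apply]; push_cast; ring)

lemma hasDerivAt_pi0' (κ u t : ℝ) : HasDerivAt (pi0' κ u) (pi0'' κ u t) t :=
  ((((hasDerivAt_id t).const_mul (2 * κ)).const_add 1).mul (hasDerivAt_phi u t).1).add
    (((hasDerivAt_id t).add ((hasDerivAt_pow 2 t).const_mul κ)).mul (hasDerivAt_phi u t).2)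
    |>.congr_deriv (by simp only [pi0'', id, Pi.add_apply]; push_cast; ring)

lemma hasDerivAt_pi1 (d u t : ℝ) : HasDerivAt (pi1 d u) (pi1' d u t) t :=
  (hasDerivAt_phi u t).1.const_mul _

lemma hasDerivAt_pi1' (d u t : ℝ) : HasDerivAt (pi1' d u) (pi1'' d u t) t :=
  (hasDerivAt_phi u t).2.const_mul _

/-- The case of a barrier of size `z`. -/
lemma bracket_big {a η Λ K rs r t d m u s ρ Y : ℝ} (ha : 0 < a) (hη : 0 < η)
    (hΛ : a * Λ = 2600 / η) (hK : K = 32 * (2 * (a * Λ) + 1) + 256 / η + 4 * a)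
    (hu : u = rs / η) (hu0 : 0 < u) (hd : 0 < d) (hr0 : 0 < r) (hrt : 0 < r * t)
    (ht34 : 3 / 4 ≤ 1 - t ^ 2) (ht11 : 1 - t ^ 2 ≤ 1) (hρ : ρ ≤ 5 / 4) (hY : r * t / 2 ≤ Y)
    (hY1 : Y ≤ 9 / 8 * (r * t)) (hs0 : 0 ≤ s) (hs1 : s ≤ 1) :
    u * (r * t) ≤ (2 * a * (Λ * rs) + m ^ 2) * Y * (1 - s) ^ 2
      + (2 * (K * d) * (1 - t ^ 2) - 4 * a * d) * r * (1 - s) ^ 2
      + (1 - t ^ 2) * u * (-(8 * (r * t) * ρ * (1 - s)) + Y * (8 * s - 4 * (1 - s))) := by
  have haΛ : a * (Λ * rs) = 2600 * u := by rw [← mul_assoc, hΛ, hu]; ring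
  set w := 1 - s with hwdef
  have hw0 : 0 ≤ w := by linarith
  have hw1 : w ≤ 1 := by linarith
  have hK0 : 0 ≤ K := by rw [hK, hΛ]; positivity
  have hT : 2600 * u * (r * t) * w ^ 2 ≤ (2 * a * (Λ * rs) + m ^ 2) * Y * w ^ 2 := by
    refine mul_le_mul_of_nonneg_right ?_ (sq_nonneg w)
    have h1 := mul_le_mul_of_nonneg_left hY (show 0 ≤ 2 * (a * (Λ * rs)) by rw [haΛ]; positivity)
    have h2 : 0 ≤ m ^ 2 * Y := mul_nonneg (sq_nonneg m) (by linarith)
    nlinarith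
  have hS : 0 ≤ (2 * (K * d) * (1 - t ^ 2) - 4 * a * d) * r * w ^ 2 := by
    refine mul_nonneg (mul_nonneg ?_ hr0.le) (sq_nonneg w)
    have h1 : 4 * a ≤ K := by
      rw [hK, hΛ]
      exact le_add_of_nonneg_left (by positivity)
    have h2 := mul_le_mul_of_nonneg_left ht34 (mul_nonneg hK0 hd.le)
    nlinarith
  set B := -(8 * (r * t) * ρ * w) + Y * (8 * s - 4 * w) with hB
  by_cases hs9 : 9 / 10 ≤ s
  · have hB2 : 12 / 5 * (r * t) ≤ B := by
      have h1 : ρ * w ≤ 5 / 4 * (1 / 10) := mul_le_mul hρ (by linarith) hw0 (by norm_num)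
      have h2 : r * t / 2 * (34 / 5) ≤ Y * (8 * s - 4 * w) :=
        mul_le_mul hY (by linarith) (by norm_num) (by linarith)
      rw [hB]
      nlinarith
    have h3 : 3 / 4 * u * (12 / 5 * (r * t)) ≤ (1 - t ^ 2) * u * B :=
      mul_le_mul (mul_le_mul_of_nonneg_right ht34 hu0.le) hB2 (by positivity)
        (mul_nonneg (by linarith) hu0.le)
    have h4 : 0 ≤ 2600 * u * (r * t) * w ^ 2 := by positivity
    have h5 : u * (r * t) ≤ 3 / 4 * u * (12 / 5 * (r * t)) := by nlinarith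
    linarith
  · have hw' : 1 / 100 ≤ w ^ 2 := by nlinarith
    have hB2 : -(15 * (r * t)) ≤ B := by
      have h1 : ρ * w ≤ 5 / 4 * 1 := mul_le_mul hρ hw1 hw0 (by norm_num)
      have hY' : 0 ≤ Y := by linarith
      have h2 : Y * (-4) ≤ Y * (8 * s - 4 * w) := mul_le_mul_of_nonneg_left (by linarith) hY'
      rw [hB]
      nlinarith
    have h3 : -(15 * (r * t) * u) ≤ (1 - t ^ 2) * u * B := by
      have h0 : 0 ≤ (1 - t ^ 2) * u := mul_nonneg (by linarith) hu0.le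
      have h1 := mul_le_mul_of_nonneg_left hB2 h0
      have h2 : (1 - t ^ 2) * u * (15 * (r * t)) ≤ u * (15 * (r * t)) := by
        refine mul_le_mul_of_nonneg_right ?_ (by linarith)
        exact mul_le_of_le_one_left hu0.le ht11
      linarith
    have h4 := mul_le_mul_of_nonneg_left hw' (show 0 ≤ 2600 * u * (r * t) by positivity)
    have h5 : 0 ≤ u * (r * t) := by positivity
    linarith

/-- The case of a small barrier, near `z = 2 d`. -/
lemma bracket_small {a η Λ K rs r t d m u s ρ Y : ℝ} (ha : 0 < a) (hη : 0 < η)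
    (hΛ : a * Λ = 2600 / η) (hK : K = 32 * (2 * (a * Λ) + 1) + 256 / η + 4 * a)
    (hu : u = rs / η) (hu0 : 0 < u) (hm : m ^ 2 ≤ rs) (hd : 0 < d) (hrs : 1 ≤ rs) (hr : rs ≤ r)
    (ht : d ≤ r * t) (hd1 : d ≤ 1) (ht34 : 3 / 4 ≤ 1 - t ^ 2) (ht11 : 1 - t ^ 2 ≤ 1)
    (hρ0 : 1 ≤ ρ) (hρ : ρ ≤ 5 / 4) (hYa : |Y| ≤ 4 * (r * t)) (hY0 : r * t - 2 * d ≤ Y)
    (hY' : Y < r * t / 2) (hs0 : 0 ≤ s) (hsdef : s = u * t ^ 2) (h64 : 64 ≤ η * rs) :
    u * (r * t) ≤ (2 * a * (Λ * rs) + m ^ 2) * Y * (1 - s) ^ 2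
      + (2 * (K * d) * (1 - t ^ 2) - 4 * a * d) * r * (1 - s) ^ 2
      + (1 - t ^ 2) * u * (-(8 * (r * t) * ρ * (1 - s)) + Y * (8 * s - 4 * (1 - s))) := by
  have haΛ : a * (Λ * rs) = 2600 * u := by rw [← mul_assoc, hΛ, hu]; ring
  have hrt : 0 < r * t := hd.trans_le ht
  have hr0 : 0 < r := by linarith
  have ht0 : 0 < t := pos_of_mul_pos_right hrt hr0.le
  have hK0 : 0 ≤ K := by rw [hK, hΛ]; positivity
  set w := 1 - s with hwdef
  have hz : r * t ≤ 4 * d := by linarith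
  have hsm : s ≤ 1 / 4 := by
    have hrst : (rs * t) ^ 2 ≤ 4 ^ 2 := pow_le_pow_left₀ (by positivity)
      ((mul_le_mul_of_nonneg_right hr ht0.le).trans (by linarith)) 2
    have e : η * rs * s = (rs * t) ^ 2 := by rw [hsdef, hu]; field_simp
    have := mul_le_mul_of_nonneg_right h64 hs0
    linarith
  have hw0 : 0 ≤ w := by linarith
  have hw1 : w ≤ 1 := by linarith
  have hw2 : w ^ 2 ≤ 1 := pow_le_one₀ hw0 hw1
  have hw' : 1 / 2 ≤ w ^ 2 := by nlinarith
  have hT : -(16 * (2 * (a * Λ) + 1) * (d * rs)) ≤ (2 * a * (Λ * rs) + m ^ 2) * Y * w ^ 2 := by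
    have h0 : 0 ≤ 2 * a * (Λ * rs) + m ^ 2 := by
      have : 0 ≤ a * (Λ * rs) := by rw [haΛ]; positivity
      nlinarith
    have h1 : |(2 * a * (Λ * rs) + m ^ 2) * Y * w ^ 2| ≤
        (2 * a * (Λ * rs) + rs) * (16 * d) := by
      rw [abs_mul, abs_mul, abs_of_nonneg h0, abs_of_nonneg (sq_nonneg w)]
      refine (mul_le_of_le_one_right (by positivity) hw2).trans ?_
      exact mul_le_mul (by linarith) (hYa.trans (by linarith)) (abs_nonneg _) (by linarith)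
    have := (abs_le.1 h1).1
    linarith
  have hS : (24 * (2 * (a * Λ) + 1) + 192 / η + a) * (d * rs) ≤
      (2 * (K * d) * (1 - t ^ 2) - 4 * a * d) * r * w ^ 2 := by
    have h1 : (3 / 2 * K - 4 * a) * d ≤ 2 * (K * d) * (1 - t ^ 2) - 4 * a * d := by
      have h2 := mul_le_mul_of_nonneg_left ht34 (mul_nonneg hK0 hd.le)
      linarith
    have h3 : 3 / 2 * K - 4 * a =
        2 * (24 * (2 * (a * Λ) + 1) + 192 / η + a) := by rw [hK]; ring
    set T := 24 * (2 * (a * Λ) + 1) + 192 / η + a with hT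
    have hT0 : 0 ≤ T := by rw [hT, hΛ]; positivity
    calc T * (d * rs) = 2 * T * d * rs * (1 / 2) := by ring
      _ ≤ (2 * (K * d) * (1 - t ^ 2) - 4 * a * d) * r * w ^ 2 := by
        refine mul_le_mul (mul_le_mul (by rw [h3] at h1; exact h1) hr (by linarith) ?_) hw'
          (by norm_num) (mul_nonneg ?_ hr0.le)
        all_goals
          rw [h3] at h1
          exact le_trans (by positivity) h1
  have hB : -(168 / η * (d * rs)) ≤
      (1 - t ^ 2) * u * (-(8 * (r * t) * ρ * w) + Y * (8 * s - 4 * w)) := by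
    have h1 : |-(8 * (r * t) * ρ * w) + Y * (8 * s - 4 * w)| ≤ 42 * (4 * d) := by
      have ha1 : |8 * (r * t) * ρ * w| ≤ 10 * (r * t) := by
        rw [abs_of_nonneg (by positivity)]
        have : ρ * w ≤ 5 / 4 * 1 := mul_le_mul hρ hw1 hw0 (by norm_num)
        nlinarith
      have ha2 : |Y * (8 * s - 4 * w)| ≤ 4 * (r * t) * 8 := by
        rw [abs_mul]
        exact mul_le_mul hYa (abs_le.2 ⟨by linarith, by linarith⟩) (abs_nonneg _) (by positivity)
      refine (abs_add_le _ _).trans ?_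
      rw [abs_neg]
      linarith
    have h0 : 0 ≤ (1 - t ^ 2) * u := mul_nonneg (by linarith) hu0.le
    have h2 : |(1 - t ^ 2) * u * (-(8 * (r * t) * ρ * w) + Y * (8 * s - 4 * w))| ≤
        u * (42 * (4 * d)) := by
      rw [abs_mul, abs_of_nonneg h0]
      exact mul_le_mul (mul_le_of_le_one_left hu0.le ht11) h1 (abs_nonneg _) hu0.le
    have e : u * (42 * (4 * d)) = 168 / η * (d * rs) := by rw [hu]; ring
    linarith [(abs_le.1 h2).1]
  have h6 : u * (r * t) ≤ 4 / η * (d * rs) :=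
    (mul_le_mul_of_nonneg_left hz hu0.le).trans_eq (by rw [hu]; ring)
  have h7 : 0 ≤ (8 * (2 * (a * Λ) + 1) + 20 / η + a) * (d * rs) := by rw [hΛ]; positivity
  have h8 : (24 * (2 * (a * Λ) + 1) + 192 / η + a) * (d * rs) =
      16 * (2 * (a * Λ) + 1) * (d * rs) + 168 / η * (d * rs) + 4 / η * (d * rs)
        + (8 * (2 * (a * Λ) + 1) + 20 / η + a) * (d * rs) := by ring
  linarith

/-- The bracket of the barrier is positive with excess of order `u z`. -/
lemma bracket_ge {a η Λ K C₁ r rs t d e₀ e₁ m : ℝ} (ha : 0 < a) (hη : 0 < η)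
    (hΛ : a * Λ = 2600 / η) (hK : K = 32 * (2 * (a * Λ) + 1) + 256 / η + 4 * a)
    (he0 : |e₀| ≤ C₁) (he1 : |e₁| ≤ C₁) (hm : m ^ 2 ≤ rs) (hrs : 1 ≤ rs) (hr : rs ≤ r)
    (hC : 2 * η * (4 * C₁ + 35) ≤ rs) (h64 : 64 ≤ η * rs) (hd : 0 < d) (hd1 : d ≤ 1)
    (ht : d ≤ r * t) (hs : rs / η * t ^ 2 ≤ 1) (ht2 : t ≤ 1 / 2) (hKt : K * t ≤ 1 / 8) :
    rs / η / 2 * (r * t) ≤
      r * ((2 * a * (Λ * rs) + e₀ + m ^ 2) * pi0 (K * d) (rs / η) t
          + ((1 - t ^ 2) * pi0'' (K * d) (rs / η) t - 2 * t * pi0' (K * d) (rs / η) t))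
        + ((2 * a * r + 2 * a * (Λ * rs) + e₁ + m ^ 2) * pi1 d (rs / η) t
          + ((1 - t ^ 2) * pi1'' d (rs / η) t - 2 * t * pi1' d (rs / η) t)) := by
  set u := rs / η with hu
  have hu0 : 0 < u := by rw [hu]; exact div_pos (by linarith) hη
  set s := u * t ^ 2 with hsdef
  set w := 1 - s with hwdef
  have hrt : 0 < r * t := hd.trans_le ht
  have hr0 : 0 < r := by linarith
  have ht0 : 0 < t := pos_of_mul_pos_right hrt hr0.le
  have hK0 : 0 ≤ K := by rw [hK, hΛ]; positivity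
  set ρ := 1 + 2 * (K * d) * t with hρdef
  set P := t + K * d * t ^ 2 with hPdef
  set Y := r * P - 2 * d with hYdef
  have hκt : K * d * t ≤ 1 / 8 := by
    calc K * d * t = d * (K * t) := by ring
      _ ≤ 1 * (K * t) := mul_le_mul_of_nonneg_right hd1 (mul_nonneg hK0 ht0.le)
      _ ≤ 1 / 8 := by linarith
  have hκt0 : 0 ≤ K * d * t := by positivity
  have hP : P ≤ 9 / 8 * t := by
    have := mul_le_mul_of_nonneg_right hκt ht0.le
    rw [hPdef]; linarith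
  have hP0 : t ≤ P := by rw [hPdef]; exact le_add_of_nonneg_right (by positivity)
  have hρ : ρ ≤ 5 / 4 ∧ 1 ≤ ρ := ⟨by linarith, by linarith⟩
  have hrP : r * P ≤ 9 / 8 * (r * t) := by
    have := mul_le_mul_of_nonneg_left hP hr0.le
    linarith
  have hrP0 : r * t ≤ r * P := mul_le_mul_of_nonneg_left hP0 hr0.le
  have hY1 : Y ≤ 9 / 8 * (r * t) := by linarith
  have hY0 : r * t - 2 * d ≤ Y := by linarith
  have hYa : |Y| ≤ 4 * (r * t) := abs_le.2 ⟨by linarith, by linarith⟩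
  have hs0 : 0 ≤ s := by positivity
  have hs1 : s ≤ 1 := hs
  have hw0 : 0 ≤ w := by linarith
  have hw1 : w ≤ 1 := by linarith
  have hw2 : w ^ 2 ≤ 1 := pow_le_one₀ hw0 hw1
  have hC1 : 0 ≤ C₁ := (abs_nonneg _).trans he0
  -- the exact form
  suffices h : u / 2 * (r * t) ≤ (2 * a * (Λ * rs) + m ^ 2) * Y * w ^ 2
      + (e₀ * (r * P) - e₁ * (2 * d)) * w ^ 2 + (2 * (K * d) * (1 - t ^ 2) - 4 * a * d) * r * w ^ 2
      + (1 - t ^ 2) * u * (-(8 * (r * t) * ρ * w) + Y * (8 * s - 4 * w))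
      - 2 * (r * t) * ρ * w ^ 2 + 8 * s * w * Y by
    refine h.trans_eq ?_
    simp only [pi0, pi0', pi0'', pi1, pi1', pi1'', ρ, Y, P, w, s]
    ring
  have hE : -(4 * C₁ * (r * t)) ≤ (e₀ * (r * P) - e₁ * (2 * d)) * w ^ 2 := by
    have h1 : |e₀ * (r * P) - e₁ * (2 * d)| ≤ 4 * C₁ * (r * t) := by
      refine (abs_sub _ _).trans ?_
      rw [abs_mul e₀, abs_mul e₁, abs_of_nonneg (by linarith : 0 ≤ r * P),
        abs_of_nonneg (by linarith : 0 ≤ 2 * d)]
      have hc : 0 ≤ C₁ * (r * t) := mul_nonneg hC1 hrt.le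
      linarith [mul_le_mul he0 hrP (by linarith) hC1,
        mul_le_mul he1 (show 2 * d ≤ 2 * (r * t) by linarith) (by linarith) hC1]
    have h2 := abs_le.1 (show |(e₀ * (r * P) - e₁ * (2 * d)) * w ^ 2| ≤ 4 * C₁ * (r * t) by
      rw [abs_mul, abs_of_nonneg (sq_nonneg w)]
      exact (mul_le_of_le_one_right (abs_nonneg _) hw2).trans h1)
    linarith
  have hF : -(5 / 2 * (r * t)) ≤ -(2 * (r * t) * ρ * w ^ 2) := by
    have h1 : ρ * w ^ 2 ≤ 5 / 4 * 1 := mul_le_mul hρ.1 hw2 (sq_nonneg w) (by norm_num)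
    have h2 := mul_le_mul_of_nonneg_left h1 (show 0 ≤ 2 * (r * t) by positivity)
    linarith
  have hG : -(32 * (r * t)) ≤ 8 * s * w * Y := by
    have h1 : |8 * s * w * Y| ≤ 8 * (4 * (r * t)) := by
      rw [abs_mul, abs_of_nonneg (by positivity : 0 ≤ 8 * s * w)]
      have h2 : s * w ≤ 1 := mul_le_one₀ hs1 hw0 hw1
      exact mul_le_mul (by linarith) hYa (abs_nonneg _) (by norm_num)
    linarith [(abs_le.1 h1).1]
  have hC' : (4 * C₁ + 35) * (r * t) ≤ u / 2 * (r * t) := by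
    refine mul_le_mul_of_nonneg_right ?_ hrt.le
    rw [hu, div_div, le_div_iff₀ (by positivity)]
    linarith
  have ht2' : 3 / 4 ≤ 1 - t ^ 2 ∧ 1 - t ^ 2 ≤ 1 := by
    have := pow_le_pow_left₀ ht0.le ht2 2
    exact ⟨by linarith, by linarith [sq_nonneg t]⟩
  have haΛ : a * (Λ * rs) = 2600 * u := by rw [← mul_assoc, hΛ, hu]; ring
  by_cases hY : r * t / 2 ≤ Y
  · have := bracket_big (Λ := Λ) (K := K) (d := d) (m := m) (s := s) ha hη hΛ hK hu hu0 hd hr0 hrt
      ht2'.1 ht2'.2 hρ.1 hY hY1 hs0 hs1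
    linarith
  · have := bracket_small (Λ := Λ) (K := K) (d := d) (m := m) (s := s) ha hη hΛ hK hu hu0 hm hd hrs
      hr ht hd1 ht2'.1 ht2'.2 hρ.2 hρ.1 hYa hY0 (not_le.1 hY) hs0 rfl h64
    linarith

/-- The barrier. -/
def barB (S : Setup) (Λ rs K d u : ℝ) (y : Space) : ℝ :=
  pi0 (K * d) u (ang y) * barF (S.k / S.a - 1) S.a Λ (Λ * rs) ‖y‖
    + pi1 d u (ang y) * barF (S.k / S.a - 2) S.a Λ (Λ * rs) ‖y‖

lemma contDiffOn_barB (S : Setup) (Λ rs K d u : ℝ) :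
    ContDiffOn ℝ 2 (barB S Λ rs K d u) {y | y ≠ 0} := by
  have h0 : ContDiff ℝ 2 (pi0 (K * d) u) := by unfold pi0; fun_prop
  have h1 : ContDiff ℝ 2 (pi1 d u) := by unfold pi1; fun_prop
  exact ((h0.comp_contDiffOn contDiffOn_ang).mul (contDiffOn_barF _ _ _ _)).add
    ((h1.comp_contDiffOn contDiffOn_ang).mul (contDiffOn_barF _ _ _ _))

lemma barB_eq (S : Setup) (Λ rs K d u : ℝ) {y : Space} (hy : y ≠ 0) :
    barB S Λ rs K d u y = S.G y * Real.exp (Λ * rs / ‖y‖ - Λ) * (1 - u * ang y ^ 2) ^ 2 *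
      (height y * (1 + K * d * ang y) - 2 * d) := by
  have hr : 0 < ‖y‖ := norm_pos_iff.2 hy
  have e : Bar.tail (S.k / S.a - 1) S.a ‖y‖ = ‖y‖ * S.G y := by
    rw [show S.k / S.a - 1 = S.k / S.a - 2 + 1 by ring, Bar.tail_add _ _ _ hr, Real.rpow_one,
      ← Bar.tailG_eq]
    rfl
  have e' : height y = ‖y‖ * ang y := by rw [ang, mul_div_cancel₀ _ hr.ne']
  simp only [barB, barF, e, ← Bar.tailG_eq, pi0, pi1, Setup.G, e']
  ring

/-- The barrier is a subsolution with excess. -/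
lemma lap_barB_ge (S : Setup) {η : ℝ} (hη : 0 < η) :
    ∃ r₀ : ℝ, 1 ≤ r₀ ∧ ∀ (rs d : ℝ) (y : Space), r₀ ≤ rs → 0 < d → d ≤ 1 → rs ≤ ‖y‖ →
      d ≤ height y → height y ≤ Real.sqrt (η / rs) * ‖y‖ →
      Real.exp (-(2600 / (S.a * η))) * (rs / η / 2) * (zG S y / ‖y‖ ^ 2) ≤
        lap (barB S (2600 / (S.a * η)) rs
            (32 * (2 * (S.a * (2600 / (S.a * η))) + 1) + 256 / η + 4 * S.a) d (rs / η)) y
          - 2 * farPot S.a S.k ‖y‖ * barB S (2600 / (S.a * η)) rs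
            (32 * (2 * (S.a * (2600 / (S.a * η))) + 1) + 256 / η + 4 * S.a) d (rs / η) y := by
  have ha := S.data.a_pos
  set a := S.a
  set k := S.k
  set Λ := 2600 / (a * η) with hΛdef
  set K := 32 * (2 * (a * Λ) + 1) + 256 / η + 4 * a with hKdef
  have hΛ : a * Λ = 2600 / η := by rw [hΛdef]; field_simp
  have hΛ0 : 0 ≤ Λ := by positivity
  set q := k / a - 1 with hq
  set C₁ := |q * (q + 1)| + 2 * |q| * Λ + |(q - 1) * q| + 2 * |q - 1| * Λ
  refine ⟨1 + 4 * η + 64 * K ^ 2 * η + 2 * η * (4 * C₁ + 35) + Λ ^ 2 + 64 / η,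
    by linarith [show 0 ≤ 4 * η + 64 * K ^ 2 * η + 2 * η * (4 * C₁ + 35) + Λ ^ 2 + 64 / η from
        add_nonneg (add_nonneg (add_nonneg (add_nonneg (by positivity) (by positivity))
          (by positivity)) (sq_nonneg Λ)) (by positivity)],
    fun rs d y hrs hd hd1 hy hz hzD => ?_⟩
  have p1 : 0 ≤ 4 * η := by positivity
  have p2 : 0 ≤ 64 * K ^ 2 * η := by positivity
  have p3 : 0 ≤ 2 * η * (4 * C₁ + 35) := by positivity
  have p4 : 0 ≤ Λ ^ 2 := sq_nonneg Λ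
  have p5 : 0 ≤ 64 / η := by positivity
  have hrs1 : 1 ≤ rs := by linarith
  set r := ‖y‖ with hrdef
  have hr : 0 < r := by linarith
  have hy0 : y ≠ 0 := norm_pos_iff.1 hr
  set t := ang y with ht
  have hzt : height y = r * t := by rw [ht, ang, ← hrdef, mul_div_cancel₀ _ hr.ne']
  have ht0 : 0 ≤ t := div_nonneg (hd.le.trans hz) hr.le
  have htD : t ≤ Real.sqrt (η / rs) := by rw [ht, ang, ← hrdef, div_le_iff₀ hr]; exact hzD
  have htsq : t ^ 2 ≤ η / rs :=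
    (pow_le_pow_left₀ ht0 htD 2).trans_eq (Real.sq_sqrt (by positivity))
  have hs : rs / η * t ^ 2 ≤ 1 := by
    refine (mul_le_mul_of_nonneg_left htsq (by positivity)).trans_eq ?_
    field_simp
  have ht2 : t ≤ 1 / 2 := by
    refine htD.trans ((Real.sqrt_le_iff).2 ⟨by norm_num, ?_⟩)
    rw [div_le_iff₀ (by linarith)]
    linarith
  have hK0 : 0 ≤ K := by positivity
  have hKt : K * t ≤ 1 / 8 := by
    have h1 : (K * t) ^ 2 ≤ (1 / 8 : ℝ) ^ 2 := by
      rw [mul_pow]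
      refine (mul_le_mul_of_nonneg_left htsq (sq_nonneg K)).trans ?_
      rw [mul_div_assoc', div_le_iff₀ (by linarith)]
      linarith
    exact le_of_pow_le_pow_left₀ two_ne_zero (by norm_num) h1
  set c := Λ * rs
  have hm0 : 0 ≤ c / r := by positivity
  have hm1 : c / r ≤ Λ := by
    rw [div_le_iff₀ hr]; exact mul_le_mul_of_nonneg_left hy hΛ0
  have hm : (c / r) ^ 2 ≤ rs := (pow_le_pow_left₀ hm0 hm1 2).trans (by linarith)
  have hbd : ∀ b e : ℝ, |b - 2 * e * (c / r)| ≤ |b| + 2 * |e| * Λ := fun b e => by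
    refine (abs_sub _ _).trans ?_
    rw [abs_mul, abs_mul, abs_two, abs_of_nonneg hm0]
    exact add_le_add le_rfl (mul_le_mul_of_nonneg_left hm1 (by positivity))
  have n1 : 0 ≤ 2 * |q| * Λ := by positivity
  have n2 : 0 ≤ 2 * |q - 1| * Λ := by positivity
  have hb := bracket_ge (K := K) (C₁ := C₁) (r := r) (rs := rs) (t := t) (d := d)
    (e₀ := q * (q + 1) - 2 * q * (c / r)) (e₁ := (q - 1) * q - 2 * (q - 1) * (c / r)) (m := c / r)
    ha hη hΛ hKdef ((hbd _ q).trans (by simp only [C₁]; linarith [abs_nonneg ((q - 1) * q)]))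
    ((hbd _ (q - 1)).trans (by simp only [C₁]; linarith [abs_nonneg (q * (q + 1))]))
    hm hrs1 hy (by linarith) (by
      have h64 : 64 / η ≤ rs := by linarith
      rw [div_le_iff₀ hη] at h64; linarith) hd hd1 (hzt ▸ hz) hs ht2 hKt
  have hW : IsOpen {z : Space | z ≠ 0} := isOpen_ne_zero
  have hc0 : ContDiff ℝ 2 (pi0 (K * d) (rs / η)) := by unfold pi0; fun_prop
  have hc1 : ContDiff ℝ 2 (pi1 d (rs / η)) := by unfold pi1; fun_prop
  have hl : lap (barB S Λ rs K d (rs / η)) y =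
      lap (fun z => pi0 (K * d) (rs / η) (ang z) * barF q a Λ c ‖z‖) y +
        lap (fun z => pi1 d (rs / η) (ang z) * barF (k / a - 2) a Λ c ‖z‖) y :=
    lap_add hW ((hc0.comp_contDiffOn contDiffOn_ang).mul (contDiffOn_barF _ _ _ _))
      ((hc1.comp_contDiffOn contDiffOn_ang).mul (contDiffOn_barF _ _ _ _)) hy0
  set E := Real.exp (c / r - Λ)
  have eG : S.G y = Bar.tail (k / a - 2) a r := rfl
  have eF0 : barF q a Λ c r = r * S.G y * E := by
    rw [barF, hq, show k / a - 1 = k / a - 2 + 1 by ring, Bar.tail_add _ _ _ hr, Real.rpow_one, eG]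
  have eF1 : barF (k / a - 2) a Λ c r = S.G y * E := by rw [barF, eG]
  have key : lap (barB S Λ rs K d (rs / η)) y -
      2 * farPot a k r * barB S Λ rs K d (rs / η) y = S.G y * E / r ^ 2 *
      (r * ((2 * a * c + (q * (q + 1) - 2 * q * (c / r)) + (c / r) ^ 2) * pi0 (K * d) (rs / η) t
          + ((1 - t ^ 2) * pi0'' (K * d) (rs / η) t - 2 * t * pi0' (K * d) (rs / η) t))
        + ((2 * a * r + 2 * a * c + ((q - 1) * q - 2 * (q - 1) * (c / r)) + (c / r) ^ 2) *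
            pi1 d (rs / η) t
          + ((1 - t ^ 2) * pi1'' d (rs / η) t - 2 * t * pi1' d (rs / η) t))) := by
    rw [hl, lap_barF q a Λ c hy0 hc0 (hasDerivAt_pi0 _ _) (hasDerivAt_pi0' _ _),
      lap_barF (k / a - 2) a Λ c hy0 hc1 (hasDerivAt_pi1 _ _) (hasDerivAt_pi1' _ _)]
    have eB : barB S Λ rs K d (rs / η) y =
        pi0 (K * d) (rs / η) t * barF q a Λ c r + pi1 d (rs / η) t * barF (k / a - 2) a Λ c r := rfl
    rw [eB, ← hrdef, ← ht, eF0, eF1, farPot, show k / a - 2 = q - 1 by rw [hq]; ring,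
      show k = a * (q + 1) by rw [hq]; field_simp; ring]
    field_simp
    ring
  rw [key, zG, hzt]
  have hE : Real.exp (-Λ) ≤ E := Real.exp_le_exp.2 (by linarith)
  have hG0 : 0 < S.G y := tailG_pos _ _ hr
  calc Real.exp (-Λ) * (rs / η / 2) * (r * t * S.G y / r ^ 2)
      = S.G y / r ^ 2 * (Real.exp (-Λ) * (rs / η / 2 * (r * t))) := by ring
    _ ≤ S.G y / r ^ 2 * (E * _) := mul_le_mul_of_nonneg_left
        (mul_le_mul hE hb (by positivity) (Real.exp_pos _).le) (by positivity)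
    _ = _ := by ring

/-- A nonnegative supersolution of `Δ - 2 G₀` (up to `M z G / r²`) that is `≥ M z G` on a sphere
stays `≥ c M z G` outside, in the narrower cone. -/
theorem barrier_lower (S : Setup) (η : ℝ) (hη : 0 < η) : ∃ c : ℝ, 0 < c ∧ ∀ CS : ℝ, ∃ r₁ : ℝ,
    ∀ (rs δ M : ℝ) (U : Space → ℝ), r₁ ≤ rs → 0 < δ → δ ≤ 1 → 0 ≤ M → ContDiff ℝ 2 U →
      (∀ y, rs ≤ ‖y‖ → δ ≤ height y → height y ≤ Real.sqrt (η / rs) * ‖y‖ → 0 ≤ U y) →
      (∀ y, ‖y‖ = rs → δ ≤ height y → height y ≤ Real.sqrt (η / rs) * ‖y‖ → M * zG S y ≤ U y) →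
      (∀ y, rs ≤ ‖y‖ → δ ≤ height y → height y ≤ Real.sqrt (η / rs) * ‖y‖ →
        lap U y - 2 * farPot S.a S.k ‖y‖ * U y ≤ CS * M * zG S y / ‖y‖ ^ 2) →
      ∀ y, rs ≤ ‖y‖ → 4 * δ ≤ height y → 2 * height y ≤ Real.sqrt (η / rs) * ‖y‖ →
        c * M * zG S y ≤ U y := by
  have ha := S.data.a_pos
  set Λ := 2600 / (S.a * η) with hΛ
  set K := 32 * (2 * (S.a * Λ) + 1) + 256 / η + 4 * S.a with hKdef
  have hK0 : 0 ≤ K := by positivity
  obtain ⟨r₀, hr₀, hlap⟩ := lap_barB_ge S hη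
  refine ⟨9 / 64 * Real.exp (-Λ), by positivity, fun CS => ?_⟩
  refine ⟨r₀ + 2 * |S.k| / S.a ^ 2 + K + 4 * η + 64 * K ^ 2 * η + 4 * η * |CS| * Real.exp Λ + 1,
    fun rs δ M U hrs hδ hδ1 hM hU hpos hsph hsuper y hy hz hzD => ?_⟩
  have p1 : 0 ≤ 2 * |S.k| / S.a ^ 2 := by positivity
  have p2 : 0 ≤ 4 * η := by positivity
  have p3 : 0 ≤ 4 * η * |CS| * Real.exp Λ := by positivity
  have p4 : 0 ≤ 64 * K ^ 2 * η := by positivity
  have hrs0 : 0 < rs := by linarith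
  set D := Real.sqrt (η / rs) with hD
  have hD0 : 0 < D := Real.sqrt_pos.2 (div_pos hη hrs0)
  have hD2 : rs / η * D ^ 2 = 1 := by
    rw [hD, Real.sq_sqrt (by positivity)]; field_simp
  have hKD : K * D ≤ 1 / 8 := by
    have h1 : (K * D) ^ 2 ≤ (1 / 8 : ℝ) ^ 2 := by
      rw [mul_pow, hD, Real.sq_sqrt (by positivity), mul_div_assoc', div_le_iff₀ hrs0]
      linarith
    exact le_of_pow_le_pow_left₀ two_ne_zero (by norm_num) h1
  have hfar : ∀ r : ℝ, rs ≤ r → 0 ≤ farPot S.a S.k r := by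
    intro r hr
    have hr0 : 0 < r := by linarith
    rw [farPot, sub_nonneg, div_le_iff₀ hr0]
    have h1 : 2 * |S.k| / S.a ^ 2 ≤ r := by linarith
    rw [div_le_iff₀ (by positivity)] at h1
    linarith [le_abs_self S.k]
  set b := barB S Λ rs K δ (rs / η) with hb
  -- facts in the cone
  have facts : ∀ x : Space, rs ≤ ‖x‖ → δ ≤ height x → height x ≤ D * ‖x‖ →
      b x ≤ 2 * (Real.exp (Λ * rs / ‖x‖ - Λ) * zG S x) ∧
      Real.exp (Λ * rs / ‖x‖ - Λ) ≤ 1 ∧ 0 < zG S x ∧ x ≠ 0 ∧ 0 ≤ ang x ∧ ang x ≤ D := by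
    intro x hx hxz hxD
    have hr : 0 < ‖x‖ := by linarith
    have hx0 : x ≠ 0 := norm_pos_iff.1 hr
    have hG : 0 < S.G x := tailG_pos _ _ hr
    have hzp : 0 < height x := hδ.trans_le hxz
    have ht0 : 0 ≤ ang x := div_nonneg hzp.le hr.le
    have ht1 : ang x ≤ D := by rw [ang, div_le_iff₀ hr]; exact hxD
    refine ⟨?_, ?_, mul_pos hzp hG, hx0, ht0, ht1⟩
    · rw [hb, barB_eq S Λ rs K δ _ hx0, zG]
      set s := rs / η * ang x ^ 2
      have hs1 : s ≤ 1 := by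
        rw [← hD2]; exact mul_le_mul_of_nonneg_left (pow_le_pow_left₀ ht0 ht1 2) (by positivity)
      have hs0 : 0 ≤ s := by positivity
      have hw : (1 - s) ^ 2 ≤ 1 := pow_le_one₀ (by linarith) (by linarith)
      have hκ : K * δ * ang x ≤ 1 := by
        calc K * δ * ang x ≤ K * 1 * D := mul_le_mul (mul_le_mul_of_nonneg_left hδ1 hK0) ht1 ht0
              (by positivity)
          _ ≤ 1 := by linarith
      have hY : height x * (1 + K * δ * ang x) - 2 * δ ≤ 2 * height x := by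
        have := mul_le_mul_of_nonneg_left hκ hzp.le
        linarith
      have hP : 0 ≤ S.G x * Real.exp (Λ * rs / ‖x‖ - Λ) := by positivity
      calc S.G x * Real.exp (Λ * rs / ‖x‖ - Λ) * (1 - s) ^ 2 *
            (height x * (1 + K * δ * ang x) - 2 * δ)
          ≤ S.G x * Real.exp (Λ * rs / ‖x‖ - Λ) * (1 - s) ^ 2 * (2 * height x) :=
            mul_le_mul_of_nonneg_left hY (by positivity)
        _ ≤ S.G x * Real.exp (Λ * rs / ‖x‖ - Λ) * 1 * (2 * height x) := by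
            refine mul_le_mul_of_nonneg_right (mul_le_mul_of_nonneg_left hw hP) (by positivity)
        _ = _ := by ring
    · rw [Real.exp_le_one_iff, sub_nonpos, div_le_iff₀ hr]
      exact mul_le_mul_of_nonneg_left hx (by positivity)
  have hyd : δ ≤ height y := by linarith
  have hzpos : 0 < height y := hδ.trans_le hyd
  have hyD : height y ≤ D * ‖y‖ := by linarith
  obtain ⟨-, -, hzG, hy0, ht0, -⟩ := facts y hy hyd hyD
  have low : 9 / 32 * Real.exp (-Λ) * zG S y ≤ b y := by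
    rw [hb, barB_eq S Λ rs K δ _ hy0, zG]
    have hr : 0 < ‖y‖ := norm_pos_iff.2 hy0
    have ht2 : ang y ≤ D / 2 := by rw [ang, div_le_iff₀ hr]; linarith
    have hs : rs / η * ang y ^ 2 ≤ 1 / 4 := by
      refine (mul_le_mul_of_nonneg_left (pow_le_pow_left₀ ht0 ht2 2) (by positivity)).trans_eq ?_
      rw [div_pow, mul_div_assoc', hD2]; norm_num
    have hw : 9 / 16 ≤ (1 - rs / η * ang y ^ 2) ^ 2 := by nlinarith
    have hY : height y / 2 ≤ height y * (1 + K * δ * ang y) - 2 * δ := by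
      have : 0 ≤ height y * (K * δ * ang y) := by positivity
      linarith
    have hE : Real.exp (-Λ) ≤ Real.exp (Λ * rs / ‖y‖ - Λ) := by
      refine Real.exp_le_exp.2 ?_
      have : 0 ≤ Λ * rs / ‖y‖ := by positivity
      linarith
    have hG : 0 < S.G y := tailG_pos _ _ hr
    calc 9 / 32 * Real.exp (-Λ) * (height y * S.G y)
        = S.G y * Real.exp (-Λ) * (9 / 16) * (height y / 2) := by ring
      _ ≤ _ := mul_le_mul (mul_le_mul (mul_le_mul_of_nonneg_left hE hG.le) hw (by norm_num)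
          (by positivity)) hY (by positivity) (by positivity)
  suffices main : M / 2 * b y ≤ U y by
    have := mul_le_mul_of_nonneg_left low (show 0 ≤ M / 2 by linarith)
    linarith
  rcases hM.eq_or_lt with hM0 | hMp
  · rw [← hM0, zero_div, zero_mul]; exact hpos y hy hyd hyD
  by_contra hcon
  set g := fun x => M / 2 * b x + -1 * U x with hg
  have hgy : 0 < g y := by simp only [hg]; linarith
  -- far away the difference is below its value at `y`
  have hlim : Tendsto (fun r : ℝ => M * (r ^ (S.k / S.a - 1) * Real.exp (-S.a * r))) atTop (𝓝 0) := by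
    simpa using (tendsto_rpow_mul_exp_neg_mul_atTop_nhds_zero (S.k / S.a - 1) S.a ha).const_mul M
  obtain ⟨Rb, hRb, hRby⟩ :=
    ((hlim.eventually_lt_const hgy).and (eventually_gt_atTop ‖y‖)).exists
  set Q : Set Space := {x | rs ≤ ‖x‖ ∧ ‖x‖ ≤ Rb ∧ δ ≤ height x ∧ height x ≤ D * ‖x‖}
  have hQc : IsCompact Q := by
    refine (isCompact_closedBall (0 : Space) Rb).of_isClosed_subset ?_ fun x hx => by
      simpa using hx.2.1
    exact (isClosed_le continuous_const continuous_norm).inter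
      ((isClosed_le continuous_norm continuous_const).inter
        ((isClosed_le continuous_const contHeight).inter
          (isClosed_le contHeight (continuous_const.mul continuous_norm))))
  have hW : IsOpen {z : Space | z ≠ 0} := isOpen_ne_zero
  have hb2 : ContDiffOn ℝ 2 b {z : Space | z ≠ 0} := contDiffOn_barB S _ _ _ _ _
  have hg2 : ContDiffOn ℝ 2 g {z : Space | z ≠ 0} :=
    (contDiffOn_const.mul hb2).add (contDiffOn_const.mul hU.contDiffOn)
  obtain ⟨x₀, hx₀, hmax⟩ := hQc.exists_isMaxOn ⟨y, hy, hRby.le, hyd, hyD⟩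
    (hg2.continuousOn.mono fun x hx => (facts x hx.1 hx.2.2.1 hx.2.2.2).2.2.2.1)
  obtain ⟨hq1, hq2, hq3, hq4⟩ := hx₀
  have hgx : g y ≤ g x₀ := hmax ⟨hy, hRby.le, hyd, hyD⟩
  obtain ⟨hup, hE1, hzG₀, hx0, hxt0, -⟩ := facts x₀ hq1 hq3 hq4
  have hU0 := hpos x₀ hq1 hq3 hq4
  have hgval : g x₀ = M / 2 * b x₀ + -1 * U x₀ := rfl
  have hbpos : 0 < b x₀ := by
    by_contra hn
    have := mul_nonpos_of_nonneg_of_nonpos (show 0 ≤ M / 2 by linarith) (not_lt.1 hn)
    linarith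
  have hbz : b x₀ ≤ 2 * zG S x₀ := by
    have := mul_le_mul_of_nonneg_right hE1 hzG₀.le
    linarith
  have hgz : g x₀ ≤ M * zG S x₀ - U x₀ := by
    have := mul_le_mul_of_nonneg_left hbz (show 0 ≤ M / 2 by linarith)
    linarith
  have hb0 := barB_eq S Λ rs K δ (rs / η) hx0
  have i1 : rs < ‖x₀‖ := by
    refine hq1.lt_of_ne fun h => ?_
    have := hsph x₀ h.symm hq3 hq4
    linarith
  have i2 : ‖x₀‖ < Rb := by
    refine hq2.lt_of_ne fun h => ?_
    have hzr : height x₀ ≤ ‖x₀‖ := (le_abs_self _).trans (abs_height_le x₀)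
    have h2 : zG S x₀ ≤ Rb ^ (S.k / S.a - 1) * Real.exp (-S.a * Rb) := by
      refine (mul_le_mul_of_nonneg_right hzr (tailG_pos _ _ (norm_pos_iff.2 hx0)).le).trans_eq ?_
      rw [tailG, h, show S.k / S.a - 1 = S.k / S.a - 2 + 1 by ring,
        Real.rpow_add (by linarith), Real.rpow_one, neg_mul]
      ring
    have := mul_le_mul_of_nonneg_left h2 hMp.le
    linarith
  have i3 : δ < height x₀ := by
    refine hq3.lt_of_ne fun h => hbpos.not_ge ?_
    rw [hb, hb0]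
    refine mul_nonpos_of_nonneg_of_nonpos ?_ ?_
    · exact mul_nonneg (mul_nonneg (tailG_pos _ _ (norm_pos_iff.2 hx0)).le (Real.exp_pos _).le)
        (sq_nonneg _)
    · have hr : rs ≤ ‖x₀‖ := hq1
      have h1 : K * δ * ang x₀ ≤ 1 := by
        rw [ang, ← h, mul_div_assoc', div_le_one (norm_pos_iff.2 hx0)]
        have : K * δ * δ ≤ K * 1 * 1 := mul_le_mul (mul_le_mul_of_nonneg_left hδ1 hK0) hδ1 hδ.le
          (by positivity)
        linarith
      rw [← h]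
      have := mul_le_mul_of_nonneg_left h1 hδ.le
      linarith
  have i4 : height x₀ < D * ‖x₀‖ := by
    refine hq4.lt_of_ne fun h => hbpos.ne' ?_
    rw [hb, hb0, ang, h, mul_div_cancel_right₀ _ (norm_ne_zero_iff.2 hx0), hD2]
    ring
  have hloc : IsLocalMax g x₀ := by
    refine hmax.isLocalMax ?_
    have ho : IsOpen {x : Space | rs < ‖x‖ ∧ ‖x‖ < Rb ∧ δ < height x ∧ height x < D * ‖x‖} :=
      (isOpen_lt continuous_const continuous_norm).inter
        ((isOpen_lt continuous_norm continuous_const).inter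
          ((isOpen_lt continuous_const contHeight).inter
            (isOpen_lt contHeight (continuous_const.mul continuous_norm))))
    exact mem_of_superset (ho.mem_nhds ⟨i1, i2, i3, i4⟩)
      fun x hx => ⟨hx.1.le, hx.2.1.le, hx.2.2.1.le, hx.2.2.2.le⟩
  have hlg := lap_nonpos_of_isLocalMax hW hx0 hg2 hloc
  rw [hg, lap_add hW (contDiffOn_const.mul hb2) (contDiffOn_const.mul hU.contDiffOn) hx0,
    lap_const_mul _ hW hb2 hx0, lap_const_mul _ hW hU.contDiffOn hx0] at hlg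
  have hL := hlap rs δ x₀ (by linarith) hδ hδ1 hq1 hq3 hq4
  rw [← hΛ, ← hKdef, ← hb] at hL
  have hS := hsuper x₀ hq1 hq3 hq4
  have hG0 := mul_nonneg (hfar ‖x₀‖ hq1) (le_of_lt (hgy.trans_le hgx))
  rw [hgval] at hG0
  set Z := zG S x₀ / ‖x₀‖ ^ 2 with hZ
  have hZ0 : 0 < Z := div_pos hzG₀ (pow_pos (norm_pos_iff.2 hx0) 2)
  have hexp : Real.exp (-Λ) * Real.exp Λ = 1 := by rw [← Real.exp_add]; simp
  have hbig : CS < Real.exp (-Λ) * (rs / η / 4) := by
    have h1 : 4 * η * |CS| * Real.exp Λ < rs := by linarith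
    have h2 := mul_lt_mul_of_pos_left h1 (show 0 < Real.exp (-Λ) / (4 * η) by positivity)
    have e1 : Real.exp (-Λ) / (4 * η) * (4 * η * |CS| * Real.exp Λ) =
        |CS| * (Real.exp (-Λ) * Real.exp Λ) := by field_simp
    have e2 : Real.exp (-Λ) / (4 * η) * rs = Real.exp (-Λ) * (rs / η / 4) := by ring
    rw [e1, hexp, mul_one, e2] at h2
    linarith [le_abs_self CS]
  have h3 := mul_le_mul_of_nonneg_left hL (show 0 ≤ M / 2 by linarith)
  have h4 := mul_lt_mul_of_pos_right hbig (mul_pos hMp hZ0)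
  have h5 : CS * M * zG S x₀ / ‖x₀‖ ^ 2 = CS * (M * Z) := by rw [hZ]; ring
  linarith

end Vale.Agent.P363.Ext.Small
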