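import Vale.Agent.P363.Ext.Geometry
import Vale.Agent.P363.Tool.Barrier.Calculus
import Vale.Agent.P363.Tool.MaxPrinciple
import Vale.Agent.P363.Inter.Bar.Calculus

/-!
P363, Kohn-Sham side, smallness near the plane: the Laplacian of compositions, of products and of
functions of `(r, z / r)`, and the smooth positive part used to form smooth minima.
-/

noncomputable section

namespace Vale.Agent.P363.Ext.Small

open MeasureTheory Filter Set
open scoped BigOperators Topology ContDiff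

/-! ### second derivatives -/

lemma differentiableAt_deriv3 {f : Space → ℝ} {W : Set Space} (hW : IsOpen W)
    (hf : ContDiffOn ℝ 2 f W) {x : Space} (hx : x ∈ W) (a : Fin 3) :
    DifferentiableAt ℝ (deriv3 a f) x :=
  ((contDiffOn_deriv3 a hW (m := 1) hf (by norm_num)).contDiffAt (hW.mem_nhds hx)).differentiableAt
    one_ne_zero

lemma continuousOn_lap {f : Space → ℝ} {W : Set Space} (hW : IsOpen W)
    (hf : ContDiffOn ℝ 2 f W) : ContinuousOn (lap f) W := by
  refine continuousOn_finsetSum _ fun a _ => ?_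
  exact (contDiffOn_deriv3 a hW (m := 0) (contDiffOn_deriv3 a hW (m := 1) hf (by norm_num))
    (by norm_num)).continuousOn

lemma deriv3_comp_scalar {φ : ℝ → ℝ} {d : ℝ} {u : Space → ℝ} {x : Space}
    (hu : DifferentiableAt ℝ u x) (h : HasDerivAt φ d (u x)) (a : Fin 3) :
    deriv3 a (fun y => φ (u y)) x = d * deriv3 a u x := by
  have := h.comp_hasFDerivAt x hu.hasFDerivAt
  rw [deriv3, show (fun y => φ (u y)) = φ ∘ u from rfl, this.fderiv]
  simp [deriv3]

/-- The Laplacian of a scalar function of a function. -/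
lemma lap_scalar {φ φ1 φ2 : ℝ → ℝ} (h1 : ∀ t, HasDerivAt φ (φ1 t) t)
    (h2 : ∀ t, HasDerivAt φ1 (φ2 t) t) {u : Space → ℝ} {W : Set Space} (hW : IsOpen W)
    (hu : ContDiffOn ℝ 2 u W) {x : Space} (hx : x ∈ W) :
    lap (fun y => φ (u y)) x =
      φ2 (u x) * (∑ a : Fin 3, deriv3 a u x ^ 2) + φ1 (u x) * lap u x := by
  have hd : ∀ y ∈ W, DifferentiableAt ℝ u y := fun y hy =>
    (hu.contDiffAt (hW.mem_nhds hy)).differentiableAt two_ne_zero
  simp only [lap, Finset.mul_sum, ← Finset.sum_add_distrib]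
  refine Finset.sum_congr rfl fun a _ => ?_
  have e : deriv3 a (fun y => φ (u y)) =ᶠ[𝓝 x] fun y => φ1 (u y) * deriv3 a u y := by
    filter_upwards [hW.mem_nhds hx] with y hy
    exact deriv3_comp_scalar (hd y hy) (h1 _) a
  have hc : DifferentiableAt ℝ (fun y => φ1 (u y)) x :=
    (h2 _).differentiableAt.comp x (hd x hx)
  rw [deriv3, e.fderiv_eq]
  change deriv3 a (fun y => φ1 (u y) * deriv3 a u y) x = _
  rw [deriv3_mul hc (differentiableAt_deriv3 hW hu hx a) a,
    deriv3_comp_scalar (hd x hx) (h2 _) a]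
  ring

/-- The Laplacian of a product. -/
lemma lap_mul_on {f g : Space → ℝ} {W : Set Space} (hW : IsOpen W) (hf : ContDiffOn ℝ 2 f W)
    (hg : ContDiffOn ℝ 2 g W) {x : Space} (hx : x ∈ W) :
    lap (fun y => f y * g y) x =
      f x * lap g x + g x * lap f x + 2 * ∑ a : Fin 3, deriv3 a f x * deriv3 a g x := by
  have hd : ∀ {u : Space → ℝ}, ContDiffOn ℝ 2 u W → ∀ y ∈ W, DifferentiableAt ℝ u y :=
    fun hu y hy => (hu.contDiffAt (hW.mem_nhds hy)).differentiableAt two_ne_zero
  simp only [lap, Finset.mul_sum, ← Finset.sum_add_distrib]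
  refine Finset.sum_congr rfl fun a _ => ?_
  have e : deriv3 a (fun y => f y * g y) =ᶠ[𝓝 x]
      fun y => deriv3 a f y * g y + f y * deriv3 a g y := by
    filter_upwards [hW.mem_nhds hx] with y hy
    exact deriv3_mul (hd hf y hy) (hd hg y hy) a
  have hf' := differentiableAt_deriv3 hW hf hx a
  have hg' := differentiableAt_deriv3 hW hg hx a
  rw [deriv3, e.fderiv_eq]
  change deriv3 a (fun y => deriv3 a f y * g y + f y * deriv3 a g y) x = _
  rw [deriv3_add (f := fun y => deriv3 a f y * g y) (g := fun y => f y * deriv3 a g y)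
      (hf'.mul (hd hg x hx)) ((hd hf x hx).mul hg') a,
    deriv3_mul hf' (hd hg x hx) a, deriv3_mul (hd hf x hx) hg' a]
  ring

lemma lap_sub {f g : Space → ℝ} {W : Set Space} (hW : IsOpen W) (hf : ContDiffOn ℝ 2 f W)
    (hg : ContDiffOn ℝ 2 g W) {x : Space} (hx : x ∈ W) :
    lap (fun y => f y - g y) x = lap f x - lap g x := by
  have e : (fun y => f y - g y) = fun y => f y + -1 * g y := by funext y; ring
  rw [e, lap_add hW hf (contDiffOn_const.mul hg) hx, lap_const_mul _ hW hg hx]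
  ring

/-! ### functions of `r` and `z / r` -/

/-- `z / r`. -/
def ang (y : Space) : ℝ := height y / ‖y‖

lemma isOpen_ne_zero : IsOpen {y : Space | y ≠ 0} := isOpen_ne

lemma ang_eq : ang = fun y : Space => height y * Bar.tail (-1) 0 ‖y‖ := by
  funext y
  simp [ang, Bar.tail, Real.rpow_neg_one, div_eq_mul_inv]

lemma contDiffOn_ang {m : WithTop ℕ∞} : ContDiffOn ℝ m ang {y : Space | y ≠ 0} := by
  rw [ang_eq]
  exact Bar.contDiffOn_mul_tail Bar.contDiff_height _ _

lemma deriv3_ang {x : Space} (hx : x ≠ 0) (a : Fin 3) :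
    deriv3 a ang x = (if (2 : Fin 3) = a then 1 else 0) / ‖x‖ - height x * x a / ‖x‖ ^ 3 := by
  have hr : 0 < ‖x‖ := norm_pos_iff.2 hx
  have hd := Bar.hasDerivAt_tail (-1) 0 hr
  rw [ang_eq, deriv3_mul (f := height) (g := fun y : Space => Bar.tail (-1) 0 ‖y‖)
    (Bar.contDiff_height.differentiable (n := 1) one_ne_zero x)
    (Bar.differentiableAt_radial hx hd) a, Bar.deriv3_height, Bar.deriv3_radial hx hd a]
  simp only [Bar.tail, Real.rpow_neg_one, zero_mul, neg_zero, Real.exp_zero, mul_one]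
  field_simp
  ring

lemma sum_coord_deriv3_ang {x : Space} (hx : x ≠ 0) :
    ∑ a : Fin 3, x a * deriv3 a ang x = 0 := by
  have hr : ‖x‖ ≠ 0 := norm_ne_zero_iff.2 hx
  have hs := Bar.norm_sq_eq_sum x
  simp only [deriv3_ang hx, Fin.sum_univ_three, height] at hs ⊢
  simp [show (2 : Fin 3) ≠ 0 by decide, show (2 : Fin 3) ≠ 1 by decide]
  field_simp
  linear_combination x 2 * hs

lemma sum_sq_deriv3_ang {x : Space} (hx : x ≠ 0) :
    ∑ a : Fin 3, deriv3 a ang x ^ 2 = (1 - ang x ^ 2) / ‖x‖ ^ 2 := by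
  have hr : ‖x‖ ≠ 0 := norm_ne_zero_iff.2 hx
  have hs := Bar.norm_sq_eq_sum x
  simp only [deriv3_ang hx, Fin.sum_univ_three, ang, height] at hs ⊢
  simp [show (2 : Fin 3) ≠ 0 by decide, show (2 : Fin 3) ≠ 1 by decide]
  field_simp
  linear_combination -(x 2 ^ 2) * hs

lemma lap_ang {x : Space} (hx : x ≠ 0) : lap ang x = -(2 * ang x / ‖x‖ ^ 2) := by
  have hr : 0 < ‖x‖ := norm_pos_iff.2 hx
  rw [ang_eq, Bar.lap_height_tail _ _ hx]
  field_simp
  ring

/-- The Laplacian of `F r * π (z / r)`. -/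
lemma lap_polar {F F1 : ℝ → ℝ} {F2 : ℝ} {π π1 π2 : ℝ → ℝ} {x : Space} (hx : x ≠ 0)
    (hπc : ContDiff ℝ 2 π) (hπ : ∀ t, HasDerivAt π (π1 t) t)
    (hπ1 : ∀ t, HasDerivAt π1 (π2 t) t) (hF : ∀ t, 0 < t → HasDerivAt F (F1 t) t)
    (hF1 : HasDerivAt F1 F2 ‖x‖) :
    lap (fun y => π (ang y) * F ‖y‖) x = (F2 + 2 * F1 ‖x‖ / ‖x‖) * π (ang x)
      + F ‖x‖ * ((1 - ang x ^ 2) * π2 (ang x) - 2 * ang x * π1 (ang x)) / ‖x‖ ^ 2 := by
  have hP : ContDiffOn ℝ 2 (fun y => π (ang y)) {y : Space | y ≠ 0} :=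
    hπc.comp_contDiffOn contDiffOn_ang
  have hu : DifferentiableAt ℝ ang x :=
    ((contDiffOn_ang (m := 2)).contDiffAt (isOpen_ne_zero.mem_nhds hx)).differentiableAt two_ne_zero
  rw [Bar.lap_mul_radial hx (hP.contDiffAt (isOpen_ne_zero.mem_nhds hx)) hF hF1,
    lap_scalar hπ hπ1 isOpen_ne_zero contDiffOn_ang hx, sum_sq_deriv3_ang hx, lap_ang hx]
  have e : ∑ a : Fin 3, x a * deriv3 a (fun y => π (ang y)) x = 0 := by
    simp only [deriv3_comp_scalar hu (hπ _)]
    rw [← mul_zero (π1 (ang x)), ← sum_coord_deriv3_ang hx, Finset.mul_sum]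
    exact Finset.sum_congr rfl fun a _ => by ring
  rw [e]
  ring

/-! ### the smooth positive part -/

/-- A smooth convex function between `t₊ - ν` and `t₊`, vanishing for `t ≤ 0`. -/
def sPart (ν t : ℝ) : ℝ := ∫ u in (0 : ℝ)..t, Real.smoothTransition (u / ν)

/-- Its derivative. -/
def sPart' (ν t : ℝ) : ℝ := Real.smoothTransition (t / ν)

lemma continuous_sPart' (ν : ℝ) : Continuous (sPart' ν) :=
  Real.smoothTransition.continuous.comp (continuous_id.div_const ν)

lemma hasDerivAt_sPart (ν t : ℝ) : HasDerivAt (sPart ν) (sPart' ν t) t :=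
  intervalIntegral.integral_hasDerivAt_right ((continuous_sPart' ν).intervalIntegrable _ _)
    ((continuous_sPart' ν).stronglyMeasurableAtFilter _ _) (continuous_sPart' ν).continuousAt

lemma contDiff_sPart' (ν : ℝ) : ContDiff ℝ ∞ (sPart' ν) :=
  Real.smoothTransition.contDiff.comp (contDiff_id.div_const ν)

lemma hasDerivAt_sPart' (ν t : ℝ) : HasDerivAt (sPart' ν) (deriv (sPart' ν) t) t :=
  ((contDiff_sPart' ν).differentiable (by simp) t).hasDerivAt

lemma contDiff_sPart (ν : ℝ) : ContDiff ℝ 2 (sPart ν) := by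
  rw [show (2 : WithTop ℕ∞) = 1 + 1 by norm_num, contDiff_succ_iff_deriv]
  refine ⟨fun t => (hasDerivAt_sPart ν t).differentiableAt, fun h => absurd h (by decide), ?_⟩
  rw [show deriv (sPart ν) = sPart' ν from funext fun t => (hasDerivAt_sPart ν t).deriv]
  exact (contDiff_sPart' ν).of_le (by norm_cast)

variable {ν : ℝ} (hν : 0 < ν)
include hν

lemma sPart'_mono : Monotone (sPart' ν) := fun _ _ h =>
  Real.smoothTransition.monotone (div_le_div_of_nonneg_right h hν.le)

lemma deriv_sPart'_nonneg (t : ℝ) : 0 ≤ deriv (sPart' ν) t := (sPart'_mono hν).deriv_nonneg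

omit hν in
lemma sPart'_mem (ν t : ℝ) : 0 ≤ sPart' ν t ∧ sPart' ν t ≤ 1 :=
  ⟨Real.smoothTransition.nonneg _, Real.smoothTransition.le_one _⟩

lemma sPart'_of_nonpos {t : ℝ} (ht : t ≤ 0) : sPart' ν t = 0 :=
  Real.smoothTransition.zero_of_nonpos (div_nonpos_of_nonpos_of_nonneg ht hν.le)

lemma sPart'_of_ge {t : ℝ} (ht : ν ≤ t) : sPart' ν t = 1 :=
  Real.smoothTransition.one_of_one_le ((one_le_div hν).2 ht)

lemma sPart_of_nonpos {t : ℝ} (ht : t ≤ 0) : sPart ν t = 0 := by
  rw [sPart, intervalIntegral.integral_congr (g := fun _ => (0 : ℝ)) fun u hu => ?_]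
  · simp
  · rw [uIcc_of_ge ht] at hu
    exact sPart'_of_nonpos hν hu.2

lemma sPart_nonneg (t : ℝ) : 0 ≤ sPart ν t := by
  rcases le_total t 0 with ht | ht
  · rw [sPart_of_nonpos hν ht]
  · exact intervalIntegral.integral_nonneg ht fun u _ => (sPart'_mem ν u).1

lemma sPart_le_mul (t : ℝ) : sPart ν t ≤ t * sPart' ν t := by
  rcases le_total t 0 with ht | ht
  · rw [sPart_of_nonpos hν ht, sPart'_of_nonpos hν ht, mul_zero]
  · calc sPart ν t ≤ ∫ _ in (0 : ℝ)..t, sPart' ν t :=
        intervalIntegral.integral_mono_on ht ((continuous_sPart' ν).intervalIntegrable _ _)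
          intervalIntegrable_const fun u hu => sPart'_mono hν hu.2
      _ = t * sPart' ν t := by rw [intervalIntegral.integral_const, sub_zero, smul_eq_mul]

lemma sPart_le_max (t : ℝ) : sPart ν t ≤ max t 0 := by
  refine (sPart_le_mul hν t).trans ?_
  rcases le_total t 0 with ht | ht
  · rw [sPart'_of_nonpos hν ht, mul_zero]
    exact le_max_right _ _
  · exact (mul_le_of_le_one_right ht (sPart'_mem ν t).2).trans (le_max_left _ _)

lemma sub_le_sPart (t : ℝ) : t - ν ≤ sPart ν t := by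
  rcases le_total t ν with ht | ht
  · linarith [sPart_nonneg hν t]
  · have hi : ∀ a b : ℝ, IntervalIntegrable (fun u => Real.smoothTransition (u / ν)) volume a b :=
      fun a b => (continuous_sPart' ν).intervalIntegrable a b
    rw [sPart, ← intervalIntegral.integral_add_adjacent_intervals (hi 0 ν) (hi ν t),
      intervalIntegral.integral_congr (a := ν) (b := t) (g := fun _ => (1 : ℝ)) fun u hu => ?_]
    · have := intervalIntegral.integral_nonneg (μ := volume) hν.le
        (f := fun u => Real.smoothTransition (u / ν)) fun u _ => (sPart'_mem ν u).1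
      simp only [intervalIntegral.integral_const, smul_eq_mul, mul_one]
      linarith
    · rw [uIcc_of_le ht] at hu
      exact sPart'_of_ge hν hu.1

end Vale.Agent.P363.Ext.Small
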