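import Vale.Agent.P363.Ext.Combination
import Vale.Agent.P363.Ext.Small.Calc
import Vale.Agent.P363.Ext.Polar.Meas
import Vale.Agent.P363.KS.AxialAvg

/-!
P363, Kohn-Sham side, smallness near the plane: cones around the plane, the nonnegative
candidates living on them, and the mollifier.
-/

noncomputable section

namespace Vale.Agent.P363.Ext.Small

open MeasureTheory Filter Metric Set
open scoped BigOperators Topology ContDiff

/-- The cone `1 / r ≤ z ≤ D r`, `R ≤ r`. -/
def cone (R D : ℝ) : Set Space :=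
  {x | R ≤ ‖x‖ ∧ 1 ≤ ‖x‖ * height x ∧ height x ≤ D * ‖x‖}

lemma isClosed_cone (R D : ℝ) : IsClosed (cone R D) := by
  have hh : Continuous height := Bar.contDiff_height.continuous (n := 0)
  exact (isClosed_le continuous_const continuous_norm).inter
    ((isClosed_le continuous_const (continuous_norm.mul hh)).inter
      (isClosed_le hh (continuous_const.mul continuous_norm)))

lemma height_pos_of_cone {R D : ℝ} {x : Space} (hx : x ∈ cone R D) : 0 < height x := by
  by_contra h
  have := mul_nonpos_of_nonneg_of_nonpos (norm_nonneg x) (not_lt.1 h)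
  linarith [hx.2.1]

lemma norm_pos_of_cone {R D : ℝ} {x : Space} (hx : x ∈ cone R D) : 0 < ‖x‖ := by
  rcases (norm_nonneg x).eq_or_lt with h | h
  · have := hx.2.1
    rw [← h, zero_mul] at this
    linarith
  · exact h

lemma inv_le_height {R D : ℝ} {x : Space} (hx : x ∈ cone R D) : 1 / ‖x‖ ≤ height x := by
  rw [div_le_iff₀' (norm_pos_of_cone hx)]
  exact hx.2.1

lemma cone_subset_belt {R₁ R D : ℝ} (hR : R₁ < R) (hD : 4 * D ≤ 1) : cone R D ⊆ belt R₁ := by
  intro x hx
  refine ⟨hR.trans_le hx.1, ?_⟩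
  rw [abs_of_pos (height_pos_of_cone hx)]
  have h1 := mul_le_mul_of_nonneg_right hD (norm_nonneg x)
  linarith [hx.2.2, norm_pos_of_cone hx]

lemma cone_rot {R D : ℝ} (θ : ℝ) (x : Space) : rot θ x ∈ cone R D ↔ x ∈ cone R D := by
  have h : ‖rot θ x‖ = ‖x‖ := (axIso false θ).norm_map x
  simp [cone, h, height]

/-- Balls inside a cone. -/
lemma closedBall_subset_cone {R D ρ : ℝ} {y : Space} (hD0 : 0 ≤ D)
    (hR : R + ρ ≤ ‖y‖) (hlo : 1 ≤ (‖y‖ - ρ) * (height y - ρ)) (hz : ρ ≤ height y)
    (hhi : height y + ρ ≤ D * (‖y‖ - ρ)) : closedBall y ρ ⊆ cone R D := by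
  intro x hx
  rw [mem_closedBall, dist_comm] at hx
  have h1 := norm_sub_dist_le y x
  have h2 := abs_le.1 ((abs_height_sub_le y x).trans hx)
  refine ⟨by linarith [h1.1], ?_, ?_⟩
  · exact hlo.trans (mul_le_mul (by linarith [h1.1]) (by linarith) (by linarith) (norm_nonneg x))
  · calc height x ≤ height y + ρ := by linarith
      _ ≤ D * (‖y‖ - ρ) := hhi
      _ ≤ D * ‖x‖ := mul_le_mul_of_nonneg_left (by linarith [h1.1]) hD0

/-- A nonnegative candidate on a cone: a supersolution of `Δ - 2 (v - μ)` up to `B L z G / r²`,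
with the surplus `p`. -/
structure Cand (S : Setup) (R D B L : ℝ) (h p : Space → ℝ) : Prop where
  one_le : 1 ≤ R
  R_le : S.R₁ < R
  D_pos : 0 < D
  D_le : 4 * D ≤ 1
  B_nonneg : 0 ≤ B
  L_pos : 0 < L
  cont : ContinuousOn h (belt S.R₁)
  cont_p : ContinuousOn p (belt S.R₁)
  rot : ∀ θ x, h (rot θ x) = h x
  nonneg : ∀ x ∈ cone R D, 0 ≤ h x
  nonneg_p : ∀ x ∈ cone R D, 0 ≤ p x
  le : ∀ x ∈ cone R D, h x ≤ L * S.φu x
  eqn : ∃ H : Space → ℝ, LocMemLp 2 (belt S.R₁) H ∧ WeakPoisson (belt S.R₁) h H ∧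
    ∀ᵐ x : Space, x ∈ cone R D → H x ≤ 2 * (S.X x + farPot S.a S.k ‖x‖) * h x
      + B * L * (height x * S.G x) / ‖x‖ ^ 2 - p x

/-- The function continued by zero. -/
def ext0 (R D : ℝ) (h : Space → ℝ) : Space → ℝ := (cone R D).indicator h

lemma locallyIntegrable_ext0 {S : Setup} {R D : ℝ} (hR : S.R₁ < R) (hD : 4 * D ≤ 1)
    {h : Space → ℝ} (hc : ContinuousOn h (belt S.R₁)) : LocallyIntegrable (ext0 R D h) := by
  rw [MeasureTheory.locallyIntegrable_iff]
  intro K hK
  rw [IntegrableOn, ext0, integrable_indicator_iff (isClosed_cone R D).measurableSet,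
    IntegrableOn, Measure.restrict_restrict (isClosed_cone R D).measurableSet]
  exact ((hc.mono (inter_subset_left.trans (cone_subset_belt hR hD))).integrableOn_compact
    (hK.inter_left (isClosed_cone R D)))

/-- The profile of the mollifier. -/
def bumpFn (ρ : ℝ) (y : Space) : ℝ := cutProf ρ ‖y‖

/-- Its mass. -/
def bumpMass (ρ : ℝ) : ℝ := ∫ y, bumpFn ρ y

/-- The radial mollifier of radius `ρ`. -/
def molR (ρ : ℝ) (y : Space) : ℝ := bumpFn ρ y / bumpMass ρ

/-- The mollified function. -/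
def avg (ρ : ℝ) (g : Space → ℝ) : Space → ℝ := conv3 (molR ρ) g

variable {ρ : ℝ} (hρ : 0 < ρ)
include hρ

lemma contDiff_bumpFn : ContDiff ℝ ∞ (bumpFn ρ) := by
  refine contDiff_iff_contDiffAt.2 fun y => ?_
  by_cases hy : y = 0
  · subst hy
    refine (contDiffAt_const (c := (1 : ℝ))).congr_of_eventuallyEq ?_
    filter_upwards [ball_mem_nhds (0 : Space) (half_pos hρ)] with w hw
    exact cutProf_of_le hρ (mem_ball_zero_iff.1 hw).le
  · exact (contDiff_cutProf ρ).contDiffAt.comp y (contDiffAt_norm ℝ hy)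

omit hρ in
lemma bumpFn_nonneg (y : Space) : 0 ≤ bumpFn ρ y := Real.smoothTransition.nonneg _

omit hρ in
lemma bumpFn_le_one (y : Space) : bumpFn ρ y ≤ 1 := Real.smoothTransition.le_one _

lemma tsupport_bumpFn : tsupport (bumpFn ρ) ⊆ closedBall 0 ρ := by
  refine closure_minimal (fun y hy => ?_) isClosed_closedBall
  by_contra h
  rw [mem_closedBall_zero_iff, not_le] at h
  exact hy (cutProf_of_ge hρ h.le)

lemma hasCompactSupport_bumpFn : HasCompactSupport (bumpFn ρ) :=
  (isCompact_closedBall 0 ρ).of_isClosed_subset (isClosed_tsupport _) (tsupport_bumpFn hρ)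

lemma bumpMass_ge : ρ ^ 3 / 2 ≤ bumpMass ρ := by
  have hi : Integrable (bumpFn ρ) :=
    (contDiff_bumpFn hρ).continuous.integrable_of_hasCompactSupport (hasCompactSupport_bumpFn hρ)
  calc ρ ^ 3 / 2 ≤ volume.real (ball (0 : Space) (ρ / 2)) := by
        rw [measureReal_def, EuclideanSpace.volume_ball_fin_three, ENNReal.toReal_mul,
          ENNReal.toReal_pow, ENNReal.toReal_ofReal (by positivity),
          ENNReal.toReal_ofReal (by positivity)]
        have := mul_le_mul_of_nonneg_left Real.pi_gt_three.le (show 0 ≤ ρ ^ 3 / 6 by positivity)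
        linarith
    _ = ∫ y in ball (0 : Space) (ρ / 2), (1 : ℝ) := by simp
    _ ≤ ∫ y in ball (0 : Space) (ρ / 2), bumpFn ρ y := by
        refine setIntegral_mono_on (integrableOn_const measure_ball_lt_top.ne) hi.integrableOn
          measurableSet_ball fun y hy => ?_
        rw [bumpFn, cutProf_of_le hρ (mem_ball_zero_iff.1 hy).le]
    _ ≤ bumpMass ρ := setIntegral_le_integral hi (Eventually.of_forall bumpFn_nonneg)

lemma bumpMass_pos : 0 < bumpMass ρ := lt_of_lt_of_le (by positivity) (bumpMass_ge hρ)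

lemma molR_nonneg (y : Space) : 0 ≤ molR ρ y :=
  div_nonneg (bumpFn_nonneg y) (bumpMass_pos hρ).le

lemma molR_le (y : Space) : molR ρ y ≤ 2 / ρ ^ 3 := by
  calc molR ρ y ≤ 1 / bumpMass ρ :=
        div_le_div_of_nonneg_right (bumpFn_le_one y) (bumpMass_pos hρ).le
    _ ≤ 1 / (ρ ^ 3 / 2) := one_div_le_one_div_of_le (by positivity) (bumpMass_ge hρ)
    _ = 2 / ρ ^ 3 := by field_simp

lemma contDiff_molR : ContDiff ℝ ∞ (molR ρ) := (contDiff_bumpFn hρ).div_const _

lemma tsupport_molR : tsupport (molR ρ) ⊆ closedBall 0 ρ := by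
  refine closure_minimal (fun y hy => tsupport_bumpFn hρ (subset_tsupport _ ?_)) isClosed_closedBall
  exact fun h => hy (by simp [molR, h])

lemma hasCompactSupport_molR : HasCompactSupport (molR ρ) :=
  (isCompact_closedBall 0 ρ).of_isClosed_subset (isClosed_tsupport _) (tsupport_molR hρ)

lemma molR_eq_zero {y : Space} (hy : ρ < ‖y‖) : molR ρ y = 0 :=
  image_eq_zero_of_notMem_tsupport fun h => by
    have := mem_closedBall_zero_iff.1 (tsupport_molR hρ h)
    linarith

lemma integrable_molR : Integrable (molR ρ) :=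
  (contDiff_molR hρ).continuous.integrable_of_hasCompactSupport (hasCompactSupport_molR hρ)

lemma integral_molR (y : Space) : ∫ x, molR ρ (y - x) = 1 := by
  rw [integral_sub_left_eq_self (molR ρ) volume y]
  show ∫ x, bumpFn ρ x / bumpMass ρ = 1
  rw [integral_div]
  exact div_self (bumpMass_pos hρ).ne'

omit hρ in
/-- One constant for the gradient of all mollifiers. -/
lemma abs_deriv3_molR :
    ∃ L : ℝ, 0 ≤ L ∧ ∀ (ρ : ℝ), 0 < ρ → ∀ (a : Fin 3) (y : Space),
      |deriv3 a (molR ρ) y| ≤ L / ρ ^ 4 := by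
  obtain ⟨L, hL, hlip⟩ := cutProf_lipschitz
  refine ⟨2 * L, by positivity, fun ρ hρ a y => ?_⟩
  have h : LipschitzWith (2 * L / ρ ^ 4).toNNReal (molR ρ) := by
    refine LipschitzWith.of_dist_le_mul fun x x' => ?_
    rw [Real.dist_eq, Real.coe_toNNReal _ (by positivity), molR, molR, ← sub_div, abs_div,
      abs_of_pos (bumpMass_pos hρ)]
    calc |bumpFn ρ x - bumpFn ρ x'| / bumpMass ρ
        ≤ (L * dist x x' / ρ) / (ρ ^ 3 / 2) := by
          refine div_le_div₀ (by positivity) ((hlip ρ _ _ hρ).trans ?_) (by positivity)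
            (bumpMass_ge hρ)
          gcongr
          rw [dist_eq_norm]
          exact abs_norm_sub_norm_le x x'
      _ = 2 * L / ρ ^ 4 * dist x x' := by field_simp
  have hb := norm_fderiv_le_of_lipschitz ℝ h (x₀ := y)
  rw [Real.coe_toNNReal _ (by positivity)] at hb
  rw [deriv3, ← Real.norm_eq_abs]
  refine (ContinuousLinearMap.le_opNorm _ _).trans ?_
  rw [norm_unit, mul_one]
  exact hb

lemma contDiff_avg {g : Space → ℝ} (hg : LocallyIntegrable g) : ContDiff ℝ 2 (avg ρ g) :=
  contDiff_conv3 (n := (2 : ℕ∞)) ((contDiff_molR hρ).of_le (by norm_cast))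
    (hasCompactSupport_molR hρ) hg

lemma integrable_avg {g : Space → ℝ} (hg : LocallyIntegrable g) (y : Space) :
    Integrable fun x => g x * molR ρ (y - x) :=
  integrable_conv3 (contDiff_molR hρ).continuous (hasCompactSupport_molR hρ) hg y

lemma avg_nonneg {g : Space → ℝ} (hg : ∀ x, 0 ≤ g x) (y : Space) : 0 ≤ avg ρ g y :=
  integral_nonneg fun x => mul_nonneg (hg x) (molR_nonneg hρ _)

lemma avg_le {g : Space → ℝ} (hg : LocallyIntegrable g) {y : Space} {M : ℝ}
    (hM : ∀ x, ‖y - x‖ ≤ ρ → g x ≤ M) : avg ρ g y ≤ M := by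
  calc avg ρ g y ≤ ∫ x, M * molR ρ (y - x) := by
        refine integral_mono (integrable_avg hρ hg y)
          (((integrable_molR hρ).comp_sub_left y).const_mul M) fun x => ?_
        by_cases h : ‖y - x‖ ≤ ρ
        · exact mul_le_mul_of_nonneg_right (hM x h) (molR_nonneg hρ _)
        · simp [molR_eq_zero hρ (not_le.1 h)]
    _ = M := by rw [integral_const_mul, integral_molR hρ, mul_one]

lemma le_avg {g : Space → ℝ} (hg : LocallyIntegrable g) {y : Space} {M : ℝ}
    (hM : ∀ x, ‖y - x‖ ≤ ρ → M ≤ g x) : M ≤ avg ρ g y := by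
  calc M = ∫ x, M * molR ρ (y - x) := by rw [integral_const_mul, integral_molR hρ, mul_one]
    _ ≤ avg ρ g y := by
        refine integral_mono (((integrable_molR hρ).comp_sub_left y).const_mul M)
          (integrable_avg hρ hg y) fun x => ?_
        by_cases h : ‖y - x‖ ≤ ρ
        · exact mul_le_mul_of_nonneg_right (hM x h) (molR_nonneg hρ _)
        · simp [molR_eq_zero hρ (not_le.1 h)]

omit hρ in
lemma avg_rot {g : Space → ℝ} (hg : ∀ θ x, g (rot θ x) = g x) (θ : ℝ) (y : Space) :
    avg ρ g (rot θ y) = avg ρ g y := by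
  set T := axIso false θ
  have hT : ∀ x, T x = rot θ x := fun x => rfl
  show ∫ x, g x * molR ρ (rot θ y - x) = ∫ x, g x * molR ρ (y - x)
  rw [← T.measurePreserving.integral_comp T.toHomeomorph.measurableEmbedding
    (g := fun x => g x * molR ρ (rot θ y - x))]
  congr 1
  funext x
  simp only [hT, hg, molR, bumpFn]
  rw [← hT, ← hT, ← map_sub, T.norm_map]

lemma continuous_avg {g : Space → ℝ} (hg : LocallyIntegrable g) : Continuous (avg ρ g) :=
  (contDiff_avg hρ hg).continuous

end Vale.Agent.P363.Ext.Small
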