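import Vale.Agent.P363.Ext.Small.Kernel

/-!
P363, Kohn-Sham side, smallness near the plane: the test functions `z G`, `z³ G`, `z G (r - c)`
and `δ arctan (z / δ) G` of the mean value formula.
-/

noncomputable section

namespace Vale.Agent.P363.Ext.Small

open MeasureTheory Filter Metric Set
open scoped BigOperators Topology ContDiff

/-- `z G`. -/
def zG (S : Setup) (y : Space) : ℝ := height y * S.G y

/-- `z³ G`. -/
def z3G (S : Setup) (y : Space) : ℝ := height y ^ 3 * S.G y

/-- `z G (r - c)`. -/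
def zrG (S : Setup) (c : ℝ) (y : Space) : ℝ := height y * S.G y * (‖y‖ - c)

/-- `δ arctan (z / δ) G`. -/
def atanG (S : Setup) (δ : ℝ) (y : Space) : ℝ := δ * Real.arctan (height y / δ) * S.G y

lemma G_mirror (S : Setup) (y : Space) : S.G (mirror y) = S.G y := by
  simp [Setup.G, norm_mirror_eq]

lemma contDiffOn_G (S : Setup) {m : WithTop ℕ∞} : ContDiffOn ℝ m S.G {y : Space | y ≠ 0} :=
  Bar.contDiffOn_tail (S.k / S.a - 2) S.a

lemma contDiffOn_zG (S : Setup) : ContDiffOn ℝ 2 (zG S) {y : Space | y ≠ 0} :=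
  Bar.contDiff_height.contDiffOn.mul (contDiffOn_G S)

lemma contDiffOn_z3G (S : Setup) : ContDiffOn ℝ 2 (z3G S) {y : Space | y ≠ 0} :=
  (Bar.contDiff_height.pow 3).contDiffOn.mul (contDiffOn_G S)

lemma contDiffOn_zrG (S : Setup) (c : ℝ) : ContDiffOn ℝ 2 (zrG S c) {y : Space | y ≠ 0} := by
  have hn : ContDiffOn ℝ 2 (fun y : Space => ‖y‖) {y : Space | y ≠ 0} :=
    fun y hy => (contDiffAt_norm ℝ hy).contDiffWithinAt
  exact (contDiffOn_zG S).mul (hn.sub contDiffOn_const)

lemma contDiffOn_atanG (S : Setup) (δ : ℝ) : ContDiffOn ℝ 2 (atanG S δ) {y : Space | y ≠ 0} :=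
  ((Real.contDiff_arctan.comp (Bar.contDiff_height.div_const δ)).const_smul δ
    |>.contDiffOn).mul (contDiffOn_G S)

/-- The Laplacians of the test functions. -/
theorem explicit_laps (S : Setup) : ∃ Cp r₀ : ℝ, 0 ≤ Cp ∧ 1 ≤ r₀ ∧ ∀ y : Space, r₀ ≤ ‖y‖ →
    0 ≤ height y →
      lap (zG S) y - S.a ^ 2 * zG S y ≤ Cp * zG S y / ‖y‖ ∧
      lap (z3G S) y - S.a ^ 2 * z3G S y ≤
        S.G y * (6 * height y + Cp * height y ^ 3 / ‖y‖) ∧
      (∀ c, 0 ≤ c → c ≤ ‖y‖ → 4 * |S.k| * (‖y‖ - c) ≤ S.a * ‖y‖ →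
        lap (zrG S c) y - S.a ^ 2 * zrG S c y ≤ -(S.a * zG S y)) ∧
      ∀ δ, 0 < δ → lap (atanG S δ) y - S.a ^ 2 * atanG S δ y ≤ Cp * zG S y / ‖y‖ ∧
        (δ ≤ height y → height y ≤ 2 * δ →
          lap (atanG S δ) y - S.a ^ 2 * atanG S δ y + 2 / 25 * (S.G y / δ) ≤
            Cp * zG S y / ‖y‖) := by
  have ha := S.data.a_pos
  set a := S.a
  set k := S.k
  set p := k / a - 2
  have hk : a * (p + 2) = k := by simp only [p]; field_simp; ring
  set Cp := 2 * |k| + |p * (p + 3)| + 2 * a * |p + 1| + |p * (p + 1)| + 6 * |p| + 6 * a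
  set M := 2 * (|(p + 1) * (p + 4)| + |p * (p + 3)|) / a + 1
  have hM : 1 ≤ M := le_add_of_nonneg_left (by positivity)
  refine ⟨Cp, max M (|p| / a + 1), by positivity, hM.trans (le_max_left _ _), fun y hy hz => ?_⟩
  simp only [max_le_iff] at hy
  obtain ⟨hyM, hyp⟩ := hy
  set r := ‖y‖
  set z := height y
  have hr1 : 1 ≤ r := hM.trans hyM
  have hr : 0 < r := by linarith
  have hy0 : y ≠ 0 := norm_pos_iff.1 hr
  have hG : 0 < S.G y := tailG_pos _ _ hr
  have eG : S.G y = Bar.tail p a r := rfl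
  have hpa : p / r - a ≤ 0 := by
    have h1 : |p| ≤ a * (r - 1) := by
      have := mul_le_mul_of_nonneg_left hyp ha.le
      rw [mul_add, mul_div_cancel₀ _ ha.ne'] at this
      linarith
    rw [sub_nonpos, div_le_iff₀ hr]
    nlinarith [le_abs_self p]
  have hdiv : ∀ c : ℝ, c / r ^ 2 ≤ |c| / r := fun c => by
    calc c / r ^ 2 ≤ |c| / r ^ 2 := div_le_div_of_nonneg_right (le_abs_self c) (by positivity)
      _ ≤ |c| / r := div_le_div_of_nonneg_left (abs_nonneg _) hr (le_self_pow₀ hr1 two_ne_zero)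
  have hdiv1 : ∀ c : ℝ, c / r ≤ |c| / r := fun c => div_le_div_of_nonneg_right (le_abs_self c) hr.le
  have hCp : 0 ≤ Cp := by positivity
  refine ⟨?_, ?_, fun c hc0 hcr hck => ?_, fun δ hδ => ?_⟩
  · have e : lap (zG S) y =
        z * Bar.tail p a r * (a ^ 2 - 2 * a * (p + 2) / r + p * (p + 3) / r ^ 2) :=
      Bar.lap_height_tail p a hy0
    have e1 : 2 * a * (p + 2) / r = 2 * k / r := by rw [mul_assoc, hk]
    rw [e, e1, zG, eG]
    have h2 : -(2 * k / r) + p * (p + 3) / r ^ 2 ≤ Cp / r := by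
      have h3 : -(2 * k / r) ≤ 2 * |k| / r := by
        rw [← neg_div]
        exact div_le_div_of_nonneg_right (by linarith [neg_abs_le k]) hr.le
      have h4 := hdiv (p * (p + 3))
      have h5 : 2 * |k| / r + |p * (p + 3)| / r ≤ Cp / r := by
        rw [← add_div]
        refine div_le_div_of_nonneg_right ?_ hr.le
        simp only [Cp]
        linarith [abs_nonneg (p * (p + 1)), abs_nonneg p,
          mul_nonneg (by positivity : 0 ≤ 2 * a) (abs_nonneg (p + 1))]
      linarith
    have hzt : 0 ≤ z * Bar.tail p a r := mul_nonneg hz (Bar.tail_pos _ _ hr).le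
    have := mul_le_mul_of_nonneg_left h2 hzt
    have e2 : Cp * (z * Bar.tail p a r) / r = z * Bar.tail p a r * (Cp / r) := by ring
    linarith
  · have e := Inter.lap_radial_height (F := Bar.tail p a) (p := fun t => t ^ 3)
      (p1 := fun t => 3 * t ^ 2) (p2 := fun t => 6 * t)
      (fun t ht => Bar.hasDerivAt_tail p a ht) (fun t ht => Bar.hasDerivAt_tail' p a ht)
      (fun t => by simpa using hasDerivAt_pow 3 t)
      (fun t => (((hasDerivAt_pow 2 t).const_mul (3 : ℝ))).congr_deriv (by push_cast; ring))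
      hy0
    have e' : z3G S = fun w => Bar.tail p a ‖w‖ * height w ^ 3 := by
      funext w; simp only [z3G, Setup.G, Bar.tailG_eq]; exact mul_comm _ _
    rw [e', e, eG]
    set T := Bar.tail p a r
    have hT : 0 < T := Bar.tail_pos _ _ hr
    have h2 : z ^ 3 * (-(2 * a * (p + 1)) / r + p * (p + 1) / r ^ 2 + 6 * (p / r - a) / r) ≤
        z ^ 3 * (Cp / r) := by
      refine mul_le_mul_of_nonneg_left ?_ (pow_nonneg hz 3)
      have h3 := hdiv1 (-(2 * a * (p + 1)))
      have h4 := hdiv (p * (p + 1))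
      have h5 : 6 * (p / r - a) / r ≤ 0 := div_nonpos_of_nonpos_of_nonneg (by linarith) hr.le
      have h6 : |-(2 * a * (p + 1))| / r + |p * (p + 1)| / r ≤ Cp / r := by
        rw [← add_div]
        refine div_le_div_of_nonneg_right ?_ hr.le
        rw [abs_neg, abs_mul, abs_of_pos (by positivity : 0 < 2 * a)]
        simp only [Cp]
        linarith [abs_nonneg k, abs_nonneg (p * (p + 3)), abs_nonneg p]
      linarith
    have hid : ((((p / r - a) ^ 2 - p / r ^ 2) * T + 2 / r * ((p / r - a) * T)) * z ^ 3 +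
        2 * (z / r) * ((p / r - a) * T) * (3 * z ^ 2) + T * (6 * z)) - a ^ 2 * (T * z ^ 3) =
        T * (z ^ 3 * (-(2 * a * (p + 1)) / r + p * (p + 1) / r ^ 2 + 6 * (p / r - a) / r)
          + 6 * z) := by ring
    have := mul_le_mul_of_nonneg_left h2 hT.le
    have e2 : T * (6 * z + Cp * z ^ 3 / r) = T * (z ^ 3 * (Cp / r)) + T * (6 * z) := by ring
    linarith
  · have e1 : zrG S c = fun w => height w * Bar.tail (p + 1) a ‖w‖ - c * zG S w := by
      funext w
      by_cases hw : w = 0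
      · simp [zrG, zG, hw, height]
      · rw [Bar.tail_add _ _ _ (norm_pos_iff.2 hw), Real.rpow_one]
        simp only [zrG, zG, Setup.G, Bar.tailG_eq]
        ring
    have hA : ContDiffOn ℝ 2 (fun w : Space => height w * Bar.tail (p + 1) a ‖w‖) {w | w ≠ 0} :=
      Bar.contDiffOn_mul_tail Bar.contDiff_height _ _
    have hB : ContDiffOn ℝ 2 (fun w => c * zG S w) {w : Space | w ≠ 0} :=
      contDiffOn_const.mul (contDiffOn_zG S)
    rw [e1, lap_sub isOpen_ne_zero hA hB hy0, lap_const_mul c isOpen_ne_zero (contDiffOn_zG S) hy0,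
      show lap (zG S) y = _ from Bar.lap_height_tail p a hy0, Bar.lap_height_tail (p + 1) a hy0]
    show _ ≤ -(a * zG S y)
    simp only [zG, eG]
    rw [Bar.tail_add _ _ _ hr, Real.rpow_one]
    set T := Bar.tail p a r
    have hzT : 0 ≤ z * T := mul_nonneg hz (Bar.tail_pos _ _ hr).le
    have h2 : -(2 * a) - 2 * k * (1 - c / r) + ((p + 1) * (p + 4) - p * (p + 3) * (c / r)) / r
        ≤ -a := by
      have hcr' : c / r ≤ 1 := (div_le_one hr).2 hcr
      have hc' : 0 ≤ c / r := by positivity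
      have h3 : -(2 * k * (1 - c / r)) ≤ a / 2 := by
        have h4 : 2 * |k| * (1 - c / r) ≤ a / 2 := by
          rw [one_sub_div hr.ne', mul_div_assoc', div_le_iff₀ hr]; linarith
        have := mul_le_mul_of_nonneg_right (neg_abs_le k) (by linarith : 0 ≤ 1 - c / r)
        linarith
      have h5 : ((p + 1) * (p + 4) - p * (p + 3) * (c / r)) / r ≤ a / 2 := by
        rw [div_le_iff₀ hr]
        have h6 : -(p * (p + 3) * (c / r)) ≤ |p * (p + 3)| := by
          refine (neg_le_abs _).trans ?_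
          rw [abs_mul, abs_of_nonneg hc']
          exact mul_le_of_le_one_right (abs_nonneg _) hcr'
        have h7 : a / 2 * M ≤ a / 2 * r := mul_le_mul_of_nonneg_left hyM (by positivity)
        have h8 : a / 2 * M = |(p + 1) * (p + 4)| + |p * (p + 3)| + a / 2 := by
          simp only [M]; field_simp
        linarith [le_abs_self ((p + 1) * (p + 4))]
      linarith
    have hid : z * (r * T) * (a ^ 2 - 2 * a * (p + 1 + 2) / r + (p + 1) * (p + 1 + 3) / r ^ 2) -
        c * (z * T * (a ^ 2 - 2 * a * (p + 2) / r + p * (p + 3) / r ^ 2)) -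
        a ^ 2 * (z * (r * T) - c * (z * T)) =
        z * T * (-(2 * a) - 2 * (a * (p + 2)) * (1 - c / r)
          + ((p + 1) * (p + 4) - p * (p + 3) * (c / r)) / r) := by field_simp; ring
    have := mul_le_mul_of_nonneg_left h2 hzT
    rw [hk] at hid
    linarith
  · set q : ℝ → ℝ := fun t => δ * Real.arctan (t / δ)
    set q1 : ℝ → ℝ := fun t => (1 + (t / δ) ^ 2)⁻¹
    set q2 : ℝ → ℝ := fun t => -(2 * (t / δ) / δ) / (1 + (t / δ) ^ 2) ^ 2
    have hq : ∀ t, HasDerivAt q (q1 t) t := fun t => by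
      refine (((Real.hasDerivAt_arctan _).comp t
        ((hasDerivAt_id t).div_const δ)).const_mul δ).congr_deriv ?_
      simp only [q1, id_eq]
      field_simp
    have hq1 : ∀ t, HasDerivAt q1 (q2 t) t := fun t => by
      refine (((((hasDerivAt_id t).div_const δ).fun_pow 2).const_add 1).fun_inv
        (by positivity)).congr_deriv ?_
      simp only [q2, id_eq]
      push_cast
      ring
    have e := Inter.lap_radial_height (F := Bar.tail p a) (p := q) (p1 := q1) (p2 := q2)
      (fun t ht => Bar.hasDerivAt_tail p a ht) (fun t ht => Bar.hasDerivAt_tail' p a ht)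
      hq hq1 hy0
    have e' : atanG S δ = fun w => Bar.tail p a ‖w‖ * q (height w) := by
      funext w; simp only [atanG, Setup.G, Bar.tailG_eq, q]; exact mul_comm _ _
    rw [e', e, zG, eG]
    set T := Bar.tail p a r
    have hT : 0 < T := Bar.tail_pos _ _ hr
    have hu : 0 ≤ z / δ := div_nonneg hz hδ.le
    have hqz : 0 ≤ q z ∧ q z ≤ z := by
      refine ⟨mul_nonneg hδ.le (Real.arctan_nonneg.2 hu), ?_⟩
      have h1 := Real.le_tan (Real.arctan_nonneg.2 hu) (Real.arctan_lt_pi_div_two _)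
      rw [Real.tan_arctan] at h1
      calc q z ≤ δ * (z / δ) := mul_le_mul_of_nonneg_left h1 hδ.le
        _ = z := by field_simp
    have hid : ((((p / r - a) ^ 2 - p / r ^ 2) * T + 2 / r * ((p / r - a) * T)) * q z +
        2 * (z / r) * ((p / r - a) * T) * q1 z + T * q2 z) - a ^ 2 * (T * q z) =
        T * ((-(2 * a * (p + 1)) / r + p * (p + 1) / r ^ 2) * q z
          + 2 * (z / r) * (p / r - a) * q1 z + q2 z) := by ring
    have h1 : (-(2 * a * (p + 1)) / r + p * (p + 1) / r ^ 2) * q z ≤ Cp * z / r := by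
      have h2 : -(2 * a * (p + 1)) / r + p * (p + 1) / r ^ 2 ≤ Cp / r := by
        refine (add_le_add (hdiv1 _) (hdiv _)).trans ?_
        rw [← add_div]
        refine div_le_div_of_nonneg_right ?_ hr.le
        rw [abs_neg, abs_mul, abs_of_pos (by positivity : 0 < 2 * a)]
        simp only [Cp]
        linarith [abs_nonneg k, abs_nonneg (p * (p + 3)), abs_nonneg p]
      calc _ ≤ Cp / r * q z := mul_le_mul_of_nonneg_right h2 hqz.1
        _ ≤ Cp / r * z := mul_le_mul_of_nonneg_left hqz.2 (by positivity)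
        _ = _ := by ring
    have h3 : 2 * (z / r) * (p / r - a) * q1 z ≤ 0 :=
      mul_nonpos_of_nonpos_of_nonneg (mul_nonpos_of_nonneg_of_nonpos (by positivity) hpa)
        (by positivity)
    refine ⟨?_, fun hlo hhi => ?_⟩
    · have h4 : q2 z ≤ 0 :=
        div_nonpos_of_nonpos_of_nonneg (neg_nonpos.2 (by positivity)) (by positivity)
      have := mul_le_mul_of_nonneg_left (add_le_add (add_le_add h1 h3) h4) hT.le
      have e2 : Cp * (z * T) / r = T * (Cp * z / r + 0 + 0) := by ring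
      linarith
    · have h4 : q2 z ≤ -(2 / 25 / δ) := by
        set u := z / δ
        have hu1 : 1 ≤ u := (one_le_div hδ).2 hlo
        have hu2 : u ≤ 2 := (div_le_iff₀ hδ).2 hhi
        have h5 : 2 / 25 ≤ 2 * u / (1 + u ^ 2) ^ 2 := by
          rw [div_le_div_iff₀ (by norm_num) (by positivity)]
          have h6 : (1 + u ^ 2) ^ 2 ≤ 25 := by
            have : u ^ 2 ≤ 4 := by nlinarith
            nlinarith
          linarith
        have e3 : q2 z = -(2 * u / (1 + u ^ 2) ^ 2 / δ) := by simp only [q2, u]; field_simp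
        rw [e3]
        exact neg_le_neg (div_le_div_of_nonneg_right h5 hδ.le)
      have := mul_le_mul_of_nonneg_left (add_le_add (add_le_add h1 h3) h4) hT.le
      have e2 : T * (Cp * z / r + 0 + -(2 / 25 / δ)) = Cp * (z * T) / r - 2 / 25 * (T / δ) := by ring
      linarith

end Vale.Agent.P363.Ext.Small
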