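import Vale.Agent.P363.Ext.Small.Explicit

/-!
P363, Kohn-Sham side, smallness near the plane: the mean value formula at mirrored centres, applied
to a cut smooth minimum, bounds a mollified candidate from below on a sphere by its box average.
-/

noncomputable section

namespace Vale.Agent.P363.Ext.Small

open MeasureTheory Filter Metric Set
open scoped BigOperators Topology ContDiff

/-- The upper half space. -/
def upperH : Set Space := {y | 0 < height y}

lemma measurableSet_upperH : MeasurableSet upperH :=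
  (isOpen_lt continuous_const (Bar.contDiff_height.continuous (n := 0))).measurableSet

/-- The cut-off at the height `δ`. -/
def cutH (δ t : ℝ) : ℝ := Real.smoothTransition ((t - δ) / δ)

/-- The bound of the derivatives of the cut-off. -/
theorem cutH_bounds : ∃ Cs : ℝ, 0 ≤ Cs ∧ ∀ δ : ℝ, 0 < δ → ∃ s1 s2 : ℝ → ℝ,
    ContDiff ℝ 2 (cutH δ) ∧ (∀ t, HasDerivAt (cutH δ) (s1 t) t) ∧
    (∀ t, HasDerivAt s1 (s2 t) t) ∧
    (∀ t, t < δ ∨ 2 * δ < t → s1 t = 0 ∧ s2 t = 0) ∧
    ∀ t, |s1 t| ≤ Cs / δ ∧ |s2 t| ≤ Cs / δ ^ 2 := by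
  set f := Real.smoothTransition
  have hf : ContDiff ℝ ∞ f := Real.smoothTransition.contDiff
  have h1 : ContDiff ℝ ∞ (deriv f) := (contDiff_infty_iff_deriv.1 hf).2
  have h2 : ContDiff ℝ ∞ (deriv (deriv f)) := (contDiff_infty_iff_deriv.1 h1).2
  have h0 : ∀ u, u < 0 ∨ 1 < u → deriv f u = 0 ∧ deriv (deriv f) u = 0 := by
    intro u hu
    have hS : IsOpen (Iio (0 : ℝ) ∪ Ioi 1) := isOpen_Iio.union isOpen_Ioi
    have he : ∀ t, t < 0 ∨ 1 < t → deriv f t = 0 := by
      intro t ht
      rcases ht with ht | ht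
      · have e : f =ᶠ[𝓝 t] fun _ => 0 :=
          (eventually_lt_nhds ht).mono fun s hs => Real.smoothTransition.zero_of_nonpos hs.le
        rw [e.deriv_eq]; simp
      · have e : f =ᶠ[𝓝 t] fun _ => 1 :=
          (eventually_gt_nhds ht).mono fun s hs => Real.smoothTransition.one_of_one_le hs.le
        rw [e.deriv_eq]; simp
    refine ⟨he u hu, ?_⟩
    have e : deriv f =ᶠ[𝓝 u] fun _ => 0 :=
      Filter.eventually_of_mem (hS.mem_nhds hu) fun s hs => he s hs
    rw [e.deriv_eq]; simp
  obtain ⟨M1, hM1⟩ := (isCompact_Icc (a := (0 : ℝ)) (b := 1)).exists_bound_of_continuousOn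
    h1.continuous.continuousOn
  obtain ⟨M2, hM2⟩ := (isCompact_Icc (a := (0 : ℝ)) (b := 1)).exists_bound_of_continuousOn
    h2.continuous.continuousOn
  set Cs := max (max M1 M2) 0
  refine ⟨Cs, le_max_right _ _, fun δ hδ => ⟨fun t => deriv f ((t - δ) / δ) / δ,
    fun t => deriv (deriv f) ((t - δ) / δ) / δ ^ 2, ?_, fun t => ?_, fun t => ?_, fun t ht => ?_,
    fun t => ?_⟩⟩
  · exact (hf.of_le (by norm_cast)).comp ((contDiff_id.sub contDiff_const).div_const δ)
  · exact ((hf.differentiable (by simp) _).hasDerivAt.comp t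
      (((hasDerivAt_id t).sub_const δ).div_const δ)).congr_deriv (by simp; ring)
  · exact (((h1.differentiable (by simp) _).hasDerivAt.comp t
      (((hasDerivAt_id t).sub_const δ).div_const δ)).div_const δ).congr_deriv (by simp; ring)
  · have hu : (t - δ) / δ < 0 ∨ 1 < (t - δ) / δ := by
      rcases ht with ht | ht
      · exact Or.inl (div_neg_of_neg_of_pos (by linarith) hδ)
      · exact Or.inr (by rw [lt_div_iff₀ hδ]; linarith)
    simp [h0 _ hu]
  · set u := (t - δ) / δ with hu
    have hb : |deriv f u| ≤ Cs ∧ |deriv (deriv f) u| ≤ Cs := by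
      by_cases h : u ∈ Icc (0 : ℝ) 1
      · exact ⟨(hM1 u h).trans ((le_max_left _ _).trans (le_max_left _ _)),
          (hM2 u h).trans ((le_max_right _ _).trans (le_max_left _ _))⟩
      · have h' : u < 0 ∨ 1 < u := by
          by_contra hn
          push Not at hn
          exact h hn
        simp [h0 u h', Cs]
    simp only [← hu]
    exact ⟨by rw [abs_div, abs_of_pos hδ]; exact div_le_div_of_nonneg_right hb.1 hδ.le,
      by rw [abs_div, abs_of_pos (pow_pos hδ 2)]; exact div_le_div_of_nonneg_right hb.2 (sq_nonneg δ)⟩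

/-- The sign of the reflection on the coordinate `a`. -/
def mirSign (a : Fin 3) : ℝ := if a = 2 then -1 else 1

lemma deriv3_comp_mirror (f : Space → ℝ) (a : Fin 3) (y : Space) :
    deriv3 a (fun w => f (mirror w)) y = mirSign a * deriv3 a f (mirror y) := by
  set T := axIso true 0
  have hT : ∀ w, T w = mirror w := fun w => rot_zero_angle _
  have e : (fun w => f (mirror w)) = f ∘ ⇑T.toContinuousLinearEquiv :=
    funext fun w => congrArg f (hT w).symm
  have e2 : T (unit3 a) = mirSign a • unit3 a := by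
    rw [hT]
    ext i
    fin_cases a <;> fin_cases i <;> simp [mirror, height, unit3, mirSign] <;> norm_num
  rw [deriv3, e, ContinuousLinearEquiv.comp_right_fderiv]
  show fderiv ℝ f (T y) (T (unit3 a)) = _
  rw [e2, hT, map_smul]
  rfl

lemma lap_mirror (P : Space → ℝ) (y : Space) :
    lap (fun w => P (mirror w)) y = lap P (mirror y) := by
  refine Finset.sum_congr rfl fun a _ => ?_
  have e : deriv3 a (fun w => P (mirror w)) = fun w => mirSign a * deriv3 a P (mirror w) :=
    funext fun w => deriv3_comp_mirror P a w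
  rw [e]
  have e2 : deriv3 a (fun w => mirSign a * deriv3 a P (mirror w)) y =
      mirSign a * deriv3 a (fun w => deriv3 a P (mirror w)) y := by
    rw [deriv3, deriv3, show (fun w => mirSign a * deriv3 a P (mirror w)) =
      mirSign a • fun w => deriv3 a P (mirror w) from rfl, fderiv_const_smul_field]
    rfl
  rw [e2, deriv3_comp_mirror, ← mul_assoc]
  have : mirSign a * mirSign a = 1 := by unfold mirSign; split_ifs <;> norm_num
  rw [this, one_mul]

/-- For odd `P` the formula lives on the upper half space. -/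
theorem green_odd {a R : ℝ} (ha : 0 ≤ a) (hR : 0 < R) {x₀ : Space} (hx : R + 1 < ‖x₀‖)
    (hz : 0 ≤ height x₀) {P : Space → ℝ} (hP : ContDiffOn ℝ 2 P {y | y ≠ 0})
    (hodd : ∀ y, P (mirror y) = -P y)
    (hpos : ∀ y, 0 ≤ height y → wd a R x₀ y ≠ 0 → 0 ≤ P y) :
    IntegrableOn (fun y => kd a R x₀ y * (lap P y - a ^ 2 * P y)) upperH ∧
      -P x₀ ≤ ∫ y in upperH, kd a R x₀ y * (lap P y - a ^ 2 * P y) := by
  obtain ⟨iw, ik, e⟩ := green_pair ha hR hx hP
  refine ⟨ik.integrableOn, ?_⟩
  have hmd : ∀ y, height (mirror y) = -height y := height_mirror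
  have hev : ∀ y, lap P (mirror y) = -lap P y := by
    intro y
    have hl : lap (fun w => P (mirror w)) y = lap P (mirror y) := lap_mirror P y
    rw [← hl]
    have e' : (fun w => P (mirror w)) = fun w => -1 * P w := funext fun w => by rw [hodd]; ring
    rw [e']
    simp only [lap, deriv3_eq, ← Finset.sum_neg_distrib]
    refine Finset.sum_congr rfl fun a _ => ?_
    have e1 : (fun w : Space => fderiv ℝ (fun v => -1 * P v) w (unit3 a)) =
        fun w => -(fderiv ℝ P w (unit3 a)) := funext fun w => by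
      have : (fun v => -1 * P v) = fun v => -(P v) := by funext v; ring
      rw [this, fderiv_fun_neg]; rfl
    rw [e1, fderiv_fun_neg]; rfl
  rw [integral_even iw fun y => by rw [wd_mirror, hodd]; ring,
    integral_even ik fun y => by rw [kd_mirror, hodd, hev]; ring, hodd, upperH.eq_def] at *
  have : 0 ≤ ∫ y in {y : Space | 0 < height y}, wd a R x₀ y * P y := by
    refine integral_nonneg_of_ae ?_
    filter_upwards [ae_restrict_mem measurableSet_upperH, ae_restrict_of_ae (Measure.ae_ne volume x₀)]
      with y hy hne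
    by_cases h0 : wd a R x₀ y = 0
    · simp [h0]
    exact mul_nonneg (wd_nonneg ha hR (mul_nonneg (le_of_lt hy) hz) hne) (hpos y (le_of_lt hy) h0)
  linarith

end Vale.Agent.P363.Ext.Small
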