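import Vale.Agent.P363.Ext.Small.Sphere
import Vale.Agent.P363.Ext.Small.Barrier
import Vale.Agent.P363.Ext.Polar.Meas

/-!
P363, Kohn-Sham side, smallness near the plane: one of two candidates with a common positive mass is
bounded below on a narrower cone.
-/

noncomputable section

namespace Vale.Agent.P363.Ext.Small

open MeasureTheory Filter Metric Set
open scoped BigOperators Topology ContDiff

variable {S : Setup} {R D B L : ℝ} {h p : Space → ℝ}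

/-- A rotation takes every point into the meridian half plane. -/
lemma exists_meridian (y : Space) : ∃ (φ : ℝ) (x₀ : Space), rot φ x₀ = y ∧ ‖x₀‖ = ‖y‖ ∧
    height x₀ = height y ∧ x₀ 1 = 0 ∧ 0 ≤ x₀ 0 := by
  obtain ⟨φ, hφ⟩ := exists_rot_pt y
  set x₀ := pt ‖y‖ (height y / ‖y‖)
  have hn : ‖rot φ x₀‖ = ‖x₀‖ := (axIso false φ).norm_map x₀
  have hh : height (rot φ x₀) = height x₀ := by simp [height]
  rw [hφ] at hn hh
  refine ⟨φ, x₀, hφ, hn.symm, hh.symm, by simp [x₀, pt], ?_⟩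
  simp only [x₀, pt]
  simp only [Matrix.cons_val_zero]
  positivity

/-- The mass of the four mollified functions over the box. -/
lemma box_mass (S : Setup) : ∃ CG : ℝ, 1 ≤ CG ∧
    ∀ (R D B L m ρ r Rb : ℝ) (h₁ p₁ h₂ p₂ : Space → ℝ),
    Cand S R D B L h₁ p₁ → Cand S R D B L h₂ p₂ → 0 ≤ m → 0 < ρ → ρ ≤ 1 / 4 → 4 ≤ r →
    2 * (R + 1) ≤ r → 4 + 4 / ρ ≤ r → 64 / D ^ 2 ≤ r → 1 ≤ Rb → 9 * Rb ≤ r →
    (∀ x ∈ cone R D, m * L * zG S x ≤ h₁ x + p₁ x + (h₂ x + p₂ x)) →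
      m * L / CG * (Rb ^ 2 * Real.sqrt Rb) ≤
        boxJ S r Rb (mollC ρ R D h₁) + boxJ S r Rb (mollC ρ R D p₁) +
        (boxJ S r Rb (mollC ρ R D h₂) + boxJ S r Rb (mollC ρ R D p₂)) := by
  obtain ⟨CG, hCG, hnear⟩ := zG_near S
  refine ⟨CG, hCG, fun R D B L m ρ r Rb h₁ p₁ h₂ p₂ hc₁ hc₂ hm hρ hρ4 hr4 hrR hrρ hrD hRb hRbr hsum => ?_⟩
  have hL := hc₁.L_pos
  set s := Real.sqrt Rb
  have hs1 : 1 ≤ s := Real.one_le_sqrt.2 hRb
  have hs2 : s ^ 2 = Rb := Real.sq_sqrt (by linarith)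
  have h3s : 3 * s ≤ Real.sqrt r := by
    refine Real.le_sqrt_of_sq_le ?_
    rw [mul_pow, hs2]; linarith
  have hgeom : ∀ y ∈ box r Rb, r / 2 ≤ ‖y‖ ∧ 2 * s ≤ height y ∧ height y ≤ Real.sqrt r := by
    intro y hy
    obtain ⟨⟨hy0, -⟩, -, hy2, hy2'⟩ := mem_box.1 hy
    exact ⟨by linarith [(le_abs_self _).trans (PiLp.norm_apply_le y 0)], hy2, hy2'.trans h3s⟩
  have hne : box r Rb ⊆ {y : Space | y ≠ 0} := fun y hy h0 => by
    have := (hgeom y hy).1
    rw [h0, norm_zero] at this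
    linarith
  set e := fun g : Space → ℝ => ext0 R D g
  have il₁ := hc₁.locInt
  have il₁' := hc₁.locInt_p
  have il₂ := hc₂.locInt
  have il₂' := hc₂.locInt_p
  have iGc : ∀ g, LocallyIntegrable (ext0 R D g) →
      IntegrableOn (fun y => mollC ρ R D g y / S.G y) (box r Rb) := fun g hg =>
    (((continuous_avg hρ hg).continuousOn).div ((contDiffOn_G S (m := 2)).continuousOn.mono hne)
      fun y hy => (tailG_pos _ _ (norm_pos_iff.2 (hne hy))).ne').integrableOn_compact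
      (isCompact_box r Rb)
  have hpt : ∀ y ∈ box r Rb, m * L / CG * (2 * s) ≤
      mollC ρ R D h₁ y / S.G y + mollC ρ R D p₁ y / S.G y +
        (mollC ρ R D h₂ y / S.G y + mollC ρ R D p₂ y / S.G y) := by
    intro y hy
    obtain ⟨hyn, hyz, hyz'⟩ := hgeom y hy
    have hGy : 0 < S.G y := tailG_pos _ _ (by linarith : 0 < ‖y‖)
    have hsub : closedBall y ρ ⊆ cone R D :=
      cone_ball (δ1 := 2 * ρ) hc₁.D_pos hρ hρ4 le_rfl hrR hrρ hrD hyn (by linarith) (by linarith)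
    have hkey : m * L / CG * (height y * S.G y) ≤
        mollC ρ R D h₁ y + mollC ρ R D p₁ y + (mollC ρ R D h₂ y + mollC ρ R D p₂ y) := by
      have hle := le_avg hρ (g := fun x => ext0 R D h₁ x + ext0 R D p₁ x +
          (ext0 R D h₂ x + ext0 R D p₂ x)) ((il₁.add il₁').add (il₂.add il₂')) (y := y)
          (M := m * L / CG * (height y * S.G y)) fun x hx => by
        have hxb : x ∈ closedBall y ρ := by rwa [mem_closedBall, dist_comm, dist_eq_norm]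
        have hxc := hsub hxb
        simp only [ext0, indicator_of_mem hxc]
        refine le_trans ?_ (hsum x hxc)
        have hd : dist x y ≤ ρ := mem_closedBall.1 hxb
        have hxn := norm_sub_dist_le y x
        rw [dist_comm] at hxn
        have hxz := abs_le.1 ((abs_height_sub_le x y).trans hd)
        obtain ⟨-, hzx⟩ := hnear y x (by linarith [hxn.1]) (by linarith)
          (by linarith)
        calc m * L / CG * (height y * S.G y) ≤ m * L / CG * (CG * (height x * S.G x)) := by gcongr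
          _ = m * L * zG S x := by simp only [zG]; field_simp
      refine hle.trans (le_of_eq ?_)
      have i1 := integrable_avg hρ il₁ y
      have i2 := integrable_avg hρ il₁' y
      have i3 := integrable_avg hρ il₂ y
      have i4 := integrable_avg hρ il₂' y
      have e12 : Integrable fun x => ext0 R D h₁ x * molR ρ (y - x) + ext0 R D p₁ x * molR ρ (y - x) :=
        i1.add i2
      have e34 : Integrable fun x => ext0 R D h₂ x * molR ρ (y - x) + ext0 R D p₂ x * molR ρ (y - x) :=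
        i3.add i4
      simp only [mollC, avg, conv3]
      rw [← integral_add i1 i2, ← integral_add i3 i4, ← integral_add e12 e34]
      exact integral_congr_ae (Eventually.of_forall fun x => by ring)
    rw [← add_div, ← add_div, ← add_div, le_div_iff₀ hGy]
    refine le_trans (le_of_eq_of_le (by ring : m * L / CG * (2 * s) * S.G y =
      m * L / CG * (2 * s * S.G y)) ?_) hkey
    exact mul_le_mul_of_nonneg_left (mul_le_mul_of_nonneg_right hyz hGy.le) (by positivity)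
  have i12 : IntegrableOn (fun y => mollC ρ R D h₁ y / S.G y + mollC ρ R D p₁ y / S.G y)
      (box r Rb) := (iGc h₁ il₁).add (iGc p₁ il₁')
  have i34 : IntegrableOn (fun y => mollC ρ R D h₂ y / S.G y + mollC ρ R D p₂ y / S.G y)
      (box r Rb) := (iGc h₂ il₂).add (iGc p₂ il₂')
  simp only [boxJ]
  rw [← integral_add (iGc h₁ il₁) (iGc p₁ il₁'), ← integral_add (iGc h₂ il₂) (iGc p₂ il₂'),
    ← integral_add i12 i34]
  refine le_trans (le_of_eq ?_) (setIntegral_mono_on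
    (integrableOn_const (isCompact_box r Rb).measure_lt_top.ne) (i12.add i34)
    (isCompact_box r Rb).isClosed.measurableSet hpt)
  rw [setIntegral_const, smul_eq_mul, volume_box (by linarith)]
  ring

/-- The bound of a candidate outside a sphere from the bound on one meridian arc. -/
lemma cand_outside {η κ C K c γ₀ σ δ δ₀ ρ rs R₀ : ℝ} (hc : Cand S R D B L h p) (hη : 0 < η)
    (hκ : 0 < κ) (hC : 0 ≤ C) (hc0 : 0 < c) (hγ₀ : 0 < γ₀) (hσ : 0 < σ) (hσ36 : σ ≤ 1 / 36)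
    (hσC : C * (1 + B) * (σ * 2) ≤ κ * c * γ₀ / 2) (hδ : 0 < δ) (hδ1 : δ ≤ 1) (hδ₀def : δ₀ = δ / 4)
    (hρdef : ρ = σ * δ₀ / 8) (hs5 : 2 * (R + 1) ≤ rs) (hs8 : 1 + 4 / δ₀ ≤ rs) (hs4 : R₀ ≤ rs)
    (hrs4 : 4 ≤ rs) (hDq4 : Real.sqrt (η / rs) ≤ D / 4)
    (hge : ∀ (ρ : ℝ) (x : Space), 0 < ρ → ρ ≤ 1 / 8 → 8 * ρ ≤ height x → R₀ ≤ ‖x‖ →
      closedBall x (3 * ρ) ⊆ cone R D → κ * mollC ρ R D h x
        - C * (1 + B) * L * (ρ ^ 2 + ρ ^ 2 / height x ^ 2) * (height x * S.G x) ≤ h x)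
    (hsup : ∀ y : Space, 4 * ρ ≤ height y → 2 ≤ ‖y‖ → closedBall y ρ ⊆ cone R D →
      lap (mollC ρ R D h) y ≤ q0 S ‖y‖ * mollC ρ R D h y
        + K * (1 + B) * L * (height y * S.G y) / ‖y‖ ^ 2 - mollC ρ R D p y)
    (hbar : ∀ (M : ℝ) (U : Space → ℝ), 0 ≤ M → ContDiff ℝ 2 U →
      (∀ y, rs ≤ ‖y‖ → δ₀ ≤ height y → height y ≤ Real.sqrt (η / rs) * ‖y‖ → 0 ≤ U y) →
      (∀ y, ‖y‖ = rs → δ₀ ≤ height y → height y ≤ Real.sqrt (η / rs) * ‖y‖ →
        M * zG S y ≤ U y) →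
      (∀ y, rs ≤ ‖y‖ → δ₀ ≤ height y → height y ≤ Real.sqrt (η / rs) * ‖y‖ →
        lap U y - 2 * farPot S.a S.k ‖y‖ * U y ≤ K * (1 + B) / γ₀ * M * zG S y / ‖y‖ ^ 2) →
      ∀ y, rs ≤ ‖y‖ → 4 * δ₀ ≤ height y → 2 * height y ≤ Real.sqrt (η / rs) * ‖y‖ →
        c * M * zG S y ≤ U y)
    (hmer : ∀ x₀ : Space, ‖x₀‖ = rs → x₀ 1 = 0 → 0 ≤ x₀ 0 → δ₀ ≤ height x₀ →
      height x₀ ≤ Real.sqrt (η * rs) → γ₀ * L * zG S x₀ ≤ mollC ρ R D h x₀) :
    ∀ x ∈ cone (max rs R) (Real.sqrt (η / rs) / 2), δ ≤ height x →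
      κ * c * γ₀ / 2 * L * zG S x ≤ h x := by
  have hL := hc.L_pos
  have hB := hc.B_nonneg
  have hD := hc.D_pos
  have hrs : 0 < rs := by linarith
  have hδ₀ : 0 < δ₀ := by rw [hδ₀def]; positivity
  have hρ : 0 < ρ := by rw [hρdef]; positivity
  have h4δ : 0 < 4 / δ₀ := by positivity
  have hσδ : σ * δ ≤ δ / 36 := by
    calc σ * δ ≤ 1 / 36 * δ := mul_le_mul_of_nonneg_right hσ36 hδ.le
      _ = δ / 36 := by ring
  have hρσ : 8 * ρ ≤ σ * δ := by
    rw [hρdef, hδ₀def]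
    linarith [mul_pos hσ hδ]
  have hρ8 : ρ ≤ 1 / 8 := by linarith
  have hρδ : 8 * ρ ≤ δ₀ := by linarith
  set Dq := Real.sqrt (η / rs) with hDq
  have hDq0 : 0 ≤ Dq := Real.sqrt_nonneg _
  intro x hx hxδ
  obtain ⟨hxr, hx1, hxhi⟩ := hx
  simp only [max_le_iff] at hxr
  obtain ⟨hxr, -⟩ := hxr
  have hball : ∀ y, rs ≤ ‖y‖ → δ₀ ≤ height y → height y ≤ Dq * ‖y‖ →
      ∀ t, t ≤ 3 * ρ → closedBall y t ⊆ cone R D := by
    intro y hy hz hzD t ht
    refine (closedBall_subset_closedBall ht).trans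
      (closedBall_subset_cone hc.D_pos.le (by linarith) ?_ (by linarith) ?_)
    · have h2 : 1 ≤ (rs - 1) * (δ₀ / 2) := by
        have : 4 / δ₀ * δ₀ ≤ (rs - 1) * δ₀ :=
          mul_le_mul_of_nonneg_right (by linarith) hδ₀.le
        rw [div_mul_cancel₀ _ hδ₀.ne'] at this
        linarith
      exact h2.trans (mul_le_mul (by linarith) (by linarith) (by positivity) (by linarith))
    · have h2 : D * (‖y‖ / 2) ≤ D * (‖y‖ - 3 * ρ) :=
        mul_le_mul_of_nonneg_left (by linarith) hD.le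
      have h3 : Dq * ‖y‖ ≤ D / 4 * ‖y‖ := mul_le_mul_of_nonneg_right hDq4 (norm_nonneg y)
      linarith
  set U := mollC ρ R D h with hUdef
  have hU0 : ∀ y, 0 ≤ U y := avg_nonneg hρ hc.ext0_nonneg
  have hside : ∀ y, ‖y‖ = rs → δ₀ ≤ height y → height y ≤ Dq * ‖y‖ →
      γ₀ * L * zG S y ≤ U y := by
    intro y hy hz hzD
    obtain ⟨φ, x₀, hφ, hn, hh, h1, h0⟩ := exists_meridian y
    have hzr : height x₀ ≤ Real.sqrt (η * rs) := by
      rw [hh]
      refine hzD.trans (le_of_eq ?_)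
      have e : η * rs = η / rs * rs ^ 2 := by field_simp
      rw [hy, e, Real.sqrt_mul (by positivity), Real.sqrt_sq hrs.le]
    have eU : U y = U x₀ := by rw [← hφ]; exact hc.mollC_rot φ x₀
    have ezG : zG S y = zG S x₀ := by simp only [zG, Setup.G, hh, hn]
    have hzG : 0 ≤ zG S x₀ := mul_nonneg (by rw [hh]; linarith)
      (tailG_pos _ _ (by rw [hn, hy]; exact hrs)).le
    rw [eU, ezG]
    exact hmer x₀ (hn.trans hy) h1 h0 (hh ▸ hz) hzr
  have hlap : ∀ y, rs ≤ ‖y‖ → δ₀ ≤ height y → height y ≤ Dq * ‖y‖ →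
      lap U y - 2 * farPot S.a S.k ‖y‖ * U y ≤
        K * (1 + B) / γ₀ * (γ₀ * L) * zG S y / ‖y‖ ^ 2 := by
    intro y hy hz hzD
    have h2 := hsup y (by linarith) (by linarith)
      (hball y hy hz hzD ρ (by linarith))
    have hP : 0 ≤ mollC ρ R D p y := avg_nonneg hρ hc.ext0_p_nonneg y
    have e : K * (1 + B) / γ₀ * (γ₀ * L) * zG S y / ‖y‖ ^ 2 =
        K * (1 + B) * L * (height y * S.G y) / ‖y‖ ^ 2 := by
      simp only [zG]; field_simp
    rw [e]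
    simp only [q0] at h2
    linarith
  have hb' := hbar (γ₀ * L) U (by positivity)
    (contDiff_avg hρ hc.locInt) (fun y _ _ _ => hU0 y) hside hlap x hxr (by linarith)
    (by linarith)
  have hxD : height x ≤ Dq * ‖x‖ := by linarith [mul_nonneg hDq0 (norm_nonneg x)]
  have hh := hge ρ x hρ hρ8 (by linarith) (by linarith)
    (hball x hxr (by linarith) hxD (3 * ρ) le_rfl)
  have hzG : 0 ≤ zG S x := mul_nonneg (by linarith)
    (tailG_pos _ _ (by linarith : 0 < ‖x‖)).le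
  have hσ1 : σ ≤ 1 := by linarith
  have he : ρ ^ 2 + ρ ^ 2 / height x ^ 2 ≤ σ * 2 := by
    have h1 : ρ ≤ σ := by
      have := mul_le_mul_of_nonneg_left hδ1 hσ.le
      linarith
    have h1' : ρ ^ 2 ≤ σ := by
      calc ρ ^ 2 ≤ σ ^ 2 := pow_le_pow_left₀ hρ.le h1 2
        _ = σ * σ := sq σ
        _ ≤ σ * 1 := mul_le_mul_of_nonneg_left hσ1 hσ.le
        _ = σ := mul_one σ
    have h2 : ρ / height x ≤ σ := by
      rw [div_le_iff₀ (by linarith)]
      have := mul_le_mul_of_nonneg_left hxδ hσ.le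
      linarith
    have h2' : ρ ^ 2 / height x ^ 2 ≤ σ := by
      rw [← div_pow]
      calc (ρ / height x) ^ 2 ≤ σ ^ 2 :=
            pow_le_pow_left₀ (div_nonneg hρ.le (by linarith)) h2 2
        _ = σ * σ := sq σ
        _ ≤ σ * 1 := mul_le_mul_of_nonneg_left hσ1 hσ.le
        _ = σ := mul_one σ
    linarith
  have h8 : C * (1 + B) * L * (ρ ^ 2 + ρ ^ 2 / height x ^ 2) * (height x * S.G x) ≤
      κ * c * γ₀ / 2 * L * zG S x := by
    calc C * (1 + B) * L * (ρ ^ 2 + ρ ^ 2 / height x ^ 2) * (height x * S.G x)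
        = C * (1 + B) * (ρ ^ 2 + ρ ^ 2 / height x ^ 2) * (L * zG S x) := by
          simp only [zG]; ring
      _ ≤ C * (1 + B) * (σ * 2) * (L * zG S x) := by gcongr
      _ ≤ κ * c * γ₀ / 2 * (L * zG S x) :=
          mul_le_mul_of_nonneg_right hσC (by positivity)
      _ = _ := by ring
  have h9 := mul_le_mul_of_nonneg_left hb' hκ.le
  linarith

/-- One of two candidates with the mass `m L z G` is at least `γ L z G` on a narrower cone. -/
theorem cand_gain (S : Setup) (B m : ℝ) (hB : 0 ≤ B) (hm : 0 < m) : ∃ γ : ℝ, 0 < γ ∧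
    ∀ δ R D : ℝ, 0 < δ → δ ≤ 1 → 0 < D → ∃ R' D' : ℝ, 0 < D' ∧ D' ≤ D ∧ R ≤ R' ∧
      ∀ (L : ℝ) (h₁ p₁ h₂ p₂ : Space → ℝ), Cand S R D B L h₁ p₁ → Cand S R D B L h₂ p₂ →
        (∀ x ∈ cone R D, m * L * zG S x ≤ h₁ x + p₁ x + (h₂ x + p₂ x)) →
        (∀ x ∈ cone R' D', δ ≤ height x → γ * L * zG S x ≤ h₁ x) ∨
          (∀ x ∈ cone R' D', δ ≤ height x → γ * L * zG S x ≤ h₂ x) := by
  obtain ⟨kc, E, η₀, hkc, hE, hη₀, hsph⟩ := sphere_lower S
  obtain ⟨CG, hCG, hmass⟩ := box_mass S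
  obtain ⟨κ, C, R₀, hκ, hC, hge⟩ := cand_ge_mollC S
  set g := kc * (m / CG / 2) with hgdef
  have hg : 0 < g := by positivity
  set η := min (min η₀ (1 / 36)) (g / (4 * E + 1)) with hηdef
  have hη : 0 < η := lt_min (lt_min hη₀ (by norm_num)) (by positivity)
  obtain ⟨c, hc0, hbar⟩ := barrier_lower S η hη
  set γ₀ := g / 2 with hγ₀def
  have hγ₀ : 0 < γ₀ := by positivity
  set σ := min η (κ * c * γ₀ / (4 * C * (1 + B) + 1)) with hσdef
  have hσ : 0 < σ := lt_min hη (by positivity)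
  have hηle : η ≤ η₀ := (min_le_left _ _).trans (min_le_left _ _)
  have hη36 : η ≤ 1 / 36 := (min_le_left _ _).trans (min_le_right _ _)
  have hσle : σ ≤ η := min_le_left _ _
  have hσC : C * (1 + B) * (σ * 2) ≤ κ * c * γ₀ / 2 := by
    have h1 : σ ≤ κ * c * γ₀ / (4 * C * (1 + B) + 1) := min_le_right _ _
    rw [le_div_iff₀ (by positivity)] at h1
    linarith
  have hηE : E * (η + σ) ≤ g / 2 := by
    have h1 : η ≤ g / (4 * E + 1) := min_le_right _ _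
    rw [le_div_iff₀ (by positivity)] at h1
    have h2 := mul_le_mul_of_nonneg_left hσle hE
    linarith
  refine ⟨κ * c * γ₀ / 2, by positivity, fun δ R D hδ hδ1 hD => ?_⟩
  set δ₀ := δ / 4 with hδ₀def
  have hδ₀ : 0 < δ₀ := by positivity
  have hδ₀1 : δ₀ ≤ 1 := by linarith
  set ρ := σ * δ₀ / 8 with hρdef
  have hρ : 0 < ρ := by positivity
  have hρσ : 8 * ρ ≤ σ * δ := by
    rw [hρdef, hδ₀def]
    linarith [mul_pos hσ hδ]
  have hσ36 : σ ≤ 1 / 36 := hσle.trans hη36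
  have hσδ : σ * δ ≤ δ / 36 := by
    calc σ * δ ≤ 1 / 36 * δ := mul_le_mul_of_nonneg_right hσ36 hδ.le
      _ = δ / 36 := by ring
  have hρ8 : ρ ≤ 1 / 8 := by linarith
  have hρδ : 8 * ρ ≤ δ₀ := by linarith
  obtain ⟨r₁, hr₁⟩ := hsph η σ hη hηle hσ (hσle.trans hηle) δ₀ hδ₀ hδ₀1 R D B hD
  obtain ⟨K, hK, hsup⟩ := mollC_super S ρ hρ (by linarith)
  obtain ⟨r₂, hr₂⟩ := hbar (K * (1 + B) / γ₀)
  set rs := max (max (max r₁ r₂) (max (1 / η) R₀))
    (max (max (2 * (R + 1)) (4 + 4 / ρ)) (max (64 / D ^ 2) (1 + 4 / δ₀))) with hrsdef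
  obtain ⟨⟨⟨hs1, hs2⟩, hs3, hs4⟩, ⟨hs5, hs6⟩, hs7, hs8⟩ :
      ((r₁ ≤ rs ∧ r₂ ≤ rs) ∧ 1 / η ≤ rs ∧ R₀ ≤ rs) ∧
      (2 * (R + 1) ≤ rs ∧ 4 + 4 / ρ ≤ rs) ∧ 64 / D ^ 2 ≤ rs ∧ 1 + 4 / δ₀ ≤ rs := by
    have h : rs ≤ rs := le_rfl
    nth_rewrite 1 [hrsdef] at h
    simpa only [max_le_iff] using h
  have h4ρ : 0 < 4 / ρ := by positivity
  have h4δ : 0 < 4 / δ₀ := by positivity
  have hrs4 : 4 ≤ rs := by linarith
  have hrs : 0 < rs := by linarith
  set Dq := Real.sqrt (η / rs) with hDq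
  have hDq0 : 0 < Dq := Real.sqrt_pos.2 (by positivity)
  have hDq4 : Dq ≤ D / 4 := by
    refine Real.sqrt_le_iff.2 ⟨by linarith, ?_⟩
    rw [div_le_iff₀ hrs]
    rw [div_le_iff₀ (by positivity)] at hs7
    linarith
  refine ⟨max rs R, Dq / 2, by positivity, by linarith, le_max_right _ _,
    fun L h₁ p₁ h₂ p₂ hc₁ hc₂ hsum => ?_⟩
  have hL := hc₁.L_pos
  set Rb := η * rs with hRbdef
  have hRb1 : 1 ≤ Rb := by
    rw [div_le_iff₀ hη] at hs3
    rw [hRbdef]; linarith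
  have hRb9 : 9 * Rb ≤ rs := by
    have := mul_le_mul_of_nonneg_right hη36 hrs.le
    rw [hRbdef]; linarith
  set N := Rb ^ 2 * Real.sqrt Rb with hNdef
  have hN : 0 < N := by positivity
  have hmass' := hmass R D B L m ρ rs Rb h₁ p₁ h₂ p₂ hc₁ hc₂ hm.le hρ (by linarith) hrs4 hs5 hs6 hs7
    hRb1 hRb9 hsum
  have key : ∀ h p, Cand S R D B L h p →
      m * L / CG * N / 2 ≤ boxJ S rs Rb (mollC ρ R D h) + boxJ S rs Rb (mollC ρ R D p) →
      ∀ x ∈ cone (max rs R) (Dq / 2), δ ≤ height x → κ * c * γ₀ / 2 * L * zG S x ≤ h x := by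
    intro h p hc hJ
    refine cand_outside hc hη hκ hC hc0 hγ₀ hσ hσ36 hσC hδ hδ1 hδ₀def hρdef hs5 hs8 hs4 hrs4 hDq4
      (hge R D B L h p hc) (hsup R D B L h p hc)
      (fun M U => hr₂ rs δ₀ M U hs2 hδ₀ hδ₀1) fun x₀ hx h1 h0 hz hzr => ?_
    have hzG : 0 ≤ zG S x₀ := mul_nonneg (by linarith) (tailG_pos _ _ (by linarith : 0 < ‖x₀‖)).le
    have hlow := hr₁ L h p hc rs x₀ hs1 hx h1 h0 hz hzr
    rw [← hρdef, ← hRbdef, ← hNdef] at hlow
    refine le_trans ?_ hlow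
    have h5 : g * L ≤ kc * (boxJ S rs Rb (mollC ρ R D h) + boxJ S rs Rb (mollC ρ R D p)) / N := by
      rw [le_div_iff₀ hN]
      calc g * L * N = kc * (m * L / CG * N / 2) := by rw [hgdef]; ring
        _ ≤ _ := mul_le_mul_of_nonneg_left hJ hkc.le
    have h6 := mul_le_mul_of_nonneg_right h5 hzG
    have h7 : E * L * (η + σ) * zG S x₀ ≤ g / 2 * L * zG S x₀ := by
      have := mul_le_mul_of_nonneg_right hηE (by positivity : 0 ≤ L * zG S x₀)
      linarith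
    rw [hγ₀def]
    linarith
  rcases le_or_gt (m * L / CG * N / 2)
      (boxJ S rs Rb (mollC ρ R D h₁) + boxJ S rs Rb (mollC ρ R D p₁)) with hJ | hJ
  · exact Or.inl (key h₁ p₁ hc₁ hJ)
  · exact Or.inr (key h₂ p₂ hc₂ (by linarith))

end Vale.Agent.P363.Ext.Small
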