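import Vale.Agent.P363.Ext.Small.Super

/-!
P363, Kohn-Sham side, smallness near the plane: differences of the cut Yukawa kernels at mirrored
centres, the mean value formula for them, and their size on a box upstream.
-/

noncomputable section

namespace Vale.Agent.P363.Ext.Small

open MeasureTheory Filter Metric Set
open scoped BigOperators Topology ContDiff

/-- The kernel difference at the mirrored centres. -/
def kd (a R : ℝ) (x₀ y : Space) : ℝ :=
  kerK a (cutTheta R) (y - x₀) - kerK a (cutTheta R) (y - mirror x₀)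

/-- The weight difference at the mirrored centres. -/
def wd (a R : ℝ) (x₀ y : Space) : ℝ :=
  kerW a (cutTheta R) (y - x₀) - kerW a (cutTheta R) (y - mirror x₀)

/-- The radial factor of the weight. -/
def gW (a R t : ℝ) : ℝ :=
  20 / R ^ 2 * max (1 - t / R) 0 ^ 3 + 10 * a / R * max (1 - t / R) 0 ^ 4

lemma kerW_eq_gW (a R : ℝ) (u : Space) : kerW a (cutTheta R) u = yuk a u * gW a R ‖u‖ := by
  rw [kerW, deriv2_cutTheta, deriv_cutTheta]
  simp only [gW]
  ring

lemma kerK_eq_yuk (a R : ℝ) (u : Space) : kerK a (cutTheta R) u = yuk a u * cutTheta R ‖u‖ := by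
  rw [kerK, mul_comm]

variable {a R : ℝ}

lemma gW_antitone (ha : 0 ≤ a) (hR : 0 < R) : Antitone (gW a R) := fun s t h => by
  have h1 : max (1 - t / R) 0 ≤ max (1 - s / R) 0 :=
    max_le_max (by linarith [div_le_div_of_nonneg_right h hR.le]) le_rfl
  have h2 : (0 : ℝ) ≤ max (1 - t / R) 0 := le_max_right _ _
  exact add_le_add (mul_le_mul_of_nonneg_left (pow_le_pow_left₀ h2 h1 3) (by positivity))
    (mul_le_mul_of_nonneg_left (pow_le_pow_left₀ h2 h1 4) (by positivity))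

lemma gW_nonneg (ha : 0 ≤ a) (hR : 0 < R) (t : ℝ) : 0 ≤ gW a R t := by
  have : (0 : ℝ) ≤ max (1 - t / R) 0 := le_max_right _ _
  unfold gW
  positivity

lemma cutTheta_antitone (hR : 0 < R) : Antitone (cutTheta R) := fun s t h =>
  pow_le_pow_left₀ (le_max_right _ _)
    (max_le_max (by linarith [div_le_div_of_nonneg_right h hR.le]) le_rfl) 5

/-- A radially decreasing factor times the Yukawa kernel, at two distances. -/
lemma yuk_diff {g : ℝ → ℝ} (ha : 0 ≤ a) (hg : Antitone g) (hg0 : ∀ t, 0 ≤ g t) {u w : Space}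
    (hu : u ≠ 0) (huw : ‖u‖ ≤ ‖w‖) :
    (Real.exp (-(a * ‖u‖)) - Real.exp (-(a * ‖w‖))) / (4 * Real.pi * ‖w‖) * g ‖w‖ ≤
        yuk a u * g ‖u‖ - yuk a w * g ‖w‖ ∧ 0 ≤ yuk a u * g ‖u‖ - yuk a w * g ‖w‖ := by
  have h0 : 0 < ‖u‖ := norm_pos_iff.2 hu
  have he : Real.exp (-(a * ‖w‖)) ≤ Real.exp (-(a * ‖u‖)) :=
    Real.exp_le_exp.2 (neg_le_neg (mul_le_mul_of_nonneg_left huw ha))
  have h1 : (Real.exp (-(a * ‖u‖)) - Real.exp (-(a * ‖w‖))) / (4 * Real.pi * ‖w‖) * g ‖w‖ ≤
      yuk a u * g ‖u‖ - yuk a w * g ‖w‖ := by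
    have h2 : Real.exp (-(a * ‖u‖)) / (4 * Real.pi * ‖w‖) * g ‖w‖ ≤ yuk a u * g ‖u‖ := by
      refine mul_le_mul ?_ (hg huw) (hg0 _) (Yuk.yuk_nonneg a u)
      exact div_le_div_of_nonneg_left (Real.exp_pos _).le (by positivity) (by gcongr)
    rw [sub_div, sub_mul]
    simp only [yuk] at h2 ⊢
    linarith
  refine ⟨h1, le_trans (mul_nonneg (div_nonneg (by linarith) (by positivity)) (hg0 _)) h1⟩

lemma norm_mirror_eq (x : Space) : ‖mirror x‖ = ‖x‖ := by
  rw [← rot_zero_angle (mirror x)]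
  exact (axIso true 0).norm_map x

lemma norm_sub_mirror_sq (x₀ y : Space) :
    ‖y - mirror x₀‖ ^ 2 = ‖y - x₀‖ ^ 2 + 4 * height y * height x₀ := by
  simp [EuclideanSpace.norm_sq_eq, Fin.sum_univ_three, mirror, height, unit3]
  ring

lemma norm_sub_le_mirror {x₀ y : Space} (h : 0 ≤ height y * height x₀) :
    ‖y - x₀‖ ≤ ‖y - mirror x₀‖ := by
  refine le_of_pow_le_pow_left₀ two_ne_zero (norm_nonneg _) ?_
  rw [norm_sub_mirror_sq]
  linarith

lemma wd_nonneg (ha : 0 ≤ a) (hR : 0 < R) {x₀ y : Space} (h : 0 ≤ height y * height x₀)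
    (hy : y ≠ x₀) : 0 ≤ wd a R x₀ y := by
  simp only [wd, kerW_eq_gW]
  exact (yuk_diff ha (gW_antitone ha hR) (gW_nonneg ha hR) (sub_ne_zero.2 hy)
    (norm_sub_le_mirror h)).2

lemma kd_nonneg (ha : 0 ≤ a) (hR : 0 < R) {x₀ y : Space} (h : 0 ≤ height y * height x₀)
    (hy : y ≠ x₀) : 0 ≤ kd a R x₀ y := by
  simp only [kd, kerK_eq_yuk]
  exact (yuk_diff ha (cutTheta_antitone hR) (cutTheta_nonneg R) (sub_ne_zero.2 hy)
    (norm_sub_le_mirror h)).2

lemma mem_balls_of_ne_zero (hR : 0 < R) {x₀ y : Space}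
    (h : kd a R x₀ y ≠ 0 ∨ wd a R x₀ y ≠ 0) :
    y ∈ closedBall x₀ R ∪ closedBall (mirror x₀) R := by
  by_contra hn
  simp only [mem_union, mem_closedBall, dist_eq_norm, not_or, not_le] at hn
  have hz := cutTheta_eq_zero hR
  rcases h with h | h
  · exact h (by simp [kd, Point.kerK_zero hz hn.1, Point.kerK_zero hz hn.2])
  · exact h (by simp [wd, Point.kerW_zero hz hn.1, Point.kerW_zero hz hn.2])

lemma mirror_mirror (x : Space) : mirror (mirror x) = x := mirror_mirror' x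

lemma norm_mirror_sub (x y : Space) : ‖mirror y - x‖ = ‖y - mirror x‖ := by
  refine (sq_eq_sq₀ (norm_nonneg _) (norm_nonneg _)).1 ?_
  simp [EuclideanSpace.norm_sq_eq, Fin.sum_univ_three, mirror, height, unit3]
  ring

lemma kd_mirror (a R : ℝ) (x₀ y : Space) : kd a R x₀ (mirror y) = -kd a R x₀ y := by
  simp [kd, kerK_eq_yuk, yuk, norm_mirror_sub, mirror_mirror]

lemma wd_mirror (a R : ℝ) (x₀ y : Space) : wd a R x₀ (mirror y) = -wd a R x₀ y := by
  simp [wd, kerW_eq_gW, yuk, norm_mirror_sub, mirror_mirror]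

/-- The plane is null. -/
lemma ae_height_ne_zero : ∀ᵐ x : Space, height x ≠ 0 := by
  rw [ae_iff]
  have h : {x : Space | ¬height x ≠ 0} =
      ((EuclideanSpace.proj (2 : Fin 3) : Space →L[ℝ] ℝ).toLinearMap.ker : Set Space) := by
    ext x; simp [height]
  rw [h]
  refine Measure.addHaar_submodule _ _ fun htop => ?_
  have := LinearMap.congr_fun (LinearMap.ker_eq_top.1 htop) (unit3 2)
  simp [unit3] at this

/-- An integrand even in `z` is twice its integral over the upper half space. -/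
lemma integral_even {g : Space → ℝ} (hg : Integrable g) (he : ∀ y, g (mirror y) = g y) :
    ∫ y, g y = 2 * ∫ y in {y | 0 < height y}, g y := by
  have hh : Continuous height := Bar.contDiff_height.continuous (n := 0)
  set U : Set Space := {y | 0 < height y}
  have hU : MeasurableSet U := (isOpen_lt continuous_const hh).measurableSet
  have hne : ∀ᵐ y : Space, y ∈ Uᶜ ↔ y ∈ ({y | height y < 0} : Set Space) :=
    ae_height_ne_zero.mono fun y hy => by
      simp only [U, mem_compl_iff, mem_setOf_eq, not_lt]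
      exact ⟨fun h => lt_of_le_of_ne h hy, le_of_lt⟩
  rw [← integral_add_compl hU hg, Measure.restrict_congr_set (Filter.eventuallyEq_set.2 hne),
    two_mul]
  congr 1
  set T := axIso true 0
  have hT : ∀ y, T y = mirror y := fun y => rot_zero_angle _
  have e := T.measurePreserving.setIntegral_preimage_emb T.toHomeomorph.measurableEmbedding g
    ({y : Space | height y < 0})
  have hs : T ⁻¹' {y | height y < 0} = U := by
    ext y; simp [U, hT, height_mirror]
  rw [hs] at e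
  rw [← e]
  exact setIntegral_congr_fun hU fun y _ => by rw [hT, he]

/-- A kernel of the class against a continuous function. -/
lemma integrable_ker_mul {K : Space → ℝ} (hK : MemLp K 2) {c : Space} {R : ℝ}
    (hz : ∀ y, R < ‖y‖ → K y = 0) {φ : Space → ℝ} (hφ : ContinuousOn φ (closedBall c R)) :
    Integrable fun y => K (y - c) * φ y := by
  refine (integrableOn_iff_integrable_of_support_subset (s := closedBall c R) fun y hy => ?_).1 ?_
  · rw [mem_closedBall, dist_eq_norm]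
    exact le_of_not_gt fun h => hy (by simp [hz _ h])
  have : IsFiniteMeasure ((volume : Measure Space).restrict (closedBall c R)) :=
    ⟨by rw [Measure.restrict_apply_univ]; exact measure_closedBall_lt_top⟩
  obtain ⟨M, hM⟩ := (isCompact_closedBall c R).exists_bound_of_continuousOn hφ
  have hK' : MemLp (fun y => K (y - c)) 2 :=
    hK.comp_measurePreserving (measurePreserving_sub_right volume c)
  have hi : IntegrableOn (fun y => K (y - c)) (closedBall c R) :=
    (hK'.restrict _).integrable one_le_two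
  refine (hi.norm.mul_const M).mono' (hi.aestronglyMeasurable.mul
    (hφ.aestronglyMeasurable measurableSet_closedBall)) ?_
  filter_upwards [ae_restrict_mem measurableSet_closedBall] with y hy
  rw [norm_mul]
  exact mul_le_mul_of_nonneg_left (hM y hy) (norm_nonneg _)

/-- The mean value formula at mirrored centres. -/
theorem green_pair (ha : 0 ≤ a) (hR : 0 < R) {x₀ : Space} (hx : R + 1 < ‖x₀‖) {F : Space → ℝ}
    (hF : ContDiffOn ℝ 2 F {y | y ≠ 0}) :
    Integrable (fun y => wd a R x₀ y * F y) ∧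
      Integrable (fun y => kd a R x₀ y * (lap F y - a ^ 2 * F y)) ∧
      F x₀ - F (mirror x₀) = (∫ y, wd a R x₀ y * F y) -
        ∫ y, kd a R x₀ y * (lap F y - a ^ 2 * F y) := by
  have hθ := contDiff_cutTheta R
  have h0 := cutTheta_eq_zero hR
  have hW := Point.memLp_kerW ha hθ h0
  have hK := Point.memLp_kerK ha hθ.continuous h0
  have hL : ContinuousOn (fun y => lap F y - a ^ 2 * F y) {y : Space | y ≠ 0} :=
    (continuousOn_lap isOpen_ne_zero hF).sub (continuousOn_const.mul hF.continuousOn)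
  have main : ∀ c : Space, ‖c‖ = ‖x₀‖ →
      Integrable (fun y => kerW a (cutTheta R) (y - c) * F y) ∧
      Integrable (fun y => kerK a (cutTheta R) (y - c) * (lap F y - a ^ 2 * F y)) ∧
      F c = (∫ y, kerW a (cutTheta R) (y - c) * F y) -
        ∫ y, kerK a (cutTheta R) (y - c) * (lap F y - a ^ 2 * F y) := by
    intro c hc
    have hsub : closedBall c (R + 1) ⊆ {y : Space | y ≠ 0} := fun y hy h => by
      rw [mem_closedBall, h, dist_zero_left, hc] at hy
      linarith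
    have hsR : closedBall c R ⊆ {y : Space | y ≠ 0} :=
      (closedBall_subset_closedBall (by linarith)).trans hsub
    refine ⟨integrable_ker_mul hW (fun y hy => Point.kerW_zero h0 hy) (hF.continuousOn.mono hsR),
      integrable_ker_mul hK (fun y hy => Point.kerK_zero h0 hy) (hL.mono hsR), ?_⟩
    have hb : ball c (R + 1) ⊆ {y : Space | y ≠ 0} := ball_subset_closedBall.trans hsub
    exact point a R (R + 1) (cutTheta R) ha hR (by linarith) hθ (cutTheta_zero R) h0 c F (lap F)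
      (hF.continuousOn.mono hb) (WeakPoisson.of_contDiffOn isOpen_ball (hF.mono hb))
      (LocMemLp.of_continuousOn ((continuousOn_lap isOpen_ne_zero hF).mono hb))
  obtain ⟨i1, j1, e1⟩ := main x₀ rfl
  obtain ⟨i2, j2, e2⟩ := main (mirror x₀) (norm_mirror_eq x₀)
  have iw : (fun y => wd a R x₀ y * F y) = fun y => kerW a (cutTheta R) (y - x₀) * F y -
      kerW a (cutTheta R) (y - mirror x₀) * F y := funext fun y => by simp only [wd]; ring
  have ik : (fun y => kd a R x₀ y * (lap F y - a ^ 2 * F y)) = fun y =>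
      kerK a (cutTheta R) (y - x₀) * (lap F y - a ^ 2 * F y) -
      kerK a (cutTheta R) (y - mirror x₀) * (lap F y - a ^ 2 * F y) :=
    funext fun y => by simp only [kd]; ring
  refine ⟨by rw [iw]; exact i1.sub i2, by rw [ik]; exact j1.sub j2, ?_⟩
  rw [iw, ik, integral_sub i1 i2, integral_sub j1 j2]
  linarith

/-! ### the box -/

/-- The lower corner of the box. -/
def boxLo (r R : ℝ) : Fin 3 → ℝ := ![r - 5 * R / 8, -Real.sqrt R, 2 * Real.sqrt R]

/-- The upper corner of the box. -/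
def boxHi (r R : ℝ) : Fin 3 → ℝ := ![r - 3 * R / 8, Real.sqrt R, 3 * Real.sqrt R]

/-- The box at the distance `R / 2` upstream. -/
def box (r R : ℝ) : Set Space := (fun y : Space => WithLp.ofLp y) ⁻¹' Icc (boxLo r R) (boxHi r R)

lemma mem_box {r : ℝ} {y : Space} : y ∈ box r R ↔
    (r - 5 * R / 8 ≤ y 0 ∧ y 0 ≤ r - 3 * R / 8) ∧
    (-Real.sqrt R ≤ y 1 ∧ y 1 ≤ Real.sqrt R) ∧
    2 * Real.sqrt R ≤ height y ∧ height y ≤ 3 * Real.sqrt R := by
  simp [box, boxLo, boxHi, Pi.le_def, Fin.forall_fin_succ, height]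
  tauto

lemma isCompact_box (r R : ℝ) : IsCompact (box r R) :=
  (PiLp.homeomorph 2 fun _ : Fin 3 => ℝ).isCompact_preimage.2 isCompact_Icc

lemma volume_box {r : ℝ} (hR : 0 < R) : volume.real (box r R) = R ^ 2 / 2 := by
  rw [measureReal_def, box, (PiLp.volume_preserving_ofLp (ι := Fin 3)).measure_preimage
    measurableSet_Icc.nullMeasurableSet, Real.volume_Icc_pi_toReal ?_]
  · simp [boxLo, boxHi, Fin.prod_univ_three]
    have := Real.mul_self_sqrt hR.le
    ring_nf
    rw [Real.sq_sqrt hR.le]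
    ring
  · intro i
    have := Real.sqrt_nonneg R
    fin_cases i <;> simp [boxLo, boxHi] <;> linarith

/-- The integral over the box used to choose the sign. -/
def boxJ (S : Setup) (r R : ℝ) (g : Space → ℝ) : ℝ := ∫ y in box r R, g y / S.G y

/-- Distances between the centres and the box. -/
theorem box_geom {r R : ℝ} {x₀ y : Space} (hR : 300 ≤ R) (h16 : 16 * R ≤ r) (hx : ‖x₀‖ = r)
    (h1 : x₀ 1 = 0) (h0 : 0 ≤ x₀ 0) (hz : 0 < height x₀) (hzR : height x₀ ≤ Real.sqrt R)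
    (hy : y ∈ box r R) :
    (r / 2 ≤ ‖y‖ ∧ ‖y‖ ≤ r) ∧ R / 4 ≤ ‖y - x₀‖ ∧ ‖y - x₀‖ ≤ ‖y - mirror x₀‖ ∧
      ‖y - mirror x₀‖ ≤ 3 * R / 4 ∧ ‖y - x₀‖ + ‖y‖ - r ≤ 35 ∧
      5 * height x₀ / Real.sqrt R ≤ ‖y - mirror x₀‖ - ‖y - x₀‖ ∧
      ‖y - mirror x₀‖ - ‖y - x₀‖ ≤ 24 := by
  obtain ⟨⟨hy0, hy0'⟩, ⟨hy1, hy1'⟩, hy2, hy2'⟩ := mem_box.1 hy
  set s := Real.sqrt R
  have hs : 0 < s := Real.sqrt_pos.2 (by linarith)
  have hs2 : s ^ 2 = R := Real.sq_sqrt (by linarith)
  set z₀ := height x₀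
  set z := height y
  have hr : 0 < r := by linarith
  -- the first coordinate of the centre
  have hX0 : x₀ 0 ≤ r := by
    refine hx ▸ (le_abs_self _).trans ?_
    exact PiLp.norm_apply_le x₀ 0
  have hX0' : r - R / r ≤ x₀ 0 := by
    have e := norm_sq_eq x₀
    rw [hx, h1] at e
    have h2 : z₀ ^ 2 ≤ R := by rw [← hs2]; exact pow_le_pow_left₀ hz.le hzR 2
    have h3 : (r - R / r) * r ≤ x₀ 0 * r := by
      have : (r - R / r) * r = r ^ 2 - R := by field_simp
      rw [this]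
      have : x₀ 0 * x₀ 0 ≤ x₀ 0 * r := mul_le_mul_of_nonneg_left hX0 h0
      linarith
    exact le_of_mul_le_mul_right h3 hr
  have hRr : R / r ≤ 1 := by rw [div_le_one hr]; linarith
  set X := x₀ 0 - y 0 with hX
  have hXlo : R / 4 ≤ X := by simp only [hX]; linarith
  have hXhi : X ≤ 5 * R / 8 := by simp only [hX]; linarith
  have hX0p : 0 < X := by linarith
  have hperp : y 1 ^ 2 ≤ R := by rw [← hs2]; exact sq_le_sq' hy1 hy1'
  -- distances
  set d := ‖y - x₀‖ with hd_def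
  set d' := ‖y - mirror x₀‖ with hd'_def
  have hd2 : d ^ 2 = X ^ 2 + y 1 ^ 2 + (z - z₀) ^ 2 := by
    simp [hd_def, EuclideanSpace.norm_sq_eq, Fin.sum_univ_three, hX, z, z₀, height, h1]
    ring
  have hd2' : d' ^ 2 = d ^ 2 + 4 * z * z₀ := norm_sub_mirror_sq x₀ y
  have hzz : (z + z₀) ^ 2 ≤ 16 * R := by
    rw [← hs2, show 16 * s ^ 2 = (4 * s) ^ 2 by ring]
    exact pow_le_pow_left₀ (by linarith) (by linarith) 2
  have hzz0 : 0 ≤ 4 * z * z₀ := mul_nonneg (by linarith) hz.le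
  have hdd' : d ≤ d' := norm_sub_le_mirror (mul_nonneg (by linarith) hz.le)
  have hdX : X ≤ d := by
    refine le_of_pow_le_pow_left₀ two_ne_zero (norm_nonneg _) ?_
    nlinarith [sq_nonneg (y 1), sq_nonneg (z - z₀)]
  have hd'up : d' ≤ X + 34 := by
    refine le_of_pow_le_pow_left₀ two_ne_zero (by linarith) ?_
    nlinarith
  have hd'R : d' ≤ 3 * R / 4 := by linarith
  have hdpos : 0 < d := by linarith
  -- the norm
  have hy0p : r / 2 ≤ y 0 := by linarith
  have hyn : r / 2 ≤ ‖y‖ := hy0p.trans ((le_abs_self _).trans (PiLp.norm_apply_le y 0))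
  have hyn' : ‖y‖ ≤ y 0 + 1 := by
    refine le_of_pow_le_pow_left₀ two_ne_zero (by linarith) ?_
    have e := norm_sq_eq y
    have : z ^ 2 ≤ 9 * R := by
      rw [← hs2, show 9 * s ^ 2 = (3 * s) ^ 2 by ring]
      exact pow_le_pow_left₀ (by linarith) hy2' 2
    nlinarith
  have hyr : ‖y‖ ≤ r := by linarith
  -- the gain from the reflection
  set Δ := d' - d
  have hΔeq : Δ * (d' + d) = 4 * z * z₀ := by
    linear_combination (norm := (simp only [Δ]; ring)) hd2'
  have hΔlo : 5 * z₀ / s ≤ Δ := by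
    refine le_of_mul_le_mul_right ?_ (by linarith : 0 < d' + d)
    rw [hΔeq, div_mul_eq_mul_div, div_le_iff₀ hs]
    calc 5 * z₀ * (d' + d) ≤ 5 * z₀ * (3 * R / 2) := by gcongr; linarith
      _ ≤ 4 * (2 * s) * z₀ * s := by
          have : z₀ * s ^ 2 = z₀ * R := by rw [hs2]
          have : 0 ≤ z₀ * R := by positivity
          linarith
      _ ≤ 4 * z * z₀ * s := by gcongr
  have hΔhi : Δ ≤ 24 := by
    refine le_of_mul_le_mul_right ?_ (by linarith : 0 < d' + d)
    rw [hΔeq]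
    calc 4 * z * z₀ ≤ 4 * (3 * s) * s := by gcongr
      _ = 12 * R := by rw [← hs2]; ring
      _ ≤ 24 * (d' + d) := by linarith
  exact ⟨⟨hyn, hyr⟩, by linarith, hdd', hd'R, by linarith, hΔlo, hΔhi⟩

/-- The tail at a nearby smaller radius. -/
theorem tail_ratio (S : Setup) {r : ℝ} {x₀ y : Space} (hx : ‖x₀‖ = r) (hr : 0 < r)
    (hyn : r / 2 ≤ ‖y‖) (hyr : ‖y‖ ≤ r) :
    (2 : ℝ) ^ (-|S.k / S.a - 2|) * Real.exp (S.a * (r - ‖y‖)) * S.G x₀ ≤ S.G y ∧
      (2 : ℝ) ^ (-|S.k / S.a - 2|) * S.G x₀ ≤ S.G y := by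
  set a := S.a
  set p := S.k / a - 2
  have ha := S.data.a_pos
  have hG0 : 0 < S.G x₀ := tailG_pos _ _ (by linarith : 0 < ‖x₀‖)
  have hG : (2 : ℝ) ^ (-|p|) * Real.exp (a * (r - ‖y‖)) * S.G x₀ ≤ S.G y := by
    have hyp : 0 < ‖y‖ := by linarith
    have hq : (2 : ℝ) ^ (-|p|) * r ^ p ≤ ‖y‖ ^ p := by
      have e : ‖y‖ ^ p = (‖y‖ / r) ^ p * r ^ p := by
        rw [← Real.mul_rpow (by positivity) hr.le, div_mul_cancel₀ _ hr.ne']
      rw [e]
      refine mul_le_mul_of_nonneg_right ?_ (Real.rpow_nonneg hr.le p)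
      have hq1 : ‖y‖ / r ≤ 1 := (div_le_one hr).2 hyr
      have hq2 : 1 / 2 ≤ ‖y‖ / r := by rw [le_div_iff₀ hr]; linarith
      rcases le_or_gt 0 p with hp | hp
      · rw [abs_of_nonneg hp, Real.rpow_neg (by norm_num), ← Real.inv_rpow (by norm_num)]
        exact Real.rpow_le_rpow (by norm_num) (by linarith) hp
      · exact (Real.rpow_le_one_of_one_le_of_nonpos one_le_two
          (neg_nonpos.2 (abs_nonneg p))).trans
            (Real.one_le_rpow_of_pos_of_le_one_of_nonpos (by positivity) hq1 hp.le)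
    simp only [Setup.G, tailG, hx]
    calc (2 : ℝ) ^ (-|p|) * Real.exp (a * (r - ‖y‖)) * (r ^ p * Real.exp (-(a * r)))
        = (2 : ℝ) ^ (-|p|) * r ^ p * Real.exp (-(a * ‖y‖)) := by
          rw [mul_mul_mul_comm, ← Real.exp_add]
          ring_nf
      _ ≤ _ := mul_le_mul_of_nonneg_right hq (Real.exp_pos _).le
  have hGy : (2 : ℝ) ^ (-|p|) * S.G x₀ ≤ S.G y := by
    refine le_trans ?_ hG
    rw [mul_assoc]
    refine mul_le_mul_of_nonneg_left (le_mul_of_one_le_left hG0.le (Real.one_le_exp ?_))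
      (by positivity)
    exact mul_nonneg ha.le (by linarith)
  exact ⟨hG, hGy⟩

/-- The exponential gain from the reflection. -/
theorem exp_gap {a d d' t : ℝ} (ha : 0 < a) (ht : 0 ≤ t) (hlo : 5 * t ≤ d' - d)
    (hhi : d' - d ≤ 24) :
    Real.exp (-(a * d)) * (a * 5 / (1 + 24 * a) * t) ≤
      Real.exp (-(a * d)) - Real.exp (-(a * d')) := by
  set Δ := d' - d
  have e : Real.exp (-(a * d')) = Real.exp (-(a * d)) * (Real.exp (a * Δ))⁻¹ := by
    rw [← Real.exp_neg, ← Real.exp_add]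
    congr 1
    simp only [Δ]; ring
  rw [e, ← mul_one_sub]
  refine mul_le_mul_of_nonneg_left ?_ (Real.exp_pos _).le
  have hΔ0 : 0 ≤ Δ := le_trans (by positivity) hlo
  have h2 : (Real.exp (a * Δ))⁻¹ ≤ (1 + a * Δ)⁻¹ :=
    inv_anti₀ (by positivity) (by linarith [Real.add_one_le_exp (a * Δ)])
  have e2 : 1 - (1 + a * Δ)⁻¹ = a * Δ / (1 + a * Δ) := by field_simp; ring
  have h3 : a * 5 / (1 + 24 * a) * t ≤ 1 - (1 + a * Δ)⁻¹ := by
    rw [e2, show a * 5 / (1 + 24 * a) * t = a * (5 * t) / (1 + 24 * a) by ring]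
    refine div_le_div₀ (by positivity) (by gcongr) (by positivity) ?_
    linarith [mul_le_mul_of_nonneg_left hhi ha.le]
  linarith

/-- On the box both differences are of the natural size. -/
theorem box_lower (S : Setup) : ∃ k : ℝ, 0 < k ∧ ∀ (r R : ℝ) (x₀ y : Space), 300 ≤ R →
    16 * R ≤ r → ‖x₀‖ = r → x₀ 1 = 0 → 0 ≤ x₀ 0 → 0 < height x₀ → height x₀ ≤ Real.sqrt R →
    y ∈ box r R →
      (r / 2 ≤ ‖y‖ ∧ ‖y‖ ≤ r) ∧ y ∈ closedBall x₀ R ∧ (2 : ℝ) ^ (-|S.k / S.a - 2|) * S.G x₀ ≤ S.G y ∧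
      k * height x₀ * S.G x₀ ≤ R ^ 2 * Real.sqrt R * (wd S.a R x₀ y * S.G y) ∧
      k * height x₀ * S.G x₀ ≤ R ^ 2 * Real.sqrt R * (kd S.a R x₀ y * S.G y) := by
  have ha := S.data.a_pos
  set a := S.a
  set p := S.k / a - 2
  set k₀ := (2 : ℝ) ^ (-|p|) * Real.exp (-(35 * a)) * (a * 5 / (1 + 24 * a)) / (3 * Real.pi)
  have hk₀ : 0 < k₀ := by positivity
  refine ⟨k₀ * min (10 * a / 256) (1 / 1024), mul_pos hk₀ (lt_min (by positivity) (by norm_num)),
    fun r R x₀ y hR h16 hx h1 h0 hz hzR hy => ?_⟩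
  set s := Real.sqrt R
  have hs : 0 < s := Real.sqrt_pos.2 (by linarith)
  set z₀ := height x₀
  obtain ⟨⟨hyn, hyr⟩, hdlo, hdd', hd'R, hsum, hΔlo, hΔhi⟩ := box_geom hR h16 hx h1 h0 hz hzR hy
  obtain ⟨hG, hGy⟩ := tail_ratio S hx (by linarith) hyn hyr
  set d := ‖y - x₀‖
  set d' := ‖y - mirror x₀‖
  have hr : 0 < r := by linarith
  have hdpos : 0 < d := by linarith
  have hball : y ∈ closedBall x₀ R := by rw [mem_closedBall, dist_eq_norm]; linarith
  have hG0 : 0 < S.G x₀ := tailG_pos _ _ (by linarith : 0 < ‖x₀‖)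
  have hdiff : Real.exp (-(a * d)) * (a * 5 / (1 + 24 * a) * (z₀ / s)) ≤
      Real.exp (-(a * d)) - Real.exp (-(a * d')) :=
    exp_gap ha (by positivity) (by rw [← mul_div_assoc]; exact hΔlo) hΔhi
  -- assembling
  have hbase : k₀ * z₀ * S.G x₀ ≤
      R * s * ((Real.exp (-(a * d)) - Real.exp (-(a * d'))) / (4 * Real.pi * d') * S.G y) := by
    have h4 : Real.exp (-(35 * a)) ≤ Real.exp (-(a * d)) * Real.exp (a * (r - ‖y‖)) := by
      rw [← Real.exp_add]
      refine Real.exp_le_exp.2 ?_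
      nlinarith
    have h5 : (Real.exp (-(a * d)) * (a * 5 / (1 + 24 * a) * (z₀ / s))) / (3 * Real.pi * R) ≤
        (Real.exp (-(a * d)) - Real.exp (-(a * d'))) / (4 * Real.pi * d') :=
      div_le_div₀ (le_trans (by positivity) hdiff) hdiff (mul_pos (by positivity) (by linarith))
        (by nlinarith [Real.pi_pos])
    calc k₀ * z₀ * S.G x₀ = R * s * (Real.exp (-(35 * a)) *
          ((2 : ℝ) ^ (-|p|) * S.G x₀) * (a * 5 / (1 + 24 * a) * (z₀ / s)) / (3 * Real.pi * R)) := by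
          simp only [k₀]; field_simp
      _ ≤ R * s * (Real.exp (-(a * d)) * Real.exp (a * (r - ‖y‖)) *
          ((2 : ℝ) ^ (-|p|) * S.G x₀) * (a * 5 / (1 + 24 * a) * (z₀ / s)) / (3 * Real.pi * R)) := by
          gcongr
      _ = R * s * ((Real.exp (-(a * d)) * (a * 5 / (1 + 24 * a) * (z₀ / s))) / (3 * Real.pi * R) *
          ((2 : ℝ) ^ (-|p|) * Real.exp (a * (r - ‖y‖)) * S.G x₀)) := by ring
      _ ≤ _ := by
          refine mul_le_mul_of_nonneg_left (mul_le_mul h5 hG (by positivity) ?_) (by positivity)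
          exact le_trans (by positivity) h5
  have hu : y - x₀ ≠ 0 := norm_pos_iff.1 hdpos
  have hmx : (1 : ℝ) / 4 ≤ max (1 - d' / R) 0 := by
    refine le_trans ?_ (le_max_left _ _)
    have : d' / R ≤ 3 / 4 := by rw [div_le_iff₀ (by linarith)]; linarith
    linarith
  have hgW : 10 * a / 256 / R ≤ gW a R d' := by
    calc 10 * a / 256 / R = 10 * a / R * (1 / 4) ^ 4 := by ring
      _ ≤ 10 * a / R * max (1 - d' / R) 0 ^ 4 := by gcongr
      _ ≤ gW a R d' := le_add_of_nonneg_left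
          (mul_nonneg (by positivity) (pow_nonneg (le_max_right _ _) _))
  have hth : 1 / 1024 / R ≤ cutTheta R d' := by
    calc (1 : ℝ) / 1024 / R ≤ (1 / 4) ^ 5 := by rw [div_le_iff₀ (by linarith)]; linarith
      _ ≤ cutTheta R d' := pow_le_pow_left₀ (by norm_num) hmx 5
  set b := (Real.exp (-(a * d)) - Real.exp (-(a * d'))) / (4 * Real.pi * d')
  have hGy0 : 0 ≤ S.G y := (tailG_pos _ _ (by linarith : 0 < ‖y‖)).le
  have hb0 : 0 ≤ b := div_nonneg (le_trans (by positivity) hdiff) (by positivity)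
  have fin : ∀ {m g D : ℝ}, 0 ≤ m → min (10 * a / 256) (1 / 1024) ≤ m → m / R ≤ g → b * g ≤ D →
      k₀ * min (10 * a / 256) (1 / 1024) * z₀ * S.G x₀ ≤ R ^ 2 * s * (D * S.G y) := by
    intro m g D hm hmin hg hD
    calc k₀ * min (10 * a / 256) (1 / 1024) * z₀ * S.G x₀ ≤ m * (k₀ * z₀ * S.G x₀) := by
          rw [show k₀ * min (10 * a / 256) (1 / 1024) * z₀ * S.G x₀ =
            min (10 * a / 256) (1 / 1024) * (k₀ * z₀ * S.G x₀) by ring]
          exact mul_le_mul_of_nonneg_right hmin (by positivity)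
      _ ≤ m * (R * s * (b * S.G y)) := mul_le_mul_of_nonneg_left hbase hm
      _ = R ^ 2 * s * (b * (m / R) * S.G y) := by field_simp
      _ ≤ R ^ 2 * s * (b * g * S.G y) := by gcongr
      _ ≤ R ^ 2 * s * (D * S.G y) := by gcongr
  refine ⟨⟨hyn, hyr⟩, hball, hGy, ?_, ?_⟩
  · simp only [wd, kerW_eq_gW]
    exact fin (m := 10 * a / 256) (by positivity) (min_le_left _ _) hgW
      (yuk_diff ha.le (gW_antitone ha.le (by linarith)) (gW_nonneg ha.le (by linarith)) hu hdd').1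
  · simp only [kd, kerK_eq_yuk]
    exact fin (m := 1 / 1024) (by norm_num) (min_le_right _ _) hth
      (yuk_diff ha.le (cutTheta_antitone (by linarith)) (cutTheta_nonneg R) hu hdd').1

end Vale.Agent.P363.Ext.Small
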