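import Vale.Agent.P363.Ext.Small.SphereSrc

/-!
P363, Kohn-Sham side, smallness near the plane: the lower bound of a mollified candidate on the
sphere `r` from its average over the box at `r - η r / 2`.
-/

noncomputable section

namespace Vale.Agent.P363.Ext.Small

open MeasureTheory Filter Metric Set
open scoped BigOperators Topology ContDiff

/-- The weighted average over the box. -/
lemma box_gain {S : Setup} {k c r Rb : ℝ} {x₀ : Space} {g φ : Space → ℝ} (hRb : 0 < Rb)
    (hg : Continuous g) (hg0 : ∀ y, 0 ≤ g y)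
    (hi : IntegrableOn (fun y => φ y * g y) (box r Rb))
    (hne : box r Rb ⊆ {y : Space | y ≠ 0})
    (hφ : ∀ y ∈ box r Rb, k * c * S.G x₀ ≤ Rb ^ 2 * Real.sqrt Rb * (φ y * S.G y)) :
    k * boxJ S r Rb g / (Rb ^ 2 * Real.sqrt Rb) * (c * S.G x₀) ≤ ∫ y in box r Rb, φ y * g y := by
  set N := Rb ^ 2 * Real.sqrt Rb
  have hN : 0 < N := by positivity
  have hGc : ContinuousOn (fun y => g y / S.G y) (box r Rb) :=
    hg.continuousOn.div ((contDiffOn_G S (m := 2)).continuousOn.mono hne)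
      fun y hy => (tailG_pos _ _ (norm_pos_iff.2 (hne hy))).ne'
  have e : k * boxJ S r Rb g / N * (c * S.G x₀) =
      ∫ y in box r Rb, k * c * S.G x₀ / N * (g y / S.G y) := by
    rw [integral_const_mul, boxJ]
    ring
  rw [e]
  refine setIntegral_mono_on ((hGc.integrableOn_compact (isCompact_box r Rb)).const_mul _)
    hi (isCompact_box r Rb).isClosed.measurableSet fun y hy => ?_
  have hGy : 0 < S.G y := tailG_pos _ _ (norm_pos_iff.2 (hne hy))
  calc k * c * S.G x₀ / N * (g y / S.G y) ≤ N * (φ y * S.G y) / N * (g y / S.G y) := by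
        refine mul_le_mul_of_nonneg_right (div_le_div_of_nonneg_right (hφ y hy) hN.le) ?_
        exact div_nonneg (hg0 y) hGy.le
    _ = φ y * g y := by field_simp

/-- The formula with the upper bound of the source. -/
lemma formula_lower {S : Setup} {η A c5 cb k r Rb δ1 ν : ℝ} {U P : Space → ℝ} {x₀ : Space}
    (hUc : ContDiff ℝ 2 U) (hU0 : ∀ y, 0 ≤ U y) (hP0 : ∀ y, 0 ≤ P y) (hPc : Continuous P)
    (hA : 0 < A) (hν : 0 < ν) (hδ1p : 0 < δ1) (hs : ContDiff ℝ 2 (cutH δ1)) (hr : 0 < r)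
    (hRb300 : 300 ≤ Rb) (hRb36 : Rb ≤ r / 36) (hRbη : Rb = η * r) (hη : 0 < η)
    (hx : ‖x₀‖ = r) (hzlo : 2 * δ1 ≤ height x₀) (hzhi : height x₀ ≤ Real.sqrt Rb)
    (hboxfacts : ∀ y ∈ box r Rb, r / 2 ≤ ‖y‖ ∧ 2 * δ1 ≤ height y ∧
      height y ≤ Real.sqrt r ∧ U y ≤ A * zG S y ∧ ν ≤ gapFn S A r U y)
    (hbx : ∀ y ∈ box r Rb,
      k * height x₀ * S.G x₀ ≤ Rb ^ 2 * Real.sqrt Rb * (wd S.a Rb x₀ y * S.G y) ∧
      k * height x₀ * S.G x₀ ≤ Rb ^ 2 * Real.sqrt Rb * (kd S.a Rb x₀ y * S.G y))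
    (hsrc : ∀ y : Space, 0 < height y → r / 2 ≤ ‖y‖ →
      lap (cutMin S A r ν δ1 U) y - S.a ^ 2 * cutMin S A r ν δ1 U y ≤
        A * c5 / r * zG S y + A * cb * ((band δ1).indicator S.G y / δ1)
          - (box r Rb).indicator P y) :
    k * (boxJ S r Rb U + boxJ S r Rb P) / (Rb ^ 2 * Real.sqrt Rb) * zG S x₀
      - A * c5 / r * (∫ y in upperH, kd S.a Rb x₀ y * zG S y)
      - A * cb * (∫ y in upperH, kd S.a Rb x₀ y * (band δ1).indicator S.G y / δ1) ≤
        U x₀ + A * η * zG S x₀ + ν := by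
  have ha := S.data.a_pos
  set z₀ := height x₀
  have hz₀ : 0 < z₀ := by linarith
  have hG0 : 0 < S.G x₀ := tailG_pos _ _ (by linarith : 0 < ‖x₀‖)
  set F := cutMin S A r ν δ1 U
  have hFc : ContDiffOn ℝ 2 F {y : Space | y ≠ 0} :=
    (hs.comp_contDiffOn Bar.contDiff_height.contDiffOn).mul (contDiffOn_softMin hUc)
  have hnn : ∀ y : Space, r / 2 ≤ ‖y‖ → 0 ≤ height y →
      0 ≤ zG S y ∧ 0 ≤ A / r * z3G S y := fun y hy hz => by
    have hG : 0 < S.G y := tailG_pos _ _ (by linarith : 0 < ‖y‖)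
    exact ⟨mul_nonneg hz hG.le, mul_nonneg (by positivity) (mul_nonneg (pow_nonneg hz 3) hG.le)⟩
  set Bd : Set Space := band δ1
  set src : Space → ℝ := fun y => A * c5 / r * zG S y + A * cb * (Bd.indicator S.G y / δ1)
    - (box r Rb).indicator P y
  have hx' : Rb + 1 < ‖x₀‖ := by rw [hx]; linarith
  obtain ⟨iw, ik, hform⟩ := green_pair ha.le (by linarith : 0 < Rb) hx' hFc
  have hF0 : ∀ y : Space, height y ≤ δ1 → F y = 0 := fun y hy => by
    simp only [F, cutMin, cutH,
      Real.smoothTransition.zero_of_nonpos (div_nonpos_of_nonpos_of_nonneg (sub_nonpos.2 hy)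
        hδ1p.le), zero_mul]
  have hHF0 : ∀ y : Space, height y ≤ 0 → lap F y - S.a ^ 2 * F y = 0 := fun y hy => by
    have e : F =ᶠ[𝓝 y] fun _ => 0 := by
      filter_upwards [(isOpen_lt (Bar.contDiff_height.continuous (n := 0))
        continuous_const).mem_nhds (show height y < δ1 by linarith)] with w hw using hF0 w (le_of_lt hw)
    rw [Point.lap_congr e, lap_const, e.eq_of_nhds]
    simp
  rw [← setIntegral_eq_integral_of_forall_compl_eq_zero (s := upperH)
      (f := fun y => wd S.a Rb x₀ y * F y) fun y hy => by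
        rw [hF0 y (by have : ¬ 0 < height y := hy; linarith), mul_zero],
    ← setIntegral_eq_integral_of_forall_compl_eq_zero (s := upperH)
      (f := fun y => kd S.a Rb x₀ y * (lap F y - S.a ^ 2 * F y)) fun y hy => by
        rw [hHF0 y (not_lt.1 hy), mul_zero],
    hF0 (mirror x₀) (by rw [height_mirror]; linarith), sub_zero] at hform
  have hbox_up : box r Rb ⊆ upperH := fun y hy => by
    have := (hboxfacts y hy).2.1
    show 0 < height y
    linarith
  have hbox_ne : box r Rb ⊆ {y : Space | y ≠ 0} := fun y hy h => by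
    have := (hboxfacts y hy).1
    rw [h, norm_zero] at this
    linarith
  have hbm : MeasurableSet (box r Rb) := (isCompact_box r Rb).isClosed.measurableSet
  -- the positive part
  have hwU : IntegrableOn (fun y => wd S.a Rb x₀ y * U y) (box r Rb) := by
    have hW := Point.memLp_kerW ha.le (contDiff_cutTheta Rb) (cutTheta_eq_zero (by linarith : 0 < Rb))
    have key : ∀ c : Space, Integrable fun y => kerW S.a (cutTheta Rb) (y - c) * U y := fun c =>
      integrable_ker_mul hW (fun y hy => Point.kerW_zero (cutTheta_eq_zero (by linarith)) hy)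
        hUc.continuous.continuousOn
    refine (((key x₀).sub (key (mirror x₀))).congr (Eventually.of_forall fun y => ?_)).integrableOn
    simp only [Pi.sub_apply, wd]; ring
  have hwd : ∫ y in box r Rb, wd S.a Rb x₀ y * U y ≤ ∫ y in upperH, wd S.a Rb x₀ y * F y := by
    refine le_trans (setIntegral_mono_on hwU iw.integrableOn hbm fun y hy => ?_)
      (setIntegral_mono_set iw.integrableOn ?_ hbox_up.eventuallyLE)
    · obtain ⟨hyn, hz2, -, hUA, -⟩ := hboxfacts y hy
      obtain ⟨hzG, hq0⟩ := hnn y hyn (by linarith)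
      have ec : cutH δ1 (height y) = 1 :=
        Real.smoothTransition.one_of_one_le (by rw [le_div_iff₀ hδ1p]; linarith)
      simp only [F, cutMin, ec, one_mul]
      obtain ⟨-, hle', -⟩ := softMin_bounds hν hzG hq0 hA.le (hU0 y)
      refine mul_le_mul_of_nonneg_left (hle' hUA) ?_
      refine wd_nonneg ha.le (by linarith) (mul_nonneg (by linarith) hz₀.le) fun h => ?_
      obtain ⟨⟨-, hy0'⟩, -, -⟩ := mem_box.1 hy
      obtain ⟨-, -, hy2, -⟩ := mem_box.1 hy
      rw [h] at hy2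
      linarith [Real.sqrt_nonneg Rb]
    · filter_upwards [ae_restrict_mem measurableSet_upperH,
        ae_restrict_of_ae (Measure.ae_ne volume x₀)] with y hy hne
      by_cases h0' : wd S.a Rb x₀ y = 0
      · simp [h0']
      have hn := norm_of_support (by linarith : 0 < Rb) (Or.inr h0')
      obtain ⟨hzG, hq0⟩ := hnn y (by linarith) (le_of_lt hy)
      obtain ⟨⟨hΨ0, -⟩, -, -⟩ := softMin_bounds hν hzG hq0 hA.le (hU0 y)
      exact mul_nonneg (wd_nonneg ha.le (by linarith) (mul_nonneg (le_of_lt hy) hz₀.le) hne)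
        (mul_nonneg (Real.smoothTransition.nonneg _) hΨ0)
  -- the source
  have hk1 : Integrable fun y => kd S.a Rb x₀ y * zG S y :=
    integrable_kd_mul ha.le (by linarith) (by linarith) (contDiffOn_zG S).continuousOn
  have hkG : Integrable fun y => kd S.a Rb x₀ y * S.G y :=
    integrable_kd_mul ha.le (by linarith) (by linarith) (contDiffOn_G S (m := 2)).continuousOn
  have hkP : Integrable fun y => kd S.a Rb x₀ y * P y :=
    integrable_kd_mul ha.le (by linarith) (by linarith) hPc.continuousOn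
  have hBdm : MeasurableSet Bd := measurableSet_band δ1
  have j2 : Integrable fun y => kd S.a Rb x₀ y * Bd.indicator S.G y / δ1 := by
    refine ((hkG.indicator hBdm).div_const δ1).congr (Eventually.of_forall fun y => ?_)
    by_cases hy : y ∈ Bd <;> simp [hy]
  have j3 : Integrable fun y => (box r Rb).indicator (fun w => kd S.a Rb x₀ w * P w) y :=
    hkP.indicator hbm
  have hkd : ∫ y in upperH, kd S.a Rb x₀ y * (lap F y - S.a ^ 2 * F y) ≤
      ∫ y in upperH, (A * c5 / r * (kd S.a Rb x₀ y * zG S y) +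
        A * cb * (kd S.a Rb x₀ y * Bd.indicator S.G y / δ1) -
        (box r Rb).indicator (fun w => kd S.a Rb x₀ w * P w) y) := by
    refine integral_mono_ae ik.integrableOn (((hk1.integrableOn.const_mul _).add
      (j2.integrableOn.const_mul _)).sub j3.integrableOn) ?_
    filter_upwards [ae_restrict_mem measurableSet_upperH,
      ae_restrict_of_ae (Measure.ae_ne volume x₀)] with y hy hne
    by_cases h0' : kd S.a Rb x₀ y = 0
    · by_cases hyb : y ∈ box r Rb <;> simp [h0', hyb]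
    have hn := norm_of_support (by linarith : 0 < Rb) (Or.inl h0')
    have h' := mul_le_mul_of_nonneg_left (hsrc y hy (by linarith))
      (kd_nonneg ha.le (by linarith : 0 < Rb) (mul_nonneg (le_of_lt hy) hz₀.le) hne)
    refine h'.trans (le_of_eq ?_)
    by_cases hyb : y ∈ box r Rb <;> simp only [src, indicator_of_mem, indicator_of_notMem, hyb,
      not_false_eq_true] <;> ring
  have j12 : Integrable fun y => A * c5 / r * (kd S.a Rb x₀ y * zG S y) +
      A * cb * (kd S.a Rb x₀ y * Bd.indicator S.G y / δ1) :=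
    (hk1.const_mul _).add (j2.const_mul _)
  rw [integral_sub j12.integrableOn j3.integrableOn,
    integral_add (hk1.integrableOn.const_mul _) (j2.integrableOn.const_mul _),
    integral_const_mul, integral_const_mul, setIntegral_indicator hbm,
    inter_eq_right.2 hbox_up] at hkd
  -- the gains
  have g1 := box_gain (k := k) (c := z₀) (by linarith : 0 < Rb) hUc.continuous hU0 hwU hbox_ne
    (fun y hy => (hbx y hy).1)
  have g2 := box_gain (k := k) (c := z₀) (by linarith : 0 < Rb) hPc hP0 hkP.integrableOn hbox_ne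
    (fun y hy => (hbx y hy).2)
  have hFx : F x₀ ≤ U x₀ + A * η * zG S x₀ + ν := by
    obtain ⟨hzG, hq0⟩ := hnn x₀ (by linarith) hz₀.le
    have ec : cutH δ1 (height x₀) = 1 :=
      Real.smoothTransition.one_of_one_le (by rw [le_div_iff₀ hδ1p]; linarith)
    simp only [F, cutMin, ec, one_mul]
    refine (softMin_bounds hν hzG hq0 hA.le (hU0 x₀)).2.2.trans ?_
    have : A / r * z3G S x₀ ≤ A * η * zG S x₀ := by
      have h2 : z₀ ^ 2 ≤ η * r := by
        rw [← hRbη, ← Real.sq_sqrt (by positivity : 0 ≤ Rb)]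
        exact pow_le_pow_left₀ hz₀.le hzhi 2
      calc A / r * z3G S x₀ = A / r * z₀ ^ 2 * zG S x₀ := by simp only [z3G, zG]; ring
        _ ≤ A / r * (η * r) * zG S x₀ :=
            mul_le_mul_of_nonneg_right (mul_le_mul_of_nonneg_left h2 (by positivity)) hzG
        _ = _ := by field_simp
    linarith
  have hzG : z₀ * S.G x₀ = zG S x₀ := rfl
  rw [hzG] at g1 g2
  have hsum : k * (boxJ S r Rb U + boxJ S r Rb P) / (Rb ^ 2 * Real.sqrt Rb) * zG S x₀ =
      k * boxJ S r Rb U / (Rb ^ 2 * Real.sqrt Rb) * zG S x₀ +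
      k * boxJ S r Rb P / (Rb ^ 2 * Real.sqrt Rb) * zG S x₀ := by ring
  linarith

/-- The lower bound on the sphere. -/
theorem sphere_lower (S : Setup) : ∃ kc E η₀ : ℝ, 0 < kc ∧ 0 ≤ E ∧ 0 < η₀ ∧
    ∀ η σ : ℝ, 0 < η → η ≤ η₀ → 0 < σ → σ ≤ η₀ → ∀ δ : ℝ, 0 < δ → δ ≤ 1 →
      ∀ R D B : ℝ, 0 < D → ∃ r₁ : ℝ, ∀ (L : ℝ) (h p : Space → ℝ), Cand S R D B L h p →
        ∀ (r : ℝ) (x₀ : Space), r₁ ≤ r → ‖x₀‖ = r → x₀ 1 = 0 → 0 ≤ x₀ 0 → δ ≤ height x₀ →
          height x₀ ≤ Real.sqrt (η * r) →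
          kc * (boxJ S r (η * r) (mollC (σ * δ / 8) R D h) +
              boxJ S r (η * r) (mollC (σ * δ / 8) R D p)) /
              ((η * r) ^ 2 * Real.sqrt (η * r)) * zG S x₀
            - E * L * (η + σ) * zG S x₀ ≤ mollC (σ * δ / 8) R D h x₀ := by
  obtain ⟨C1, hC1, hb⟩ := mollC_bounds S
  obtain ⟨Cp, r0, hCp, hr0, hlaps⟩ := explicit_laps S
  obtain ⟨Cs, hCs, hcut⟩ := cutH_bounds
  obtain ⟨η1, r1, hη1, hJ1⟩ := kd_zG_le S
  obtain ⟨η2, C2, r2, hη2, hC2, hJ2⟩ := kd_band_le S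
  obtain ⟨k, hk, hbox⟩ := box_lower S
  have ha := S.data.a_pos
  set P2 := |S.k / S.a - 2|
  set CΨ := 8 + 2 * (P2 + S.a)
  set Cb := Cs * (2 + 2 * CΨ)
  set C5 := 4 * Cp + |S.k| + 7
  set E := 4 * C1 * (C5 * 2 / S.a + Cb * C2 + 1) + 1
  have hP2 : 0 ≤ P2 := abs_nonneg _
  have hw0 : 0 < (2 : ℝ) ^ (-P2) := Real.rpow_pos_of_pos two_pos _
  refine ⟨k, E, min (min η1 η2) (min (1 / 36) ((2 : ℝ) ^ (-P2))), hk, by positivity,
    lt_min (lt_min hη1 hη2) (lt_min (by norm_num) hw0),
    fun η σ hη hη0 hσ hσ0 δ hδ hδ1 R D B hD => ?_⟩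
  simp only [le_min_iff] at hη0 hσ0
  obtain ⟨⟨hη1', hη2'⟩, hη36, -⟩ := hη0
  obtain ⟨-, hσ36, hσp⟩ := hσ0
  set δ1 := σ * δ with hδ1def
  set ρ := δ1 / 8
  have hδ1p : 0 < δ1 := mul_pos hσ hδ
  have hδ1le : δ1 ≤ δ / 36 := by
    calc σ * δ ≤ 1 / 36 * δ := mul_le_mul_of_nonneg_right hσ36 hδ.le
      _ = δ / 36 := by ring
  have hρ : 0 < ρ := by positivity
  have hρ4 : ρ ≤ 1 / 4 := by simp only [ρ]; linarith
  obtain ⟨K, hK, hsup⟩ := mollC_super S ρ hρ hρ4
  refine ⟨max (max (max (300 / η) (2 * r0)) (max r1 r2))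
    (max (max (2 * (R + 1)) (K * (1 + B))) (max (64 / D ^ 2) (4 + 4 / ρ))),
    fun L h p hc r x₀ hr hx h1 h0 hzlo hzhi => ?_⟩
  simp only [max_le_iff] at hr
  obtain ⟨⟨⟨hr300, hrr0⟩, hr1', hr2'⟩, ⟨hrR, hrK⟩, hrD, hrρ⟩ := hr
  have hL := hc.L_pos
  have hB := hc.B_nonneg
  set Rb := η * r
  have hRb300 : 300 ≤ Rb := by
    rw [div_le_iff₀ hη] at hr300; simp only [Rb]; linarith
  have h4ρ : 0 < 4 / ρ := by positivity
  have hr4 : 4 ≤ r := by linarith
  have hr : 0 < r := by linarith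
  have hRb36 : Rb ≤ r / 36 := by
    calc Rb ≤ 1 / 36 * r := mul_le_mul_of_nonneg_right hη36 hr.le
      _ = r / 36 := by ring
  set U := mollC ρ R D h
  set P := mollC ρ R D p
  have hUc : ContDiff ℝ 2 U := contDiff_avg hρ hc.locInt
  have hU0 : ∀ y, 0 ≤ U y := avg_nonneg hρ hc.ext0_nonneg
  have hP0 : ∀ y, 0 ≤ P y := avg_nonneg hρ hc.ext0_p_nonneg
  have hPc : Continuous P := continuous_avg hρ hc.locInt_p
  set A := 4 * C1 * L
  have hA : 0 < A := by positivity
  set z₀ := height x₀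
  have hz₀ : 0 < z₀ := lt_of_lt_of_le hδ hzlo
  have hG0 : 0 < S.G x₀ := tailG_pos _ _ (by linarith : 0 < ‖x₀‖)
  set ν := σ * L * (z₀ * S.G x₀)
  have hν : 0 < ν := by positivity
  obtain ⟨s1, s2, hs, hs1, hs2, hs0, hsb⟩ := hcut δ1 hδ1p
  set F := cutMin S A r ν δ1 U
  have hFc : ContDiffOn ℝ 2 F {y : Space | y ≠ 0} :=
    (hs.comp_contDiffOn Bar.contDiff_height.contDiffOn).mul (contDiffOn_softMin hUc)
  -- the region of the cone
  have hreg : ∀ y : Space, r / 2 ≤ ‖y‖ → δ1 ≤ height y → height y ≤ Real.sqrt r + 1 →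
      closedBall y ρ ⊆ cone R D := fun y hy hz1 hz2 =>
    cone_ball hc.D_pos hρ hρ4 (by simp only [ρ]; linarith) hrR hrρ hrD hy hz1 hz2
  have hnn : ∀ y : Space, r / 2 ≤ ‖y‖ → 0 ≤ height y →
      0 ≤ zG S y ∧ 0 ≤ A / r * z3G S y := fun y hy hz => by
    have hG : 0 < S.G y := tailG_pos _ _ (by linarith : 0 < ‖y‖)
    exact ⟨mul_nonneg hz hG.le, mul_nonneg (by positivity) (mul_nonneg (pow_nonneg hz 3) hG.le)⟩
  -- the upper bound of the source
  set Bd : Set Space := band δ1
  set src : Space → ℝ := fun y => A * C5 / r * zG S y + A * Cb * (Bd.indicator S.G y / δ1)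
    - (box r Rb).indicator P y
  have hboxfacts : ∀ y ∈ box r Rb, r / 2 ≤ ‖y‖ ∧ 2 * δ1 ≤ height y ∧
      height y ≤ Real.sqrt r ∧ U y ≤ A * zG S y ∧ ν ≤ gapFn S A r U y := by
    intro y hy
    obtain ⟨⟨hyn, hyr⟩, -, hGy, -, -⟩ := hbox r Rb x₀ y hRb300 (by linarith) hx h1 h0 hz₀ hzhi hy
    obtain ⟨-, -, hy2, hy2'⟩ := mem_box.1 hy
    set s := Real.sqrt Rb
    have hs1' : 1 ≤ s := Real.one_le_sqrt.2 (by linarith)
    have hzr : height y ≤ Real.sqrt r := by
      refine hy2'.trans ?_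
      calc 3 * s = Real.sqrt (9 * Rb) := by
            rw [Real.sqrt_mul (by norm_num), show (9 : ℝ) = 3 ^ 2 by norm_num,
              Real.sqrt_sq (by norm_num)]
        _ ≤ Real.sqrt r := Real.sqrt_le_sqrt (by linarith)
    have hzlo' : δ1 ≤ height y := by linarith
    obtain ⟨-, ⟨-, hUle⟩, -⟩ := hb R D B L h p hc ρ y hρ (by linarith) (by simp only [ρ]; linarith)
      (by linarith) (hreg y hyn hzlo' (by linarith))
    have hUle' : U y ≤ A / 4 * zG S y := by simp only [A, zG]; linarith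
    have hGy0 : 0 < S.G y := tailG_pos _ _ (by linarith : 0 < ‖y‖)
    have hzG0 : 0 ≤ zG S y := mul_nonneg (by linarith) hGy0.le
    have hq : A / r * z3G S y ≤ A / 4 * zG S y := by
      have h9 : height y ^ 2 ≤ r / 4 := by
        have : height y ^ 2 ≤ (3 * s) ^ 2 := pow_le_pow_left₀ (by linarith) hy2' 2
        rw [mul_pow, Real.sq_sqrt (by linarith)] at this
        linarith
      calc A / r * z3G S y = A / r * height y ^ 2 * zG S y := by simp only [z3G, zG]; ring
        _ ≤ A / r * (r / 4) * zG S y :=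
            mul_le_mul_of_nonneg_right (mul_le_mul_of_nonneg_left h9 (by positivity)) hzG0
        _ = A / 4 * zG S y := by field_simp
    refine ⟨hyn, by linarith, hzr, ?_, ?_⟩
    · have : 0 ≤ A * zG S y := mul_nonneg hA.le hzG0
      linarith
    · have hν1 : ν ≤ A / 2 * zG S y := by
        calc ν = σ * L * (z₀ * S.G x₀) := rfl
          _ ≤ (2 : ℝ) ^ (-P2) * L * (s * S.G x₀) := by gcongr
          _ = L * s * ((2 : ℝ) ^ (-P2) * S.G x₀) := by ring
          _ ≤ L * s * S.G y := mul_le_mul_of_nonneg_left hGy (by positivity)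
          _ ≤ C1 * L * (4 * s) * S.G y := by
              refine mul_le_mul_of_nonneg_right ?_ hGy0.le
              calc L * s = 1 * L * s := by ring
                _ ≤ C1 * L * (4 * s) := by gcongr; linarith
          _ ≤ A / 2 * zG S y := by
              simp only [A, zG]
              have := mul_le_mul_of_nonneg_left hy2
                (by positivity : 0 ≤ C1 * L * S.G y)
              linarith
      simp only [gapFn]
      linarith
  have hsrc : ∀ y : Space, 0 < height y → r / 2 ≤ ‖y‖ → lap F y - S.a ^ 2 * F y ≤ src y :=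
    cutMin_src (fun y hy hz => ⟨(hlaps y (by linarith) hz).1, (hlaps y (by linarith) hz).2.1⟩)
      hCp hCs hC1 hL rfl hν hδ1p (by linarith) hr4 hs hs1 hs2 hs0 hsb hUc hU0 hP0
      (fun y hy hz1 hz2 => by
        obtain ⟨-, ⟨-, hUle⟩, hdU⟩ := hb R D B L h p hc ρ y hρ (by linarith)
          (by simp only [ρ]; linarith) (by linarith) (hreg y hy hz1 hz2)
        refine ⟨hUle, (hdU 2).trans (le_of_eq ?_), ?_⟩
        · simp only [ρ, zG]; field_simp
        have hls := hsup R D B L h p hc y (by simp only [ρ]; linarith) (by linarith)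
          (hreg y hy hz1 hz2)
        have e4 : K * (1 + B) * L * (height y * S.G y) / ‖y‖ ^ 2 ≤ 4 * L / r * zG S y := by
          have hzG : 0 ≤ zG S y := (hnn y hy (by linarith)).1
          calc K * (1 + B) * L * (height y * S.G y) / ‖y‖ ^ 2
              ≤ r * L * zG S y / (r / 2) ^ 2 := by
                show K * (1 + B) * L * zG S y / ‖y‖ ^ 2 ≤ _
                gcongr
            _ = _ := by field_simp; ring
        linarith)
      (fun y hy => ⟨(hboxfacts y hy).2.1, (hboxfacts y hy).2.2.2.2⟩)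
  have hform := formula_lower (k := k) (η := η) hUc hU0 hP0 hPc hA hν hδ1p hs hr hRb300 hRb36 rfl hη
    hx (by linarith) hzhi hboxfacts
    (fun y hy => (hbox r Rb x₀ y hRb300 (by linarith) hx h1 h0 hz₀ hzhi hy).2.2.2) hsrc
  have hb1' := hJ1 η r hη hη1' hr1' (by linarith) x₀ hx hz₀.le
  have hb2' := hJ2 η r δ1 hη hη2' hr2' (by linarith) hδ1p x₀ hx hz₀.le
  have hzG0 : 0 ≤ zG S x₀ := mul_nonneg hz₀.le hG0.le
  have hJ1b : A * C5 / r * ∫ y in upperH, kd S.a Rb x₀ y * zG S y ≤
      A * (C5 * 2 / S.a) * (η * zG S x₀) := by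
    refine (mul_le_mul_of_nonneg_left hb1' (by positivity)).trans (le_of_eq ?_)
    field_simp
  have hJ2b : A * Cb * ∫ y in upperH, kd S.a Rb x₀ y * Bd.indicator S.G y / δ1 ≤
      A * (Cb * C2) * ((η + σ) * zG S x₀) := by
    refine (mul_le_mul_of_nonneg_left hb2' (by positivity)).trans ?_
    have : δ1 * S.G x₀ ≤ σ * zG S x₀ := by
      simp only [δ1, zG]
      have := mul_le_mul_of_nonneg_left hzlo (by positivity : 0 ≤ σ * S.G x₀)
      linarith
    have h8 := mul_le_mul_of_nonneg_left this (by positivity : 0 ≤ A * Cb * C2)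
    linarith
  have hνb : ν = σ * L * zG S x₀ := rfl
  have hE : A * (C5 * 2 / S.a) * (η * zG S x₀) + A * (Cb * C2) * ((η + σ) * zG S x₀) +
      A * η * zG S x₀ + σ * L * zG S x₀ ≤ E * L * (η + σ) * zG S x₀ := by
    have t : 0 ≤ A * (C5 * 2 / S.a) * (σ * zG S x₀) + A * σ * zG S x₀ + η * L * zG S x₀ := by
      positivity
    have e : E * L * (η + σ) * zG S x₀ = A * (C5 * 2 / S.a) * (η * zG S x₀) +
        A * (Cb * C2) * ((η + σ) * zG S x₀) + A * η * zG S x₀ + σ * L * zG S x₀ +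
        (A * (C5 * 2 / S.a) * (σ * zG S x₀) + A * σ * zG S x₀ + η * L * zG S x₀) := by
      simp only [E, A]; ring
    linarith
  linarith

end Vale.Agent.P363.Ext.Small
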