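import Vale.Agent.P363.Ext.Small.Cone
import Vale.Agent.P363.Ext.Point
import Vale.Agent.P363.Ext.Budget

/-!
P363, Kohn-Sham side, smallness near the plane: mollified candidates are classical supersolutions
of `Δ - 2 G₀` up to `L z G / r²`, and candidates lie above their mollifications.
-/

noncomputable section

namespace Vale.Agent.P363.Ext.Small

open MeasureTheory Filter Metric Set
open scoped BigOperators Topology ContDiff

/-- The mollified candidate. -/
def mollC (ρ R D : ℝ) (h : Space → ℝ) : Space → ℝ := avg ρ (ext0 R D h)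

/-- `2 G₀`. -/
def q0 (S : Setup) (r : ℝ) : ℝ := 2 * farPot S.a S.k r

lemma C_pos (S : Setup) : 0 < S.C := lt_of_lt_of_le (S.data.positive 0) (S.data.bounded 0)

/-- `φu ≤ 2 C z G` from the height `1 / r` on. -/
lemma phiu_le {S : Setup} {x : Space} (hR : S.R₁ ≤ ‖x‖) (h1 : 1 ≤ ‖x‖ * height x) :
    S.φu x ≤ 2 * S.C * (height x * S.G x) := by
  have hr1 : 1 ≤ ‖x‖ := (S.data.one_le.trans S.R₀_le).trans hR
  have hz : 0 ≤ height x := by
    by_contra h
    linarith [mul_nonpos_of_nonneg_of_nonpos (norm_nonneg x) (not_le.1 h).le]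
  have hG : 0 < S.G x := tailG_pos _ _ (by linarith)
  have hsq : S.φu x ^ 2 ≤ S.n x := by nlinarith [S.le_sum x, sq_nonneg (S.φ₀ x)]
  refine ((le_abs_self _).trans (Real.abs_le_sqrt hsq)).trans
    ((S.data.upper x (S.R₀_le.trans hR)).trans ?_)
  have h3 : (‖x‖ ^ 3)⁻¹ ≤ height x := by
    rw [inv_le_iff_one_le_mul₀ (by positivity)]
    refine h1.trans ?_
    rw [mul_comm]
    exact mul_le_mul_of_nonneg_left (le_self_pow₀ hr1 (by norm_num)) hz
  rw [abs_of_nonneg hz]
  calc S.C * (height x + (‖x‖ ^ 3)⁻¹) * tailG S.a S.k ‖x‖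
      ≤ S.C * (2 * height x) * S.G x :=
        mul_le_mul_of_nonneg_right (mul_le_mul_of_nonneg_left (by linarith) (C_pos S).le) hG.le
    _ = 2 * S.C * (height x * S.G x) := by ring

/-- The size of `L z G` near a point. -/
lemma zG_near (S : Setup) : ∃ CG : ℝ, 1 ≤ CG ∧ ∀ x y : Space, 2 ≤ ‖y‖ → dist y x ≤ 1 →
    dist y x ≤ height y → 0 ≤ height x ∧ height x * S.G x ≤ CG * (height y * S.G y) := by
  obtain ⟨C, hC, h⟩ := tailG_le S.data.a_pos S.k
  refine ⟨max (2 * C) 1, le_max_right _ _, fun x y hy h1 hz => ?_⟩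
  have hn := norm_sub_dist_le y x
  have hh := abs_le.1 (abs_height_sub_le y x)
  have hx0 : 0 ≤ height x := by linarith
  have hG := h ‖y‖ ‖x‖ hy (abs_le.2 ⟨by linarith [hn.1], by linarith [hn.2]⟩)
  have hGy : 0 ≤ S.G y := (tailG_pos _ _ (by linarith : 0 < ‖y‖)).le
  refine ⟨hx0, ?_⟩
  calc height x * S.G x ≤ 2 * height y * (C * S.G y) :=
        mul_le_mul (by linarith) hG (tailG_pos _ _ (by linarith [hn.1] : 0 < ‖x‖) |>.le
          |> fun h => h) (by linarith)
    _ = 2 * C * (height y * S.G y) := by ring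
    _ ≤ _ := mul_le_mul_of_nonneg_right (le_max_left _ _) (by nlinarith)

variable {S : Setup} {R D B L : ℝ} {h p : Space → ℝ}

lemma Cand.ext0_nonneg (hc : Cand S R D B L h p) (x : Space) : 0 ≤ ext0 R D h x :=
  indicator_nonneg hc.nonneg x

lemma Cand.ext0_p_nonneg (hc : Cand S R D B L h p) (x : Space) : 0 ≤ ext0 R D p x :=
  indicator_nonneg hc.nonneg_p x

lemma Cand.locInt (hc : Cand S R D B L h p) : LocallyIntegrable (ext0 R D h) :=
  locallyIntegrable_ext0 hc.R_le hc.D_le hc.cont

lemma Cand.locInt_p (hc : Cand S R D B L h p) : LocallyIntegrable (ext0 R D p) :=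
  locallyIntegrable_ext0 hc.R_le hc.D_le hc.cont_p

lemma Cand.mollC_rot (hc : Cand S R D B L h p) {ρ : ℝ} (θ : ℝ) (y : Space) :
    mollC ρ R D h (P363.rot θ y) = mollC ρ R D h y := by
  refine avg_rot (fun φ x => ?_) θ y
  by_cases hx : x ∈ cone R D
  · rw [ext0, indicator_of_mem ((cone_rot φ x).2 hx), indicator_of_mem hx, hc.rot]
  · rw [ext0, indicator_of_notMem (fun h' => hx ((cone_rot φ x).1 h')), indicator_of_notMem hx]

/-- Pointwise bounds of a candidate and of its mollification. -/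
theorem mollC_bounds (S : Setup) : ∃ C : ℝ, 1 ≤ C ∧ ∀ (R D B L : ℝ) (h p : Space → ℝ),
    Cand S R D B L h p → ∀ (ρ : ℝ) (y : Space), 0 < ρ → ρ ≤ 1 → ρ ≤ height y → 2 ≤ ‖y‖ →
      closedBall y ρ ⊆ cone R D →
      (∀ x ∈ closedBall y ρ, 0 ≤ h x ∧ h x ≤ C * L * (height y * S.G y)) ∧
      (0 ≤ mollC ρ R D h y ∧ mollC ρ R D h y ≤ C * L * (height y * S.G y)) ∧
      ∀ a, |deriv3 a (mollC ρ R D h) y| ≤ C * L * (height y * S.G y) / ρ := by
  obtain ⟨CG, hCG, hnear⟩ := zG_near S
  obtain ⟨Lg, hLg, hgrad⟩ := abs_deriv3_molR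
  have hC0 := C_pos S
  set C1 := 2 * S.C * CG
  have hC1 : 0 < C1 := by positivity
  refine ⟨max (max C1 (8 * Lg * C1)) 1, le_max_right _ _,
    fun R D B L h p hc ρ y hρ hρ1 hρz hy hsub => ?_⟩
  have hL := hc.L_pos
  have hzG : 0 ≤ height y * S.G y :=
    mul_nonneg (hρ.le.trans hρz) (tailG_pos _ _ (by linarith : 0 < ‖y‖)).le
  have key : ∀ x ∈ closedBall y ρ, 0 ≤ h x ∧ h x ≤ C1 * L * (height y * S.G y) := by
    intro x hx
    have hxc := hsub hx
    rw [mem_closedBall, dist_comm] at hx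
    obtain ⟨-, hzx⟩ := hnear x y hy (hx.trans hρ1) (hx.trans hρz)
    refine ⟨hc.nonneg x hxc, (hc.le x hxc).trans ?_⟩
    calc L * S.φu x ≤ L * (2 * S.C * (height x * S.G x)) :=
          mul_le_mul_of_nonneg_left (phiu_le (hc.R_le.le.trans hxc.1) hxc.2.1) hL.le
      _ ≤ L * (2 * S.C * (CG * (height y * S.G y))) := by gcongr
      _ = C1 * L * (height y * S.G y) := by ring
  have hle : C1 ≤ max (max C1 (8 * Lg * C1)) 1 := (le_max_left _ _).trans (le_max_left _ _)
  have hg : ∀ x, ‖y - x‖ ≤ ρ → ext0 R D h x = h x ∧ x ∈ closedBall y ρ := fun x hx => by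
    have hxb : x ∈ closedBall y ρ := by rwa [mem_closedBall, dist_comm, dist_eq_norm]
    exact ⟨indicator_of_mem (hsub hxb) h, hxb⟩
  refine ⟨fun x hx => ⟨(key x hx).1, (key x hx).2.trans (by gcongr)⟩,
    ⟨avg_nonneg hρ hc.ext0_nonneg y, avg_le hρ hc.locInt fun x hx => ?_⟩, fun a => ?_⟩
  · rw [(hg x hx).1]
    exact (key x (hg x hx).2).2.trans (by gcongr)
  rw [mollC, avg, deriv3_conv3 a ((contDiff_molR hρ).of_le (by norm_cast))
    (hasCompactSupport_molR hρ) hc.locInt y, conv3, ← Real.norm_eq_abs]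
  set M := C1 * L * (height y * S.G y) * (Lg / ρ ^ 4)
  have hb : ∀ x, ‖ext0 R D h x * deriv3 a (molR ρ) (y - x)‖ ≤
      (closedBall y ρ).indicator (fun _ => M) x := by
    intro x
    by_cases hx : ‖y - x‖ ≤ ρ
    · obtain ⟨e, hxb⟩ := hg x hx
      rw [indicator_of_mem hxb, norm_mul, e, Real.norm_eq_abs, Real.norm_eq_abs,
        abs_of_nonneg (key x hxb).1]
      exact mul_le_mul (key x hxb).2 (hgrad ρ hρ a _) (abs_nonneg _) (by positivity)
    · have h0 : deriv3 a (molR ρ) (y - x) = 0 := by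
        refine deriv3_eq_zero_of_notMem a fun hm => hx ?_
        exact mem_closedBall_zero_iff.1 (tsupport_molR hρ hm)
      rw [h0, mul_zero, norm_zero]
      exact indicator_nonneg (fun _ _ => by positivity) x
  refine (norm_integral_le_of_norm_le ((integrable_indicator_iff measurableSet_closedBall).2
    (integrableOn_const measure_closedBall_lt_top.ne)) (Eventually.of_forall hb)).trans ?_
  rw [integral_indicator measurableSet_closedBall, setIntegral_const, smul_eq_mul,
    measureReal_def, EuclideanSpace.volume_closedBall_fin_three, ENNReal.toReal_mul,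
    ENNReal.toReal_pow, ENNReal.toReal_ofReal hρ.le, ENNReal.toReal_ofReal (by positivity)]
  calc ρ ^ 3 * (Real.pi * 4 / 3) * M ≤ ρ ^ 3 * 8 * M := by
        gcongr
        linarith [Real.pi_lt_four]
    _ = 8 * Lg * C1 * L * (height y * S.G y) / ρ := by simp only [M]; field_simp
    _ ≤ _ := by
        gcongr
        exact (le_max_right _ _).trans (le_max_left _ _)

/-- Mollified candidates are classical supersolutions. -/
theorem mollC_super (S : Setup) (ρ : ℝ) (hρ : 0 < ρ) (hρ4 : ρ ≤ 1 / 4) :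
    ∃ K : ℝ, 0 ≤ K ∧ ∀ (R D B L : ℝ) (h p : Space → ℝ), Cand S R D B L h p →
      ∀ y : Space, 4 * ρ ≤ height y → 2 ≤ ‖y‖ → closedBall y ρ ⊆ cone R D →
        lap (mollC ρ R D h) y ≤ q0 S ‖y‖ * mollC ρ R D h y
          + K * (1 + B) * L * (height y * S.G y) / ‖y‖ ^ 2 - mollC ρ R D p y := by
  obtain ⟨C1, hC1, hb⟩ := mollC_bounds S
  obtain ⟨CG, hCG, hnear⟩ := zG_near S
  set CX := |S.C| * (1 + 1 / ρ ^ 4)
  set K0 := 2 * C1 * (2 / ρ ^ 3) * CX + 4 * |S.k| * C1
  refine ⟨K0 + 4 * CG, by positivity, fun R D B L h p hc y hz hr hsub => ?_⟩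
  have hL := hc.L_pos
  have hB := hc.B_nonneg
  obtain ⟨hb1, -, -⟩ := hb R D B L h p hc ρ y hρ (by linarith) (by linarith) hr hsub
  obtain ⟨H, hH2, hHp, hHle⟩ := hc.eqn
  set r := ‖y‖ with hr_def
  have hr0 : 0 < r := by linarith
  have hyc := hsub (mem_closedBall_self hρ.le)
  have hz0 : 0 < height y := by linarith
  set ZG := height y * S.G y
  have hZG : 0 ≤ ZG := mul_nonneg hz0.le (tailG_pos _ _ hr0).le
  set η : Space → ℝ := fun x => molR ρ (y - x) with hη
  have hη0 : ∀ x, 0 ≤ η x := fun x => molR_nonneg hρ _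
  have hbump : IsBump (belt S.R₁) η :=
    isBump_comp_sub (contDiff_molR hρ) (tsupport_molR hρ)
      (hsub.trans (cone_subset_belt hc.R_le hc.D_le))
  have hball : ∀ x, η x ≠ 0 → x ∈ closedBall y ρ := fun x hx => by
    rw [mem_closedBall, dist_comm, dist_eq_norm]
    exact le_of_not_gt fun hgt => hx (molR_eq_zero hρ hgt)
  have hlap : lap (mollC ρ R D h) y = ∫ x, H x * η x := by
    rw [mollC, avg, lap_conv3 ((contDiff_molR hρ).of_le (by norm_cast))
      (hasCompactSupport_molR hρ) hc.locInt y, conv3, ← hHp.2.2 η hbump]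
    congr 1
    funext x
    rw [hη, lap_comp_sub ((contDiff_molR hρ).of_le (by norm_cast))]
    by_cases hx : ‖y - x‖ ≤ ρ
    · rw [ext0, indicator_of_mem (hsub (by rwa [mem_closedBall, dist_comm, dist_eq_norm]))]
    · have : lap (molR ρ) (y - x) = 0 := by
        refine Finset.sum_eq_zero fun a _ => deriv3_eq_zero_of_notMem a fun hm => hx ?_
        exact mem_closedBall_zero_iff.1
          (tsupport_molR hρ (tsupport_deriv3_subset a _ hm))
      rw [this, mul_zero, mul_zero]
  -- the average of the defect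
  have hX : IntegrableOn S.X (closedBall y ρ) ∧ ∫ x in closedBall y ρ, |S.X x| ≤ CX / r ^ 2 := by
    have hR0 : S.R₀ ≤ r := S.R₀_le.trans (hc.R_le.le.trans hyc.1)
    have hlo : r⁻¹ ≤ |height y| := by
      rw [abs_of_pos hz0, ← one_div]
      exact inv_le_height hyc
    obtain ⟨hi, hle⟩ := S.data.defect_avg y hR0 hlo
    rw [abs_of_pos hz0] at hi hle
    set m := min (height y) 1 / 4
    have hm : ρ ≤ m := by
      rw [le_div_iff₀ (by norm_num : (0 : ℝ) < 4)]
      exact le_min (by linarith) (by linarith)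
    have hm1 : m ≤ 1 := by simp only [m]; linarith [min_le_right (height y) 1]
    have hae : (closedBall y ρ : Set Space) ≤ᵐ[volume] ball y m := by
      refine (Filter.EventuallyEq.le ?_).trans (ball_subset_ball hm).eventuallyLE
      exact (ae_eq_of_subset_of_measure_ge ball_subset_closedBall
        (Measure.addHaar_closedBall_eq_addHaar_ball volume y ρ).le
        measurableSet_ball.nullMeasurableSet measure_closedBall_lt_top.ne).symm
    refine ⟨hi.mono_set_ae hae, (setIntegral_mono_set hi.norm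
      (Eventually.of_forall fun x => norm_nonneg _) hae).trans (hle.trans ?_)⟩
    have hm0 : 0 ≤ m := by linarith
    calc S.C * m ^ 3 * ((r ^ 2)⁻¹ + (r ^ 6 * height y ^ 4)⁻¹)
        ≤ |S.C| * 1 * ((r ^ 2)⁻¹ + (r ^ 2 * ρ ^ 4)⁻¹) := by
          refine mul_le_mul (mul_le_mul (le_abs_self _) (pow_le_one₀ hm0 hm1) (by positivity)
            (abs_nonneg _)) (add_le_add le_rfl (inv_anti₀ (by positivity) ?_)) (by positivity)
            (by positivity)
          exact mul_le_mul (pow_le_pow_right₀ (by linarith) (by norm_num))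
            (pow_le_pow_left₀ hρ.le (by linarith) 4) (by positivity) (by positivity)
      _ = CX / r ^ 2 := by simp only [CX]; field_simp
  -- domination
  have hiA : Integrable ((closedBall y ρ).indicator fun x => |S.X x|) :=
    (integrable_indicator_iff measurableSet_closedBall).2 hX.1.abs
  have hiU := integrable_avg hρ hc.locInt y
  have hiP := integrable_avg hρ hc.locInt_p y
  have hiη : Integrable η := (integrable_molR hρ).comp_sub_left y
  set Φ : Space → ℝ := fun x => q0 S r * (ext0 R D h x * η x)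
    + 2 * C1 * L * ZG * (2 / ρ ^ 3) * (closedBall y ρ).indicator (fun x => |S.X x|) x
    + (4 * |S.k| * C1 + B * 4 * CG) * L * ZG / r ^ 2 * η x - ext0 R D p x * η x
  have hΦ : Integrable Φ :=
    (((hiU.const_mul _).add (hiA.const_mul _)).add (hiη.const_mul _)).sub hiP
  have hHη : Integrable fun x => H x * η x :=
    integrable_mul_of_tsupport hHp.2.1 hbump.continuous hbump.compact hbump.supp
  have hae : (fun x => H x * η x) ≤ᵐ[volume] Φ := by
    filter_upwards [hHle] with x hx
    by_cases h0 : η x = 0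
    · simp only [Φ, h0, mul_zero, zero_add, add_zero, sub_zero]
      exact mul_nonneg (by positivity) (indicator_nonneg (fun _ _ => abs_nonneg _) x)
    have hxb := hball x h0
    have hxc := hsub hxb
    obtain ⟨hh0, hh⟩ := hb1 x hxb
    have hd : dist y x ≤ ρ := by rwa [dist_comm, ← mem_closedBall]
    have hn := norm_sub_dist_le y x
    obtain ⟨-, hzx⟩ := hnear x y hr (by linarith) (by linarith)
    have hrx : r / 2 ≤ ‖x‖ := by linarith [hn.1]
    have hrx0 : 0 < ‖x‖ := by linarith
    have hq : farPot S.a S.k ‖x‖ ≤ farPot S.a S.k r + 2 * |S.k| / r ^ 2 := by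
      have e : farPot S.a S.k ‖x‖ - farPot S.a S.k r = S.k * (‖x‖ - r) / (r * ‖x‖) := by
        simp only [farPot]; field_simp; ring
      have h1 : S.k * (‖x‖ - r) / (r * ‖x‖) ≤ |S.k| / (r * (r / 2)) := by
        refine (le_abs_self _).trans ?_
        rw [abs_div, abs_mul, abs_of_pos (mul_pos hr0 hrx0)]
        refine div_le_div₀ (abs_nonneg _) (mul_le_of_le_one_right (abs_nonneg _) ?_)
          (by positivity) (mul_le_mul_of_nonneg_left hrx hr0.le)
        exact abs_le.2 ⟨by linarith [hn.1], by linarith [hn.2]⟩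
      have e2 : |S.k| / (r * (r / 2)) = 2 * |S.k| / r ^ 2 := by field_simp
      linarith
    have hBt : B * L * (height x * S.G x) / ‖x‖ ^ 2 ≤ B * 4 * CG * L * ZG / r ^ 2 := by
      calc B * L * (height x * S.G x) / ‖x‖ ^ 2 ≤ B * L * (CG * ZG) / (r / 2) ^ 2 := by
            gcongr
        _ = _ := by field_simp; ring
    have key : H x ≤ q0 S r * h x + 2 * C1 * L * ZG * |S.X x|
        + (4 * |S.k| * C1 + B * 4 * CG) * L * ZG / r ^ 2 - p x := by
      refine (hx hxc).trans ?_
      have h1 : 2 * S.X x * h x ≤ 2 * C1 * L * ZG * |S.X x| := by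
        calc 2 * S.X x * h x ≤ 2 * |S.X x| * h x := by gcongr; exact le_abs_self _
          _ ≤ 2 * |S.X x| * (C1 * L * ZG) := by gcongr
          _ = _ := by ring
      have h2 : 2 * farPot S.a S.k ‖x‖ * h x ≤ q0 S r * h x + 4 * |S.k| * C1 * L * ZG / r ^ 2 := by
        calc 2 * farPot S.a S.k ‖x‖ * h x
            ≤ 2 * (farPot S.a S.k r + 2 * |S.k| / r ^ 2) * h x := by gcongr
          _ = q0 S r * h x + 4 * |S.k| / r ^ 2 * h x := by simp only [q0]; ring
          _ ≤ q0 S r * h x + 4 * |S.k| / r ^ 2 * (C1 * L * ZG) := by gcongr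
          _ = _ := by ring
      have e : (4 * |S.k| * C1 + B * 4 * CG) * L * ZG / r ^ 2 =
          4 * |S.k| * C1 * L * ZG / r ^ 2 + B * 4 * CG * L * ZG / r ^ 2 := by ring
      linarith
    have e1 : ext0 R D h x = h x := indicator_of_mem hxc h
    have e2 : ext0 R D p x = p x := indicator_of_mem hxc p
    simp only [Φ, e1, e2, indicator_of_mem hxb]
    refine (mul_le_mul_of_nonneg_right key (hη0 x)).trans ?_
    have h3 : 2 * C1 * L * ZG * |S.X x| * η x ≤ 2 * C1 * L * ZG * (2 / ρ ^ 3) * |S.X x| := by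
      rw [mul_right_comm _ (2 / ρ ^ 3)]
      exact mul_le_mul_of_nonneg_left (molR_le hρ _) (by positivity)
    linarith
  rw [hlap]
  refine (integral_mono_ae hHη hΦ hae).trans ?_
  simp only [Φ]
  set c1 := 2 * C1 * L * ZG * (2 / ρ ^ 3)
  set c2 := (4 * |S.k| * C1 + B * 4 * CG) * L * ZG / r ^ 2
  have j1 : Integrable fun x => q0 S r * (ext0 R D h x * η x)
      + c1 * (closedBall y ρ).indicator (fun x => |S.X x|) x :=
    (hiU.const_mul _).add (hiA.const_mul _)
  have j2 : Integrable fun x => q0 S r * (ext0 R D h x * η x)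
      + c1 * (closedBall y ρ).indicator (fun x => |S.X x|) x + c2 * η x :=
    j1.add (hiη.const_mul _)
  rw [integral_sub j2 hiP, integral_add j1 (hiη.const_mul _),
    integral_add (hiU.const_mul _) (hiA.const_mul _), integral_const_mul, integral_const_mul,
    integral_const_mul, integral_indicator measurableSet_closedBall, integral_molR hρ]
  have h1 : 2 * C1 * L * ZG * (2 / ρ ^ 3) * ∫ x in closedBall y ρ, |S.X x| ≤
      2 * C1 * L * ZG * (2 / ρ ^ 3) * (CX / r ^ 2) := mul_le_mul_of_nonneg_left hX.2 (by positivity)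
  have h2 : 2 * C1 * L * ZG * (2 / ρ ^ 3) * (CX / r ^ 2)
      + (4 * |S.k| * C1 + B * 4 * CG) * L * ZG / r ^ 2 ≤
      (K0 + 4 * CG) * (1 + B) * L * ZG / r ^ 2 := by
    have : 0 ≤ (K0 * B + 4 * CG) * L * ZG / r ^ 2 := by positivity
    have e : (K0 + 4 * CG) * (1 + B) * L * ZG / r ^ 2 =
      2 * C1 * L * ZG * (2 / ρ ^ 3) * (CX / r ^ 2)
      + (4 * |S.k| * C1 + B * 4 * CG) * L * ZG / r ^ 2
      + (K0 * B + 4 * CG) * L * ZG / r ^ 2 := by simp only [K0]; ring
    linarith
  simp only [mollC, avg, conv3, hη] at h1 ⊢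
  linarith

/-- A candidate lies above a fixed multiple of its mollification. -/
theorem cand_ge_mollC (S : Setup) : ∃ κ C R₀ : ℝ, 0 < κ ∧ 0 ≤ C ∧
    ∀ (R D B L : ℝ) (h p : Space → ℝ), Cand S R D B L h p → ∀ (ρ : ℝ) (x : Space), 0 < ρ →
      ρ ≤ 1 / 8 → 8 * ρ ≤ height x → R₀ ≤ ‖x‖ → closedBall x (3 * ρ) ⊆ cone R D →
        κ * mollC ρ R D h x - C * (1 + B) * L * (ρ ^ 2 + ρ ^ 2 / height x ^ 2) *
          (height x * S.G x) ≤ h x := by
  obtain ⟨C1, hC1, hb⟩ := mollC_bounds S
  obtain ⟨CG, hCG, hnear⟩ := zG_near S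
  obtain ⟨CX, RX, hX⟩ := defect S
  set K := 2 * (|CX| + S.a ^ 2 + |S.k| + 1) * C1 + 4 * CG
  refine ⟨5 / (64 * Real.pi), 4 * K * Real.exp 1 * 4, max (RX + 1) 4, by positivity, by positivity,
    fun R D B L h p hc ρ x hρ hρ8 hz hR hsub => ?_⟩
  simp only [max_le_iff] at hR
  obtain ⟨hRX, hr4⟩ := hR
  have hL := hc.L_pos
  have hB := hc.B_nonneg
  obtain ⟨H, hH2, hHp, hHle⟩ := hc.eqn
  set r := ‖x‖
  have hz0 : 0 < height x := by linarith
  set ZG := height x * S.G x
  have hZG : 0 ≤ ZG := mul_nonneg hz0.le (tailG_pos _ _ (by linarith : 0 < r)).le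
  obtain ⟨hb1, -, -⟩ := hb R D B L h p hc (3 * ρ) x (by linarith) (by linarith) (by linarith)
    (by linarith) hsub
  have h3 : ball x (3 * ρ) ⊆ belt S.R₁ :=
    ball_subset_closedBall.trans (hsub.trans (cone_subset_belt hc.R_le hc.D_le))
  have hp := point 0 (2 * ρ) (3 * ρ) (cutTheta (2 * ρ)) le_rfl (by linarith) (by linarith)
    (contDiff_cutTheta _) (cutTheta_zero _) (cutTheta_eq_zero (by linarith)) x h H
    (hc.cont.mono h3) (hHp.mono h3) (hH2.mono h3)
  simp only [ne_eq, OfNat.ofNat_ne_zero, not_false_eq_true, zero_pow, zero_mul, sub_zero] at hp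
  have hcb : ∀ y, kerW 0 (cutTheta (2 * ρ)) (y - x) ≠ 0 ∨ kerK 0 (cutTheta (2 * ρ)) (y - x) ≠ 0 →
      y ∈ closedBall x (2 * ρ) := fun y hy => by
    rw [mem_closedBall, dist_eq_norm]
    by_contra hgt
    rcases hy with hy | hy
    · exact hy (Point.kerW_zero (cutTheta_eq_zero (by linarith)) (not_le.1 hgt))
    · exact hy (Point.kerK_zero (cutTheta_eq_zero (by linarith)) (not_le.1 hgt))
  have h2sub : closedBall x (2 * ρ) ⊆ closedBall x (3 * ρ) := closedBall_subset_closedBall (by linarith)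
  have hcont : ContinuousOn h (closedBall x (2 * ρ)) :=
    hc.cont.mono (h2sub.trans (hsub.trans (cone_subset_belt hc.R_le hc.D_le)))
  -- the weight
  have hiW : Integrable fun y => kerW 0 (cutTheta (2 * ρ)) (y - x) * h y := by
    obtain ⟨M, hM⟩ := (isCompact_closedBall x (2 * ρ)).exists_bound_of_continuousOn hcont
    have hWi := (integral_kerW_cutTheta (m := 0) le_rfl (by linarith : 0 < 2 * ρ)).1.comp_sub_right x
    refine (integrableOn_iff_integrable_of_support_subset (s := closedBall x (2 * ρ))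
      fun y hy => hcb y (Or.inl (left_ne_zero_of_mul hy))).1 ?_
    refine (hWi.norm.mul_const M).integrableOn.mono' (hWi.aestronglyMeasurable.restrict.mul
      (hcont.aestronglyMeasurable measurableSet_closedBall)) ?_
    filter_upwards [ae_restrict_mem measurableSet_closedBall] with y hy
    rw [norm_mul]
    exact mul_le_mul_of_nonneg_left (hM y hy) (norm_nonneg _)
  have hW : 5 / (64 * Real.pi) * mollC ρ R D h x ≤
      ∫ y, kerW 0 (cutTheta (2 * ρ)) (y - x) * h y := by
    rw [mollC, avg, conv3, ← integral_const_mul]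
    refine integral_mono_ae ((integrable_avg hρ hc.locInt x).const_mul _) hiW ?_
    filter_upwards [Measure.ae_ne volume x] with y hy
    by_cases hk : molR ρ (x - y) = 0
    · rw [hk, mul_zero, mul_zero]
      by_cases hw : kerW 0 (cutTheta (2 * ρ)) (y - x) = 0
      · rw [hw, zero_mul]
      · exact mul_nonneg (kerW_cutTheta_nonneg le_rfl (by linarith) _)
          (hb1 y (h2sub (hcb y (Or.inl hw)))).1
    have hd : ‖x - y‖ ≤ ρ := le_of_not_gt fun hgt => hk (molR_eq_zero hρ hgt)
    have hyb : y ∈ closedBall x (3 * ρ) := by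
      rw [mem_closedBall, dist_comm, dist_eq_norm]; linarith
    rw [ext0, indicator_of_mem (hsub hyb), mul_left_comm, mul_comm (kerW _ _ _)]
    refine mul_le_mul_of_nonneg_left ?_ (hb1 y hyb).1
    refine le_trans (mul_le_mul_of_nonneg_left (molR_le hρ _) (by positivity)) ?_
    rw [norm_sub_rev] at hd
    set d := ‖y - x‖
    have hd0 : 0 < d := norm_pos_iff.2 (sub_ne_zero.2 hy)
    rw [kerW, deriv2_cutTheta, mul_zero, zero_mul, sub_zero, yuk, zero_mul, neg_zero, Real.exp_zero]
    calc 5 / (64 * Real.pi) * (2 / ρ ^ 3)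
        = 1 / (4 * Real.pi * ρ) * (20 / (2 * ρ) ^ 2 * (1 / 2) ^ 3) := by field_simp; ring
      _ ≤ 1 / (4 * Real.pi * d) * (20 / (2 * ρ) ^ 2 * max (1 - d / (2 * ρ)) 0 ^ 3) := by
        gcongr
        refine le_trans ?_ (le_max_left _ _)
        rw [div_le_iff₀ (by norm_num : (0 : ℝ) < 2)] at *
        have : d / (2 * ρ) ≤ 1 / 2 := by rw [div_le_iff₀ (by positivity)]; linarith
        linarith
  -- the source
  set m := (2 * ρ)⁻¹
  obtain ⟨hm1, hm2, -⟩ := integral_kerW_cutTheta (m := m) (by positivity) (by linarith : 0 < 2 * ρ)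
  have hWn : 0 ≤ ∫ y, kerW m (cutTheta (2 * ρ)) y :=
    integral_nonneg (kerW_cutTheta_nonneg (by positivity) (by linarith))
  have hKi : Integrable fun y => kerK m (cutTheta (2 * ρ)) (y - x) := by
    refine Integrable.comp_sub_right ?_ x
    have h2 := Point.memLp_kerK (m := m) (by positivity) (contDiff_cutTheta _).continuous
      (cutTheta_eq_zero (by linarith : 0 < 2 * ρ))
    have : IsFiniteMeasure ((volume : Measure Space).restrict (closedBall 0 (2 * ρ))) :=
      ⟨by rw [Measure.restrict_apply_univ]; exact measure_closedBall_lt_top⟩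
    refine (integrableOn_iff_integrable_of_support_subset fun y hy => ?_).1
      ((h2.restrict (closedBall (0 : Space) (2 * ρ))).integrable one_le_two)
    exact mem_closedBall_zero_iff.2 (le_of_not_gt fun hgt =>
      hy (Point.kerK_zero (cutTheta_eq_zero (by linarith)) hgt))
  have hKm : ∫ y, kerK m (cutTheta (2 * ρ)) (y - x) ≤ (2 * ρ) ^ 2 := by
    rw [integral_sub_right_eq_self (kerK m (cutTheta (2 * ρ))) x]
    have h1 : m ^ 2 * ∫ y, kerK m (cutTheta (2 * ρ)) y ≤ 1 := by linarith
    calc _ = (2 * ρ) ^ 2 * (m ^ 2 * ∫ y, kerK m (cutTheta (2 * ρ)) y) := by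
          simp only [m]; field_simp
      _ ≤ (2 * ρ) ^ 2 * 1 := mul_le_mul_of_nonneg_left h1 (by positivity)
      _ = _ := mul_one _
  set T := K * (1 + B) * (1 + 4 / height x ^ 2) * L * ZG
  have hT : 0 ≤ T := by positivity
  have hK : ∫ y, kerK 0 (cutTheta (2 * ρ)) (y - x) * H y ≤ T * (Real.exp 1 * (2 * ρ) ^ 2) := by
    refine le_trans ?_ (mul_le_mul_of_nonneg_left (mul_le_mul_of_nonneg_left hKm
      (Real.exp_pos 1).le) hT)
    rw [← integral_const_mul, ← integral_const_mul]
    by_cases hi : Integrable fun y => kerK 0 (cutTheta (2 * ρ)) (y - x) * H y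
    · refine integral_mono_ae hi ((hKi.const_mul _).const_mul _) ?_
      filter_upwards [hHle, hX] with y hy hyX
      by_cases hk : kerK 0 (cutTheta (2 * ρ)) (y - x) = 0
      · rw [hk, zero_mul]
        exact mul_nonneg hT (mul_nonneg (Real.exp_pos 1).le (kerK_cutTheta_nonneg _ _ _))
      have hyb := h2sub (hcb y (Or.inr hk))
      have hd := mem_closedBall.1 (hcb y (Or.inr hk))
      rw [dist_comm] at hd
      obtain ⟨hh0, hh⟩ := hb1 y hyb
      obtain ⟨hzy0, hzy⟩ := hnear y x (by linarith) (by linarith) (by linarith)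
      have hn := norm_sub_dist_le x y
      have hhy := abs_le.1 (abs_height_sub_le x y)
      have hX2 := hyX (by linarith [hn.1])
      have hw : ((|height y| + (‖y‖ ^ 3)⁻¹) ^ 2)⁻¹ ≤ 4 / height x ^ 2 := by
        rw [show 4 / height x ^ 2 = ((height x / 2) ^ 2)⁻¹ by field_simp; ring]
        refine inv_anti₀ (by positivity) (pow_le_pow_left₀ (by linarith) ?_ 2)
        have : 0 ≤ (‖y‖ ^ 3)⁻¹ := by positivity
        linarith [le_abs_self (height y)]
      have hHy : H y ≤ T := by
        refine (hy (hsub hyb)).trans ?_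
        have hp0 := hc.nonneg_p y (hsub hyb)
        have hry : 1 ≤ ‖y‖ := by linarith [hn.1]
        have h1 : S.X y ≤ |CX| * (1 + 4 / height x ^ 2) :=
          ((le_abs_self _).trans hX2).trans (mul_le_mul (le_abs_self _) (by linarith)
            (by positivity) (abs_nonneg _))
        have h2 : farPot S.a S.k ‖y‖ ≤ S.a ^ 2 + |S.k| := by
          simp only [farPot]
          have : |S.k / ‖y‖| ≤ |S.k| := by
            rw [abs_div, abs_norm]; exact div_le_self (abs_nonneg _) hry
          nlinarith [abs_le.1 this, sq_nonneg S.a]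
        set w := 1 + 4 / height x ^ 2
        have hw1 : 1 ≤ w := le_add_of_nonneg_right (by positivity)
        have h3 : 2 * (S.X y + farPot S.a S.k ‖y‖) * h y ≤
            2 * ((|CX| + S.a ^ 2 + |S.k| + 1) * w) * (C1 * L * ZG) := by
          refine (mul_le_mul_of_nonneg_right ?_ hh0).trans
            (mul_le_mul_of_nonneg_left hh (by positivity))
          have : 0 ≤ (S.a ^ 2 + |S.k| + 1) * (w - 1) := mul_nonneg (by positivity) (by linarith)
          linarith
        have h4 : B * L * (height y * S.G y) / ‖y‖ ^ 2 ≤ B * L * (CG * ZG) :=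
          (div_le_self (mul_nonneg (by positivity) (mul_nonneg hzy0
            (tailG_pos _ _ (by linarith : 0 < ‖y‖)).le)) (one_le_pow₀ hry)).trans
            (mul_le_mul_of_nonneg_left hzy (by positivity))
        calc 2 * (S.X y + farPot S.a S.k ‖y‖) * h y + B * L * (height y * S.G y) / ‖y‖ ^ 2 - p y
            ≤ 2 * ((|CX| + S.a ^ 2 + |S.k| + 1) * w) * (C1 * L * ZG) + B * L * (CG * ZG) := by
              linarith
          _ ≤ T := by
            simp only [T, K]
            have ha : 0 ≤ 2 * (|CX| + S.a ^ 2 + |S.k| + 1) * C1 * w * L * ZG * B := by positivity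
            have hb : 0 ≤ (3 * B + 4) * CG * w * L * ZG := by positivity
            have hc' : 0 ≤ B * CG * L * ZG * (w - 1) := mul_nonneg (by positivity) (by linarith)
            linarith
      have hker : kerK 0 (cutTheta (2 * ρ)) (y - x) ≤
          Real.exp 1 * kerK m (cutTheta (2 * ρ)) (y - x) := by
        simp only [kerK, yuk, zero_mul, neg_zero, Real.exp_zero]
        rw [mul_left_comm]
        refine mul_le_mul_of_nonneg_left ?_ (cutTheta_nonneg _ _)
        rw [mul_div_assoc', ← Real.exp_add]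
        refine div_le_div_of_nonneg_right ?_ (by positivity)
        refine Real.one_le_exp ?_
        have : m * ‖y - x‖ ≤ 1 := by
          rw [show m * ‖y - x‖ = ‖y - x‖ / (2 * ρ) by simp only [m]; ring,
            div_le_one (by positivity), ← dist_eq_norm, dist_comm]
          exact hd
        linarith
      calc kerK 0 (cutTheta (2 * ρ)) (y - x) * H y ≤ kerK 0 (cutTheta (2 * ρ)) (y - x) * T :=
            mul_le_mul_of_nonneg_left hHy (kerK_cutTheta_nonneg _ _ _)
        _ ≤ Real.exp 1 * kerK m (cutTheta (2 * ρ)) (y - x) * T :=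
            mul_le_mul_of_nonneg_right hker hT
        _ = _ := by ring
    · rw [integral_undef hi]
      exact integral_nonneg fun y =>
        mul_nonneg hT (mul_nonneg (Real.exp_pos 1).le (kerK_cutTheta_nonneg _ _ _))
  have e : T * (Real.exp 1 * (2 * ρ) ^ 2) ≤
      4 * K * Real.exp 1 * 4 * (1 + B) * L * (ρ ^ 2 + ρ ^ 2 / height x ^ 2) * ZG := by
    have h0 : 0 ≤ 12 * K * Real.exp 1 * (1 + B) * L * ZG * ρ ^ 2 := by positivity
    have e' : 4 * K * Real.exp 1 * 4 * (1 + B) * L * (ρ ^ 2 + ρ ^ 2 / height x ^ 2) * ZG =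
        T * (Real.exp 1 * (2 * ρ) ^ 2) + 12 * K * Real.exp 1 * (1 + B) * L * ZG * ρ ^ 2 := by
      simp only [T]; ring
    linarith
  linarith

end Vale.Agent.P363.Ext.Small
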