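import Vale.Agent.P363.Ext.Small.SphereTools
import Vale.Agent.P363.Ext.Small.Super
import Vale.Agent.P363.Ext.Small.Kernel

/-!
P363, Kohn-Sham side, smallness near the plane: the lower bound of a mollified candidate on the
sphere `r` from its average over the box at `r - η r / 2`.
-/

noncomputable section

namespace Vale.Agent.P363.Ext.Small

open MeasureTheory Filter Metric Set
open scoped BigOperators Topology ContDiff

/-- The band of the cut-off. -/
def band (δ : ℝ) : Set Space := {y : Space | δ ≤ height y ∧ height y ≤ 2 * δ}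

lemma measurableSet_band (δ : ℝ) : MeasurableSet (band δ) :=
  ((isClosed_le continuous_const (Bar.contDiff_height.continuous (n := 0))).inter
    (isClosed_le (Bar.contDiff_height.continuous (n := 0)) continuous_const)).measurableSet

/-- The region used by the formula lies in the cone. -/
lemma cone_ball {R D ρ δ1 r : ℝ} (hD : 0 < D) (hρ : 0 < ρ) (hρ4 : ρ ≤ 1 / 4) (hρδ : 2 * ρ ≤ δ1)
    (hrR : 2 * (R + 1) ≤ r) (hrρ : 4 + 4 / ρ ≤ r) (hrD : 64 / D ^ 2 ≤ r) {y : Space}
    (hy : r / 2 ≤ ‖y‖) (hz1 : δ1 ≤ height y) (hz2 : height y ≤ Real.sqrt r + 1) :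
    closedBall y ρ ⊆ cone R D := by
  have h4ρ : 0 < 4 / ρ := by positivity
  have hr : 0 < r := by linarith
  refine closedBall_subset_cone hD.le (by linarith) ?_ (by linarith) ?_
  · have h2 : 1 ≤ r / 4 * ρ := by
      have : 4 / ρ * ρ ≤ r * ρ := mul_le_mul_of_nonneg_right (by linarith) hρ.le
      rw [div_mul_cancel₀ _ hρ.ne'] at this
      linarith
    exact h2.trans (mul_le_mul (by linarith) (by linarith) hρ.le (by linarith))
  · have hs' : Real.sqrt r * 8 ≤ D * r := by
      refine le_of_pow_le_pow_left₀ two_ne_zero (by positivity) ?_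
      rw [mul_pow, Real.sq_sqrt hr.le]
      have : 64 ≤ D ^ 2 * r := by
        rw [div_le_iff₀ (by positivity)] at hrD
        linarith
      calc r * 8 ^ 2 = 64 * r := by ring
        _ ≤ D ^ 2 * r * r := mul_le_mul_of_nonneg_right this hr.le
        _ = (D * r) ^ 2 := by ring
    have h1s : 2 ≤ Real.sqrt r := Real.le_sqrt_of_sq_le (by linarith)
    have : D * (r / 2 - 1) ≤ D * (‖y‖ - ρ) :=
      mul_le_mul_of_nonneg_left (by linarith) hD.le
    have h5 : D * (r / 4) ≤ D * (r / 2 - 1) := mul_le_mul_of_nonneg_left (by linarith) hD.le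
    linarith

/-- The upper bound of the source. -/
lemma cutMin_src {S : Setup} {Cp Cs C1 L A r δ1 ν : ℝ} {U P : Space → ℝ} {s1 s2 : ℝ → ℝ}
    {Bx : Set Space}
    (hlaps : ∀ y : Space, r / 2 ≤ ‖y‖ → 0 ≤ height y →
      lap (zG S) y - S.a ^ 2 * zG S y ≤ Cp * zG S y / ‖y‖ ∧
      lap (z3G S) y - S.a ^ 2 * z3G S y ≤
        S.G y * (6 * height y + Cp * height y ^ 3 / ‖y‖))
    (hCp : 0 ≤ Cp) (hCs : 0 ≤ Cs) (hC1 : 1 ≤ C1) (hL : 0 < L) (hA : A = 4 * C1 * L)
    (hν : 0 < ν) (hδ1p : 0 < δ1) (hδ1le : δ1 ≤ 1 / 4) (hr4 : 4 ≤ r)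
    (hs : ContDiff ℝ 2 (cutH δ1)) (hs1 : ∀ t, HasDerivAt (cutH δ1) (s1 t) t)
    (hs2 : ∀ t, HasDerivAt s1 (s2 t) t)
    (hs0 : ∀ t, t < δ1 ∨ 2 * δ1 < t → s1 t = 0 ∧ s2 t = 0)
    (hsb : ∀ t, |s1 t| ≤ Cs / δ1 ∧ |s2 t| ≤ Cs / δ1 ^ 2)
    (hUc : ContDiff ℝ 2 U) (hU0 : ∀ y, 0 ≤ U y) (hP0 : ∀ y, 0 ≤ P y)
    (hreg : ∀ y : Space, r / 2 ≤ ‖y‖ → δ1 ≤ height y → height y ≤ Real.sqrt r + 1 →
      U y ≤ C1 * L * zG S y ∧ |deriv3 2 U y| ≤ 8 * C1 * L * zG S y / δ1 ∧
        lap U y ≤ q0 S ‖y‖ * U y + 4 * L / r * zG S y - P y)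
    (hbox : ∀ y ∈ Bx, 2 * δ1 ≤ height y ∧ ν ≤ gapFn S A r U y) :
    ∀ y : Space, 0 < height y → r / 2 ≤ ‖y‖ →
      lap (cutMin S A r ν δ1 U) y - S.a ^ 2 * cutMin S A r ν δ1 U y ≤
        A * (4 * Cp + |S.k| + 7) / r * zG S y
          + A * (Cs * (2 + 2 * (8 + 2 * (|S.k / S.a - 2| + S.a)))) *
            ((band δ1).indicator S.G y / δ1)
          - Bx.indicator P y := by
  intro y hz hy
  have ha := S.data.a_pos
  have hA0 : 0 < A := by rw [hA]; positivity
  have hr : 0 < r := by linarith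
  set P2 := |S.k / S.a - 2| with hP2def
  set CΨ := 8 + 2 * (P2 + S.a) with hCΨ
  set Cb := Cs * (2 + 2 * CΨ) with hCb
  set C5 := 4 * Cp + |S.k| + 7 with hC5
  have hP2 : 0 ≤ P2 := abs_nonneg _
  have hy0 : y ≠ 0 := norm_pos_iff.1 (by linarith : 0 < ‖y‖)
  have hG : 0 < S.G y := tailG_pos _ _ (by linarith : 0 < ‖y‖)
  have hzG : 0 ≤ zG S y := mul_nonneg hz.le hG.le
  have hq0 : 0 ≤ A / r * z3G S y :=
    mul_nonneg (by positivity) (mul_nonneg (pow_nonneg hz.le 3) hG.le)
  have hsrc0 : 0 ≤ A * C5 / r * zG S y + A * Cb * ((band δ1).indicator S.G y / δ1) := by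
    have hi : 0 ≤ (band δ1).indicator S.G y := by
      by_cases hyB : y ∈ band δ1
      · rw [indicator_of_mem hyB]; exact hG.le
      · rw [indicator_of_notMem hyB]
    positivity
  rw [lap_cutMin hs hs1 hs2 hUc hy0]
  simp only [cutMin]
  rcases lt_or_ge (height y) δ1 with hlt | hge
  · obtain ⟨e1, e2⟩ := hs0 _ (Or.inl hlt)
    have ec : cutH δ1 (height y) = 0 :=
      Real.smoothTransition.zero_of_nonpos (div_nonpos_of_nonpos_of_nonneg (by linarith) hδ1p.le)
    have hnb : y ∉ Bx := fun hb' => by linarith [(hbox y hb').1]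
    rw [ec, e1, e2, indicator_of_notMem hnb]
    simp only [zero_mul, mul_zero, add_zero, sub_zero]
    exact hsrc0
  set w := sPart' ν (gapFn S A r U y)
  obtain ⟨hw0', hw1⟩ := sPart'_mem ν (gapFn S A r U y)
  obtain ⟨hl1, hl2⟩ := hlaps y hy hz.le
  have hQ : A * (lap (zG S) y - S.a ^ 2 * zG S y) ≤ A * (2 * Cp) / r * zG S y := by
    calc A * (lap (zG S) y - S.a ^ 2 * zG S y) ≤ A * (Cp * zG S y / ‖y‖) :=
          mul_le_mul_of_nonneg_left hl1 hA0.le
      _ ≤ A * (Cp * zG S y / (r / 2)) := by gcongr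
      _ = _ := by ring
  have hbulk : lap (softMin S A r ν U) y - S.a ^ 2 * softMin S A r ν U y ≤
      A * C5 / r * zG S y - w * P y := by
    refine (softMin_super hν hUc hy0).trans ?_
    rcases hw0'.eq_or_lt with hwz | hwz
    · rw [show w = sPart' ν (gapFn S A r U y) from rfl, ← hwz]
      simp only [sub_zero, one_mul, zero_mul, add_zero]
      refine hQ.trans (mul_le_mul_of_nonneg_right (div_le_div_of_nonneg_right
        (mul_le_mul_of_nonneg_left ?_ hA0.le) hr.le) hzG)
      simp only [hC5]; linarith [abs_nonneg S.k]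
    have hD : 0 < gapFn S A r U y := by
      by_contra hn
      rw [sPart'_of_nonpos hν (not_lt.1 hn)] at hwz
      exact lt_irrefl _ hwz
    have hz2 : height y ^ 2 ≤ r := by
      by_contra hn
      push Not at hn
      have : A * zG S y ≤ A / r * z3G S y := by
        calc A * zG S y = A / r * r * zG S y := by field_simp
          _ ≤ A / r * height y ^ 2 * zG S y :=
              mul_le_mul_of_nonneg_right (mul_le_mul_of_nonneg_left hn.le (by positivity)) hzG
          _ = _ := by simp only [z3G, zG]; ring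
      simp only [gapFn] at hD
      linarith [hU0 y]
    have hzs : height y ≤ Real.sqrt r := Real.le_sqrt_of_sq_le hz2
    obtain ⟨hUle, -, hls⟩ := hreg y hy hge (by linarith)
    have hU2 : lap U y - S.a ^ 2 * U y ≤ A * (|S.k| + 1) / r * zG S y - P y := by
      have e1 : q0 S ‖y‖ * U y - S.a ^ 2 * U y ≤ 4 * |S.k| / r * (C1 * L * zG S y) := by
        have e2 : q0 S ‖y‖ - S.a ^ 2 ≤ 4 * |S.k| / r := by
          have e3 : q0 S ‖y‖ - S.a ^ 2 = -(2 * S.k / ‖y‖) := by
            simp only [q0, farPot]; ring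
          rw [e3]
          refine (neg_le_abs _).trans ?_
          rw [abs_div, abs_mul, abs_two, abs_norm]
          calc 2 * |S.k| / ‖y‖ ≤ 2 * |S.k| / (r / 2) := by gcongr
            _ = _ := by ring
        calc q0 S ‖y‖ * U y - S.a ^ 2 * U y = (q0 S ‖y‖ - S.a ^ 2) * U y := by ring
          _ ≤ 4 * |S.k| / r * U y := mul_le_mul_of_nonneg_right e2 (hU0 y)
          _ ≤ _ := mul_le_mul_of_nonneg_left hUle (by positivity)
      have e4 : 4 * L / r * zG S y ≤ A / r * zG S y := by
        calc 4 * L / r * zG S y = 1 * (4 * L / r * zG S y) := by ring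
          _ ≤ C1 * (4 * L / r * zG S y) := mul_le_mul_of_nonneg_right hC1 (by positivity)
          _ = _ := by rw [hA]; ring
      have e5 : A * (|S.k| + 1) / r * zG S y =
          4 * |S.k| / r * (C1 * L * zG S y) + A / r * zG S y := by rw [hA]; ring
      linarith
    have hq2 : A / r * (lap (z3G S) y - S.a ^ 2 * z3G S y) ≤
        A * (6 + 2 * Cp) / r * zG S y := by
      have e1 : height y ^ 3 / ‖y‖ ≤ 2 * height y := by
        rw [div_le_iff₀ (by linarith)]
        calc height y ^ 3 = height y * height y ^ 2 := by ring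
          _ ≤ height y * r := mul_le_mul_of_nonneg_left hz2 hz.le
          _ ≤ height y * (2 * ‖y‖) := mul_le_mul_of_nonneg_left (by linarith) hz.le
          _ = _ := by ring
      calc A / r * (lap (z3G S) y - S.a ^ 2 * z3G S y)
          ≤ A / r * (S.G y * (6 * height y + Cp * height y ^ 3 / ‖y‖)) :=
            mul_le_mul_of_nonneg_left hl2 (by positivity)
        _ ≤ A / r * (S.G y * (6 * height y + Cp * (2 * height y))) := by
            rw [mul_div_assoc Cp]; gcongr
        _ = _ := by simp only [zG]; ring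
    have h1w : (1 - w) * (A * (lap (zG S) y - S.a ^ 2 * zG S y)) ≤
        (1 - w) * (A * C5 / r * zG S y) := by
      refine mul_le_mul_of_nonneg_left (hQ.trans (mul_le_mul_of_nonneg_right
        (div_le_div_of_nonneg_right (mul_le_mul_of_nonneg_left ?_ hA0.le) hr.le) hzG))
        (by linarith)
      simp only [hC5]; linarith [abs_nonneg S.k]
    have h2w : w * ((lap U y - S.a ^ 2 * U y) + A / r * (lap (z3G S) y - S.a ^ 2 * z3G S y)) ≤
        w * (A * C5 / r * zG S y - P y) := by
      refine mul_le_mul_of_nonneg_left ?_ hw0'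
      have e6 : A * C5 / r * zG S y = A * (|S.k| + 1) / r * zG S y +
          A * (6 + 2 * Cp) / r * zG S y + A * (2 * Cp) / r * zG S y := by simp only [hC5]; ring
      have : 0 ≤ A * (2 * Cp) / r * zG S y := by positivity
      linarith
    linarith
  have hs01 : 0 ≤ cutH δ1 (height y) ∧ cutH δ1 (height y) ≤ 1 :=
    ⟨Real.smoothTransition.nonneg _, Real.smoothTransition.le_one _⟩
  have hmain : cutH δ1 (height y) * lap (softMin S A r ν U) y -
      S.a ^ 2 * (cutH δ1 (height y) * softMin S A r ν U y) ≤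
      A * C5 / r * zG S y - Bx.indicator P y := by
    have hm := mul_le_mul_of_nonneg_left hbulk hs01.1
    have h5 : cutH δ1 (height y) * (A * C5 / r * zG S y) ≤ A * C5 / r * zG S y :=
      mul_le_of_le_one_left (by positivity) hs01.2
    have h6 : Bx.indicator P y ≤ cutH δ1 (height y) * (w * P y) := by
      by_cases hyb : y ∈ Bx
      · obtain ⟨hz2, hν'⟩ := hbox y hyb
        have ec : cutH δ1 (height y) = 1 :=
          Real.smoothTransition.one_of_one_le (by rw [le_div_iff₀ hδ1p]; linarith)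
        rw [indicator_of_mem hyb, ec, show w = 1 from sPart'_of_ge hν hν', one_mul, one_mul]
      · rw [indicator_of_notMem hyb]
        exact mul_nonneg hs01.1 (mul_nonneg hw0' (hP0 y))
    linarith
  have hband : softMin S A r ν U y * s2 (height y) +
      2 * (s1 (height y) * deriv3 2 (softMin S A r ν U) y) ≤
      A * Cb * ((band δ1).indicator S.G y / δ1) := by
    by_cases hyB : y ∈ band δ1
    · rw [indicator_of_mem hyB]
      obtain ⟨hlo', hhi'⟩ := hyB
      have hz1 : height y ≤ 1 := by linarith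
      have h1s : 1 ≤ Real.sqrt r := Real.one_le_sqrt.2 (by linarith)
      obtain ⟨-, hdU, -⟩ := hreg y hy hlo' (by linarith)
      obtain ⟨⟨hΨ0, hΨle⟩, -, -⟩ := softMin_bounds hν hzG hq0 hA0.le (hU0 y)
      obtain ⟨hd1, hd3⟩ := abs_deriv3_explicit S (by linarith : 1 ≤ ‖y‖) hz.le hz1
      have hdU' : |deriv3 2 U y| ≤ 4 * A * S.G y := by
        refine hdU.trans ?_
        calc 8 * C1 * L * zG S y / δ1 ≤ 8 * C1 * L * (2 * δ1 * S.G y) / δ1 := by
              simp only [zG]; gcongr
          _ = 4 * A * S.G y := by rw [hA]; field_simp; ring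
      have hdΨ : |deriv3 2 (softMin S A r ν U) y| ≤ A * CΨ * S.G y := by
        refine (abs_deriv3_softMin hUc hy0 hA0.le (by linarith) hdU').trans ?_
        calc A * |deriv3 2 (zG S) y| + 4 * A * S.G y + A * |deriv3 2 (z3G S) y|
            ≤ A * ((1 + P2 + S.a) * S.G y) + 4 * A * S.G y + A * ((3 + P2 + S.a) * S.G y) := by
              gcongr
          _ = _ := by simp only [hCΨ]; ring
      have hΨ2 : softMin S A r ν U y ≤ 2 * A * δ1 * S.G y := by
        refine hΨle.trans ?_
        calc A * (height y * S.G y) ≤ A * (2 * δ1 * S.G y) := by gcongr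
          _ = _ := by ring
      obtain ⟨hb1, hb2⟩ := hsb (height y)
      have e1 : softMin S A r ν U y * s2 (height y) ≤ 2 * A * δ1 * S.G y * (Cs / δ1 ^ 2) :=
        (mul_le_mul_of_nonneg_left ((le_abs_self _).trans hb2) hΨ0).trans
          (mul_le_mul_of_nonneg_right hΨ2 (by positivity))
      have e2 : s1 (height y) * deriv3 2 (softMin S A r ν U) y ≤
          Cs / δ1 * (A * CΨ * S.G y) := by
        refine (le_abs_self _).trans ?_
        rw [abs_mul]
        exact mul_le_mul hb1 hdΨ (abs_nonneg _) (by positivity)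
      have e3 : 2 * A * δ1 * S.G y * (Cs / δ1 ^ 2) + 2 * (Cs / δ1 * (A * CΨ * S.G y)) =
          A * Cb * (S.G y / δ1) := by simp only [hCb]; field_simp
      linarith
    · rw [indicator_of_notMem hyB]
      have h' : height y < δ1 ∨ 2 * δ1 < height y := by
        by_contra hn; push Not at hn; exact hyB hn
      obtain ⟨e1, e2⟩ := hs0 _ h'
      simp [e1, e2]
  linarith

end Vale.Agent.P363.Ext.Small
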