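import Vale.Agent.P363.Ext.Small.Formula

/-!
P363, Kohn-Sham side, smallness near the plane: the lower bound of a mollified candidate on the
sphere `r` from its average over the box at `r - η r / 2`.
-/

noncomputable section

namespace Vale.Agent.P363.Ext.Small

open MeasureTheory Filter Metric Set
open scoped BigOperators Topology ContDiff

/-- The function whose positive part is subtracted. -/
def gapFn (S : Setup) (A r : ℝ) (U : Space → ℝ) (y : Space) : ℝ :=
  A * zG S y - U y - A / r * z3G S y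

/-- The smooth minimum of `U + A z³ G / r` and `A z G`. -/
def softMin (S : Setup) (A r ν : ℝ) (U : Space → ℝ) (y : Space) : ℝ :=
  A * zG S y - sPart ν (gapFn S A r U y)

/-- The test function of the formula. -/
def cutMin (S : Setup) (A r ν δ : ℝ) (U : Space → ℝ) (y : Space) : ℝ :=
  cutH δ (height y) * softMin S A r ν U y

variable {S : Setup} {A r ν δ : ℝ} {U : Space → ℝ}

lemma contDiffOn_gapFn (hU : ContDiff ℝ 2 U) :
    ContDiffOn ℝ 2 (gapFn S A r U) {y : Space | y ≠ 0} :=
  ((contDiffOn_const.mul (contDiffOn_zG S)).sub hU.contDiffOn).sub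
    (contDiffOn_const.mul (contDiffOn_z3G S))

lemma contDiffOn_softMin (hU : ContDiff ℝ 2 U) :
    ContDiffOn ℝ 2 (softMin S A r ν U) {y : Space | y ≠ 0} :=
  (contDiffOn_const.mul (contDiffOn_zG S)).sub
    ((contDiff_sPart ν).comp_contDiffOn (contDiffOn_gapFn hU))

/-- The smooth minimum of supersolutions is a supersolution. -/
lemma softMin_super (hν : 0 < ν) (hU : ContDiff ℝ 2 U) {y : Space} (hy : y ≠ 0) :
    lap (softMin S A r ν U) y - S.a ^ 2 * softMin S A r ν U y ≤
      (1 - sPart' ν (gapFn S A r U y)) * (A * (lap (zG S) y - S.a ^ 2 * zG S y))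
        + sPart' ν (gapFn S A r U y) * ((lap U y - S.a ^ 2 * U y)
          + A / r * (lap (z3G S) y - S.a ^ 2 * z3G S y)) := by
  have hQ : ContDiffOn ℝ 2 (fun w => A * zG S w) {w : Space | w ≠ 0} :=
    contDiffOn_const.mul (contDiffOn_zG S)
  have hq : ContDiffOn ℝ 2 (fun w => A / r * z3G S w) {w : Space | w ≠ 0} :=
    contDiffOn_const.mul (contDiffOn_z3G S)
  have eD : lap (gapFn S A r U) y = A * lap (zG S) y - lap U y - A / r * lap (z3G S) y := by
    show lap (fun w => (A * zG S w - U w) - A / r * z3G S w) y = _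
    rw [lap_sub isOpen_ne_zero (hQ.sub hU.contDiffOn) hq hy,
      lap_sub isOpen_ne_zero hQ hU.contDiffOn hy,
      lap_const_mul A isOpen_ne_zero (contDiffOn_zG S) hy,
      lap_const_mul (A / r) isOpen_ne_zero (contDiffOn_z3G S) hy]
  have e : lap (softMin S A r ν U) y = A * lap (zG S) y -
      (deriv (sPart' ν) (gapFn S A r U y) * (∑ a : Fin 3, deriv3 a (gapFn S A r U) y ^ 2)
        + sPart' ν (gapFn S A r U y) * lap (gapFn S A r U) y) := by
    show lap (fun w => A * zG S w - sPart ν (gapFn S A r U w)) y = _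
    have hs : ContDiffOn ℝ 2 (fun w => sPart ν (gapFn S A r U w)) {w : Space | w ≠ 0} :=
      (contDiff_sPart ν).comp_contDiffOn (contDiffOn_gapFn hU)
    rw [lap_sub isOpen_ne_zero hQ hs hy, lap_const_mul A isOpen_ne_zero (contDiffOn_zG S) hy]
    congr 1
    exact lap_scalar (hasDerivAt_sPart ν) (hasDerivAt_sPart' ν) isOpen_ne_zero
      (contDiffOn_gapFn hU) hy
  have h0 : 0 ≤ deriv (sPart' ν) (gapFn S A r U y) *
      ∑ a : Fin 3, deriv3 a (gapFn S A r U) y ^ 2 :=
    mul_nonneg (deriv_sPart'_nonneg hν _) (Finset.sum_nonneg fun a _ => sq_nonneg _)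
  have h1 := mul_le_mul_of_nonneg_left (sPart_le_mul hν (gapFn S A r U y)) (sq_nonneg S.a)
  rw [e, eD]
  simp only [softMin, gapFn] at h0 h1 ⊢
  linarith

lemma softMin_bounds (hν : 0 < ν) {y : Space} (hz : 0 ≤ zG S y)
    (hq : 0 ≤ A / r * z3G S y) (hA : 0 ≤ A) (hU : 0 ≤ U y) :
    (0 ≤ softMin S A r ν U y ∧ softMin S A r ν U y ≤ A * zG S y) ∧
      (U y ≤ A * zG S y → U y ≤ softMin S A r ν U y) ∧
      softMin S A r ν U y ≤ U y + A / r * z3G S y + ν := by
  have h1 := sPart_le_max hν (gapFn S A r U y)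
  have h2 := sPart_nonneg hν (gapFn S A r U y)
  have h3 := sub_le_sPart hν (gapFn S A r U y)
  have h4 : 0 ≤ A * zG S y := mul_nonneg hA hz
  simp only [softMin]
  refine ⟨⟨?_, by linarith⟩, fun hle => ?_, by simp only [gapFn] at h3 ⊢; linarith⟩
  · have : max (gapFn S A r U y) 0 ≤ A * zG S y :=
      max_le (by simp only [gapFn]; linarith) h4
    linarith
  · have : max (gapFn S A r U y) 0 ≤ A * zG S y - U y :=
      max_le (by simp only [gapFn]; linarith) (by linarith)
    linarith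

/-- The Laplacian of the test function. -/
lemma lap_cutMin {s1 s2 : ℝ → ℝ} (hs : ContDiff ℝ 2 (cutH δ))
    (h1 : ∀ t, HasDerivAt (cutH δ) (s1 t) t) (h2 : ∀ t, HasDerivAt s1 (s2 t) t)
    (hU : ContDiff ℝ 2 U) {y : Space} (hy : y ≠ 0) :
    lap (cutMin S A r ν δ U) y = cutH δ (height y) * lap (softMin S A r ν U) y
      + softMin S A r ν U y * s2 (height y)
      + 2 * (s1 (height y) * deriv3 2 (softMin S A r ν U) y) := by
  have hc : ContDiffOn ℝ 2 (fun w => cutH δ (height w)) {w : Space | w ≠ 0} :=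
    hs.comp_contDiffOn Bar.contDiff_height.contDiffOn
  have hd : ∀ a : Fin 3, deriv3 a (fun w => cutH δ (height w)) y =
      s1 (height y) * if (2 : Fin 3) = a then 1 else 0 := fun a => by
    rw [deriv3_comp_scalar (Bar.contDiff_height.differentiable (n := 1) one_ne_zero y) (h1 _) a,
      Bar.deriv3_height]
  show lap (fun w => cutH δ (height w) * softMin S A r ν U w) y = _
  rw [lap_mul_on isOpen_ne_zero hc (contDiffOn_softMin hU) hy,
    lap_scalar h1 h2 isOpen_ne_zero Bar.contDiff_height.contDiffOn hy, Bar.lap_height]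
  simp only [hd, Bar.deriv3_height, Fin.sum_univ_three]
  simp

/-- The vertical derivative of the smooth minimum. -/
lemma abs_deriv3_softMin (hU : ContDiff ℝ 2 U) {y : Space} (hy : y ≠ 0) (hA : 0 ≤ A)
    (hr : 1 ≤ r) {dU : ℝ} (hdU : |deriv3 2 U y| ≤ dU) :
    |deriv3 2 (softMin S A r ν U) y| ≤
      A * |deriv3 2 (zG S) y| + dU + A * |deriv3 2 (z3G S) y| := by
  have hd : ∀ {f : Space → ℝ}, ContDiffOn ℝ 2 f {w : Space | w ≠ 0} → DifferentiableAt ℝ f y :=
    fun hf => (hf.contDiffAt (isOpen_ne_zero.mem_nhds hy)).differentiableAt two_ne_zero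
  have hzd := hd (contDiffOn_zG S)
  have hUd : DifferentiableAt ℝ U y := hU.differentiable two_ne_zero y
  have h3d := hd (contDiffOn_z3G S)
  have hgd := hd (contDiffOn_gapFn (S := S) (A := A) (r := r) hU)
  set w := sPart' ν (gapFn S A r U y)
  have hg := hgd.hasFDerivAt
  have hcomp := (hasDerivAt_sPart ν (gapFn S A r U y)).comp_hasFDerivAt y hg
  have hgap : HasFDerivAt (gapFn S A r U)
      (A • fderiv ℝ (zG S) y - fderiv ℝ U y - (A / r) • fderiv ℝ (z3G S) y) y :=
    ((hzd.hasFDerivAt.const_mul A).sub hUd.hasFDerivAt).sub (h3d.hasFDerivAt.const_mul (A / r))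
  have e : deriv3 2 (softMin S A r ν U) y =
      (1 - w) * (A * deriv3 2 (zG S) y) + w * (deriv3 2 U y + A / r * deriv3 2 (z3G S) y) := by
    have hs : HasFDerivAt (softMin S A r ν U)
        (A • fderiv ℝ (zG S) y - w • fderiv ℝ (gapFn S A r U) y) y :=
      (hzd.hasFDerivAt.const_mul A).sub hcomp
    rw [deriv3, hs.fderiv, hgap.fderiv]
    simp [deriv3]
    ring
  obtain ⟨hw0, hw1⟩ := sPart'_mem ν (gapFn S A r U y)
  rw [e]
  have h1 : |(1 - w) * (A * deriv3 2 (zG S) y)| ≤ A * |deriv3 2 (zG S) y| := by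
    rw [abs_mul, abs_mul, abs_of_nonneg hA, abs_of_nonneg (by linarith : 0 ≤ 1 - w)]
    exact mul_le_of_le_one_left (by positivity) (by linarith)
  have h2 : |w * (deriv3 2 U y + A / r * deriv3 2 (z3G S) y)| ≤
      dU + A * |deriv3 2 (z3G S) y| := by
    rw [abs_mul, abs_of_nonneg hw0]
    refine (mul_le_of_le_one_left (abs_nonneg _) hw1).trans ((abs_add_le _ _).trans ?_)
    rw [abs_mul]
    refine add_le_add hdU (mul_le_mul_of_nonneg_right ?_ (abs_nonneg _))
    rw [abs_of_nonneg (by positivity)]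
    exact div_le_self hA hr
  exact (abs_add_le _ _).trans (by linarith)

/-- The vertical derivatives of `z G` and `z³ G` at low height. -/
lemma abs_deriv3_explicit (S : Setup) {y : Space} (hr : 1 ≤ ‖y‖) (hz : 0 ≤ height y)
    (hz1 : height y ≤ 1) :
    |deriv3 2 (zG S) y| ≤ (1 + |S.k / S.a - 2| + S.a) * S.G y ∧
      |deriv3 2 (z3G S) y| ≤ (3 + |S.k / S.a - 2| + S.a) * S.G y := by
  have ha := S.data.a_pos
  set p := S.k / S.a - 2
  have hr0 : 0 < ‖y‖ := by linarith
  have hy : y ≠ 0 := norm_pos_iff.1 hr0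
  have hd := Bar.hasDerivAt_tail p S.a hr0
  have hG : 0 < S.G y := tailG_pos _ _ hr0
  have eG : deriv3 2 S.G y = (p / ‖y‖ - S.a) * S.G y * height y / ‖y‖ :=
    Bar.deriv3_radial hy hd 2
  have hGd : DifferentiableAt ℝ S.G y := Bar.differentiableAt_radial hy hd
  have hhd : DifferentiableAt ℝ height y :=
    Bar.contDiff_height.differentiable (n := 1) one_ne_zero y
  have hM : |(p / ‖y‖ - S.a) * (height y / ‖y‖)| ≤ |p| + S.a := by
    rw [abs_mul, abs_of_nonneg (div_nonneg hz hr0.le)]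
    refine (mul_le_of_le_one_right (abs_nonneg _) ((div_le_one hr0).2 (by linarith))).trans ?_
    refine (abs_sub _ _).trans (add_le_add ?_ (abs_of_pos ha).le)
    rw [abs_div, abs_norm]
    exact div_le_self (abs_nonneg _) hr
  have key : ∀ {c d : ℝ}, 0 ≤ c → c ≤ 1 → |d| ≤ 3 →
      |d * S.G y + c * ((p / ‖y‖ - S.a) * S.G y * height y / ‖y‖)| ≤
        (|d| + |p| + S.a) * S.G y := by
    intro c d hc hc1 _
    have e : d * S.G y + c * ((p / ‖y‖ - S.a) * S.G y * height y / ‖y‖) =
        (d + c * ((p / ‖y‖ - S.a) * (height y / ‖y‖))) * S.G y := by ring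
    rw [e, abs_mul, abs_of_pos hG]
    refine mul_le_mul_of_nonneg_right ((abs_add_le _ _).trans ?_) hG.le
    rw [abs_mul, abs_of_nonneg hc]
    have := (mul_le_of_le_one_left (abs_nonneg _) hc1).trans hM
    linarith
  constructor
  · have e : deriv3 2 (zG S) y = 1 * S.G y +
        height y * ((p / ‖y‖ - S.a) * S.G y * height y / ‖y‖) := by
      show deriv3 2 (fun w => height w * S.G w) y = _
      rw [deriv3_mul hhd hGd 2, Bar.deriv3_height, eG]
      simp
    rw [e]
    simpa using key hz hz1 (d := 1) (by norm_num)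
  · have e : deriv3 2 (z3G S) y = 3 * height y ^ 2 * S.G y +
        height y ^ 3 * ((p / ‖y‖ - S.a) * S.G y * height y / ‖y‖) := by
      show deriv3 2 (fun w => height w ^ 3 * S.G w) y = _
      rw [deriv3_mul (f := fun w => height w ^ 3) (hhd.pow 3) hGd 2,
        deriv3_comp_scalar hhd (hasDerivAt_pow 3 _) 2, Bar.deriv3_height, eG]
      simp
    have h2 : height y ^ 2 ≤ 1 := pow_le_one₀ hz hz1
    rw [e]
    refine (key (pow_nonneg hz 3) (pow_le_one₀ hz hz1) ?_).trans ?_
    · rw [abs_of_nonneg (by positivity)]; linarith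
    · rw [abs_of_nonneg (by positivity : (0 : ℝ) ≤ 3 * height y ^ 2)]
      refine mul_le_mul_of_nonneg_right ?_ hG.le
      linarith

/-- A continuous function away from the origin against the kernel difference. -/
lemma integrable_kd_mul {a R : ℝ} (ha : 0 ≤ a) (hR : 0 < R) {x₀ : Space} (hx : R < ‖x₀‖)
    {φ : Space → ℝ} (hφ : ContinuousOn φ {y : Space | y ≠ 0}) :
    Integrable fun y => kd a R x₀ y * φ y := by
  have hK := Point.memLp_kerK ha (contDiff_cutTheta R).continuous (cutTheta_eq_zero hR)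
  have key : ∀ c : Space, ‖c‖ = ‖x₀‖ →
      Integrable fun y => kerK a (cutTheta R) (y - c) * φ y := fun c hc =>
    integrable_ker_mul hK (fun y hy => Point.kerK_zero (cutTheta_eq_zero hR) hy)
      (hφ.mono fun y hy h => by
        rw [mem_closedBall, h, dist_zero_left, hc] at hy
        linarith)
  refine ((key x₀ rfl).sub (key (mirror x₀) (norm_mirror_eq x₀))).congr
    (Eventually.of_forall fun y => ?_)
  simp only [Pi.sub_apply, kd]
  ring

/-- Points of the support are at comparable distances from the origin. -/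
lemma norm_of_support {a R : ℝ} (hR : 0 < R) {x₀ y : Space}
    (h : kd a R x₀ y ≠ 0 ∨ wd a R x₀ y ≠ 0) : ‖x₀‖ - R ≤ ‖y‖ ∧ ‖y‖ ≤ ‖x₀‖ + R := by
  rcases mem_balls_of_ne_zero hR h with hb | hb
  · have hn := norm_sub_dist_le x₀ y
    rw [mem_closedBall, dist_comm] at hb
    exact ⟨by linarith [hn.1], by linarith [hn.2]⟩
  · have hn := norm_sub_dist_le (mirror x₀) y
    rw [mem_closedBall, dist_comm] at hb
    rw [norm_mirror_eq] at hn
    exact ⟨by linarith [hn.1], by linarith [hn.2]⟩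

/-- The kernel against `z G` on the upper half. -/
theorem kd_zG_le (S : Setup) : ∃ η₀ r₀ : ℝ, 0 < η₀ ∧ ∀ η r : ℝ, 0 < η → η ≤ η₀ → r₀ ≤ r →
    2 ≤ η * r → ∀ x₀ : Space, ‖x₀‖ = r → 0 ≤ height x₀ →
      ∫ y in upperH, kd S.a (η * r) x₀ y * zG S y ≤ 2 * η * r / S.a * zG S x₀ := by
  obtain ⟨Cp, r₀, hCp, hr₀, hlaps⟩ := explicit_laps S
  have ha := S.data.a_pos
  refine ⟨min (S.a / (24 * |S.k| + 1)) (1 / 8), 2 * r₀ + 4, lt_min (by positivity) (by norm_num),
    fun η r hη hη0 hr hηr x₀ hx hz => ?_⟩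
  simp only [le_min_iff] at hη0
  obtain ⟨hηk, hη8⟩ := hη0
  set Rb := η * r
  have hRb : Rb ≤ r / 8 := by
    calc Rb ≤ 1 / 8 * r := mul_le_mul_of_nonneg_right hη8 (by linarith)
      _ = r / 8 := by ring
  set c := r - Rb - 2
  have hc0 : 0 ≤ c := by simp only [c]; linarith
  have hodd : ∀ y, zrG S c (mirror y) = -zrG S c y := fun y => by
    simp [zrG, G_mirror, height_mirror, norm_mirror_eq]
  obtain ⟨hi, hle⟩ := green_odd (a := S.a) ha.le (by linarith : 0 < Rb)
    (by rw [hx]; linarith : Rb + 1 < ‖x₀‖) hz (contDiffOn_zrG S c) hodd fun y hy hw => by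
      have hn := (norm_of_support (by linarith : 0 < Rb) (Or.inr hw)).1
      have hy0 : 0 < ‖y‖ := by linarith
      exact mul_nonneg (mul_nonneg hy (tailG_pos _ _ hy0).le) (by simp only [c]; linarith)
  have hk1 : Integrable fun y => kd S.a Rb x₀ y * zG S y :=
    integrable_kd_mul ha.le (by linarith) (by rw [hx]; linarith) (contDiffOn_zG S).continuousOn
  have hmono : ∫ y in upperH, kd S.a Rb x₀ y * (lap (zrG S c) y - S.a ^ 2 * zrG S c y) ≤
      ∫ y in upperH, -S.a * (kd S.a Rb x₀ y * zG S y) := by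
    refine integral_mono_ae hi (hk1.integrableOn.const_mul _) ?_
    filter_upwards [ae_restrict_mem measurableSet_upperH,
      ae_restrict_of_ae (Measure.ae_ne volume x₀)] with y hy hne
    by_cases h0 : kd S.a Rb x₀ y = 0
    · simp [h0]
    have hn := norm_of_support (by linarith : 0 < Rb) (Or.inl h0)
    have h1 : lap (zrG S c) y - S.a ^ 2 * zrG S c y ≤ -(S.a * zG S y) := by
      refine (hlaps y (by linarith) (le_of_lt hy)).2.2.1 c hc0 (by simp only [c]; linarith) ?_
      have h3 : ‖y‖ - c ≤ 3 * Rb := by simp only [c]; linarith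
      have h4 : 4 * |S.k| * (3 * η) ≤ S.a / 2 := by
        have := (le_div_iff₀ (by positivity)).1 hηk
        linarith
      calc 4 * |S.k| * (‖y‖ - c) ≤ 4 * |S.k| * (3 * Rb) :=
            mul_le_mul_of_nonneg_left h3 (by positivity)
        _ = 4 * |S.k| * (3 * η) * r := by simp only [Rb]; ring
        _ ≤ S.a / 2 * r := mul_le_mul_of_nonneg_right h4 (by linarith)
        _ = S.a * (r / 2) := by ring
        _ ≤ S.a * ‖y‖ := mul_le_mul_of_nonneg_left (by linarith) ha.le
    have := mul_le_mul_of_nonneg_left h1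
      (kd_nonneg ha.le (by linarith : 0 < Rb) (mul_nonneg (le_of_lt hy) hz) hne)
    linarith
  rw [integral_const_mul] at hmono
  have hP : zrG S c x₀ ≤ 2 * Rb * zG S x₀ := by
    simp only [zrG, zG, c, hx]
    calc height x₀ * S.G x₀ * (r - (r - Rb - 2)) ≤ height x₀ * S.G x₀ * (2 * Rb) :=
          mul_le_mul_of_nonneg_left (by linarith)
            (mul_nonneg hz (tailG_pos _ _ (by linarith : 0 < ‖x₀‖)).le)
      _ = _ := by ring
  rw [show 2 * η * r / S.a * zG S x₀ = 2 * Rb * zG S x₀ / S.a by simp only [Rb]; ring,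
    le_div_iff₀ ha]
  linarith

/-- The kernel against `G` on the band. -/
theorem kd_band_le (S : Setup) : ∃ η₀ C r₀ : ℝ, 0 < η₀ ∧ 0 ≤ C ∧ ∀ η r δ : ℝ, 0 < η → η ≤ η₀ →
    r₀ ≤ r → 2 ≤ η * r → 0 < δ → ∀ x₀ : Space, ‖x₀‖ = r → 0 ≤ height x₀ →
      ∫ y in upperH, kd S.a (η * r) x₀ y *
          ({y : Space | δ ≤ height y ∧ height y ≤ 2 * δ}.indicator S.G y) / δ ≤
        C * (η * zG S x₀ + δ * S.G x₀) := by
  obtain ⟨η₁, r₁, hη₁, hJ⟩ := kd_zG_le S
  obtain ⟨Cp, r₀, hCp, hr₀, hlaps⟩ := explicit_laps S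
  have ha := S.data.a_pos
  refine ⟨min η₁ (1 / 8), 25 / 2 * (4 * Cp / S.a + 2), max r₁ (2 * r₀ + 4),
    lt_min hη₁ (by norm_num), by positivity, fun η r δ hη hη0 hr hηr hδ x₀ hx hz => ?_⟩
  simp only [le_min_iff] at hη0
  simp only [max_le_iff] at hr
  set Rb := η * r
  have hRb : Rb ≤ r / 8 := by
    calc Rb ≤ 1 / 8 * r := mul_le_mul_of_nonneg_right hη0.2 (by linarith [hr.2])
      _ = r / 8 := by ring
  have hodd : ∀ y, atanG S δ (mirror y) = -atanG S δ y := fun y => by
    simp [atanG, G_mirror, height_mirror, neg_div, Real.arctan_neg]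
  obtain ⟨hi, hle⟩ := green_odd (a := S.a) ha.le (by linarith : 0 < Rb)
    (by rw [hx]; linarith [hr.2] : Rb + 1 < ‖x₀‖) hz (contDiffOn_atanG S δ) hodd fun y hy hw => by
      have hn := (norm_of_support (by linarith : 0 < Rb) (Or.inr hw)).1
      exact mul_nonneg (mul_nonneg hδ.le (Real.arctan_nonneg.2 (div_nonneg hy hδ.le)))
        (tailG_pos _ _ (by linarith [hr.2] : 0 < ‖y‖)).le
  have hx' : Rb < ‖x₀‖ := by rw [hx]; linarith [hr.2]
  have hk1 : Integrable fun y => kd S.a Rb x₀ y * zG S y :=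
    integrable_kd_mul ha.le (by linarith) hx' (contDiffOn_zG S).continuousOn
  have hk2 : Integrable fun y => kd S.a Rb x₀ y * S.G y :=
    integrable_kd_mul ha.le (by linarith) hx' (contDiffOn_G S (m := 2)).continuousOn
  set Bd : Set Space := {y : Space | δ ≤ height y ∧ height y ≤ 2 * δ}
  have hBd : MeasurableSet Bd :=
    ((isClosed_le continuous_const (Bar.contDiff_height.continuous (n := 0))).inter
      (isClosed_le (Bar.contDiff_height.continuous (n := 0)) continuous_const)).measurableSet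
  have hk2' : Integrable fun y => kd S.a Rb x₀ y * Bd.indicator S.G y / δ := by
    refine ((hk2.indicator hBd).div_const δ).congr (Eventually.of_forall fun y => ?_)
    by_cases hy : y ∈ Bd <;> simp [hy]
  have hmono : ∫ y in upperH, kd S.a Rb x₀ y * (lap (atanG S δ) y - S.a ^ 2 * atanG S δ y) ≤
      ∫ y in upperH, (2 * Cp / r * (kd S.a Rb x₀ y * zG S y) -
        2 / 25 * (kd S.a Rb x₀ y * Bd.indicator S.G y / δ)) := by
    refine integral_mono_ae hi
      ((hk1.integrableOn.const_mul _).sub (hk2'.integrableOn.const_mul _)) ?_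
    filter_upwards [ae_restrict_mem measurableSet_upperH,
      ae_restrict_of_ae (Measure.ae_ne volume x₀)] with y hy hne
    by_cases h0 : kd S.a Rb x₀ y = 0
    · simp [h0]
    have hn := norm_of_support (by linarith : 0 < Rb) (Or.inl h0)
    have hz' : 0 ≤ zG S y :=
      mul_nonneg (le_of_lt hy) (tailG_pos _ _ (by linarith [hr.2] : 0 < ‖y‖)).le
    obtain ⟨h1, h2⟩ := (hlaps y (by linarith [hr.2]) (le_of_lt hy)).2.2.2 δ hδ
    have h3 : Cp * zG S y / ‖y‖ ≤ 2 * Cp / r * zG S y := by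
      calc Cp * zG S y / ‖y‖ ≤ Cp * zG S y / (r / 2) :=
            div_le_div_of_nonneg_left (by positivity) (by linarith [hr.2]) (by linarith [hr.2])
        _ = _ := by ring
    have hkd := kd_nonneg ha.le (by linarith : 0 < Rb) (mul_nonneg (le_of_lt hy) hz) hne
    have h4 : lap (atanG S δ) y - S.a ^ 2 * atanG S δ y ≤
        2 * Cp / r * zG S y - 2 / 25 * (Bd.indicator S.G y / δ) := by
      by_cases hyB : y ∈ Bd
      · rw [indicator_of_mem hyB]; linarith [h2 hyB.1 hyB.2]
      · rw [indicator_of_notMem hyB]; simp; linarith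
    have := mul_le_mul_of_nonneg_left h4 hkd
    beta_reduce; refine le_trans this (le_of_eq ?_); ring
  rw [integral_sub (hk1.integrableOn.const_mul _) (hk2'.integrableOn.const_mul _),
    integral_const_mul, integral_const_mul] at hmono
  have h5 : 2 * Cp / r * ∫ y in upperH, kd S.a Rb x₀ y * zG S y ≤ 4 * Cp / S.a * (η * zG S x₀) := by
    refine (mul_le_mul_of_nonneg_left (hJ η r hη hη0.1 hr.1 hηr x₀ hx hz)
      (div_nonneg (by positivity) (by linarith [hr.2]))).trans (le_of_eq ?_)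
    have : r ≠ 0 := (by linarith [hr.2] : (0 : ℝ) < r).ne'
    field_simp
    ring
  have hG0 : 0 < S.G x₀ := tailG_pos _ _ (by linarith : 0 < ‖x₀‖)
  have h6 : atanG S δ x₀ ≤ 2 * (δ * S.G x₀) := by
    have := Real.arctan_lt_pi_div_two (height x₀ / δ)
    calc δ * Real.arctan (height x₀ / δ) * S.G x₀ ≤ δ * 2 * S.G x₀ := by
          gcongr
          linarith [Real.pi_le_four]
      _ = _ := by ring
  have hz0 : 0 ≤ η * zG S x₀ := mul_nonneg hη.le (mul_nonneg hz hG0.le)
  have e : 25 / 2 * (4 * Cp / S.a + 2) * (η * zG S x₀ + δ * S.G x₀) =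
      25 / 2 * (4 * Cp / S.a * (η * zG S x₀) + 2 * (δ * S.G x₀)) +
      25 / 2 * (4 * Cp / S.a * (δ * S.G x₀) + 2 * (η * zG S x₀)) := by ring
  have h7 : 0 ≤ 25 / 2 * (4 * Cp / S.a * (δ * S.G x₀) + 2 * (η * zG S x₀)) := by positivity
  linarith


end Vale.Agent.P363.Ext.Small
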